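import Vale.Agent.P031.Defs

/-! The interfaces between the modules of the proof. -/

open Filter MeasureTheory
open scoped Topology

noncomputable section

namespace P031

/-- The prime number theorem, in ratio form. -/
def PNTStatement : Prop :=
  ∀ c : ℝ, 0 < c → Tendsto
    (fun y : ℝ => (Nat.primeCounting ⌊c * y⌋₊ : ℝ) / (Nat.primeCounting ⌊y⌋₊ : ℝ))
    atTop (𝓝 c)

/-- Upper sieve bounds for two and for three simultaneous prime conditions. -/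
def SieveStatement : Prop :=
  ∃ C : ℝ, 0 < C ∧ ∃ k : ℕ, ∀ X Y : ℝ, 3 ≤ Y → Y ≤ X → ∀ L : Finset ℕ,
    (∀ l ∈ L, l.Prime ∧ Y ≤ l ∧ (l : ℝ) ≤ X) →
    (∀ a : ℕ, 1 ≤ a → (∀ l ∈ L, (a * l + 1).Prime) →
      (L.card : ℝ) ≤ C * X * llg (X * a) ^ k / Real.log Y ^ 2 ∧
      ∑ l ∈ L, (l : ℝ)⁻¹ ≤ C * Real.log X * llg (X * a) ^ k / Real.log Y ^ 2) ∧
    (∀ a b : ℕ, 1 ≤ a → 1 ≤ b → a ≠ b →
      (∀ l ∈ L, (a * l + 1).Prime ∧ (b * l + 1).Prime) →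
      (L.card : ℝ) ≤ C * X * llg (X * a * b) ^ k / Real.log Y ^ 3 ∧
      ∑ l ∈ L, (l : ℝ)⁻¹ ≤ C * Real.log X * llg (X * a * b) ^ k / Real.log Y ^ 3)

/-- Reciprocal sums over one cell. -/
def CellStatement : Prop :=
  ∃ t0 : ℕ, ∀ t : ℕ, t0 ≤ t →
    |∑ p ∈ cellPrimes t, (p : ℝ)⁻¹ - 1| ≤ Real.exp (-(t : ℝ) / 2)

/-- Rankin's bound for smooth numbers. -/
def SmoothStatement : Prop :=
  ∃ C : ℝ, 0 < C ∧ ∀ X Y : ℝ, 2 ≤ Y → Y ≤ X → ∀ F : Finset ℕ,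
    (∀ n ∈ F, 1 ≤ n ∧ (n : ℝ) ≤ X ∧ ∀ p ∈ n.primeFactors, (p : ℝ) ≤ Y) →
    (F.card : ℝ) ≤ C * X * Real.exp (-Real.log X / (4 * Real.log Y)) * (Real.log X + 2) ^ 8

/-- Abnormal primes are rare. -/
def AbnormalStatement : Prop :=
  ∃ t0 : ℕ,
    (∀ t : ℕ, t0 ≤ t → ∀ F : Finset ℕ, (∀ p ∈ F, p ∈ cellPrimes t ∧ ¬ Normal p) →
      ∑ p ∈ F, (p : ℝ)⁻¹ ≤ Real.exp (-(t : ℝ) ^ ((1 : ℝ) / 3))) ∧
    (∀ (t : ℕ) (X : ℝ), t0 ≤ t → InRange t X → ∀ F : Finset ℕ,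
      (∀ p ∈ F, p.Prime ∧ Real.sqrt X ≤ p ∧ (p : ℝ) ≤ X ∧ ¬ Normal p) →
      (F.card : ℝ) ≤ X / Real.log X * Real.exp (-(t : ℝ) ^ ((1 : ℝ) / 3)))

/-- The crude bound for the reciprocal sum of distinct totients of given top scale. -/
def TotalStatement : Prop :=
  ∃ C : ℝ, 0 < C ∧ ∀ T : ℕ, ∀ F : Finset ℕ,
    ValuesOf (fun n => 0 < n ∧ CellsLe n T) F →
    invSum F ≤ Real.exp (C * Real.log ((T : ℝ) + 3) ^ 2)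

/-- Exceptional cofactors are rare. -/
def ExceptionalStatement : Prop :=
  ∃ T0 : ℕ, ∀ T : ℕ, T0 ≤ T → ∀ F : Finset ℕ,
    ValuesOf (fun n => 0 < n ∧ CellsLe n (T + 2) ∧ Exceptional T n) F →
    invSum F ≤ Real.exp (-(T : ℝ) ^ ((1 : ℝ) / 12))

/-- Values with a bad top scale are rare. -/
def BadStatement : Prop :=
  ∃ s0 : ℕ, ∀ s : ℕ, s0 ≤ s → ∀ F : Finset ℕ,
    ValuesOf (fun n => 0 < n ∧ Bad s n) F →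
    invSum F ≤ Real.exp (-(s : ℝ) ^ ((1 : ℝ) / 16))

/-- Totients with a too costly cofactor are rare. -/
def ViolStatement : Prop :=
  ∃ T0 : ℕ, ∀ T : ℕ, T0 ≤ T → ∀ y : ℝ, InRange T y → ∀ F : Finset ℕ,
    (∀ v ∈ F, (v : ℝ) ≤ y ∧ ∃ p n : ℕ, p.Prime ∧ Normal p ∧
      Real.log y ≤ (T : ℝ) ^ 4 * Real.log p ∧
      0 < n ∧ CellsLe n (T + 2) ∧ ¬ Exceptional T n ∧ (1 + eps T) * T < topG T n ∧
      v = (p - 1) * Nat.totient n) →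
    (F.card : ℝ) ≤ y / Real.log y * Real.exp (-Real.sqrt T)

/-- Two representations with good cofactors are rare. -/
def PairCountStatement : Prop :=
  ∃ T0 : ℕ, ∀ T : ℕ, T0 ≤ T → ∀ y : ℝ, InRange T y → ∀ G : Finset ℕ,
    ValuesOf (Good T) G → ∀ Q : Finset ((ℕ × ℕ) × (ℕ × ℕ)),
    (∀ a ∈ Q, a.1.1.Prime ∧ Normal a.1.1 ∧ a.2.1.Prime ∧ Normal a.2.1 ∧
      a.1.2 ∈ G ∧ a.2.2 ∈ G ∧ a.1.2 ≠ a.2.2 ∧
      (a.1.1 - 1) * a.1.2 = (a.2.1 - 1) * a.2.2 ∧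
      y / Real.log y ^ 2 < (((a.1.1 - 1) * a.1.2 : ℕ) : ℝ) ∧
      (((a.1.1 - 1) * a.1.2 : ℕ) : ℝ) ≤ y) →
    (Q.card : ℝ) ≤ y / Real.log y * Real.exp (-Real.sqrt T)

/-- Two representations as products of shifted primes are rare in weight. -/
def PairWeightStatement : Prop :=
  ∃ s0 : ℕ, ∀ s : ℕ, s0 ≤ s → ∀ Q : Finset (Finset ℕ × Finset ℕ),
    (∀ a ∈ Q, Disjoint a.1 a.2 ∧
      (∀ q ∈ a.1 ∪ a.2, q.Prime ∧ Normal q ∧ cell q ≤ s) ∧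
      a.1.card ≤ Kmax s ∧ a.2.card ≤ Kmax s ∧ (∃ q ∈ a.1, cell q = s) ∧
      gsum ((a.1.filter fun q => cutoff s ≤ cell q).val.map cell) (cutoff s) s
        ≤ (1 - eps s) * s ∧
      ∏ q ∈ a.1, (q - 1) = ∏ q ∈ a.2, (q - 1)) →
    ∑ a ∈ Q, (((∏ q ∈ a.1, (q - 1) : ℕ) : ℝ))⁻¹ ≤ Real.exp (-Real.sqrt s)

/-- Regularity of the polytope volumes. -/
def VolumeStatement : Prop :=
  ∃ S0 : ℝ, ∀ s0 : ℝ, S0 ≤ s0 → ∀ η : ℝ, 0 < η → ∃ X0 : ℝ, ∀ X X' : ℝ, X0 ≤ X → X ≤ X' →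
    X' ≤ X * (1 + 32 * X ^ (-(1 : ℝ) / 8)) → ∀ K : ℕ, (K : ℝ) ≤ 20000 * Real.log X ^ 2 →
    MPlus K s0 X' - MPlus K s0 X ≤ η * MMinus K (s0 / 2) X

/-- The boundary values are bounded by a layer of the loose polytopes. -/
def UpperStatement : Prop :=
  ∃ S0 : ℝ, ∀ s0 : ℝ, S0 ≤ s0 → ∃ C : ℝ, 0 < C ∧ ∃ T0 : ℕ, ∀ T : ℕ, T0 ≤ T → ∀ F : Finset ℕ,
    ValuesOf (Mid T) F →
    invSum F ≤ C * (MPlus (Kvol T) s0 ((1 + 6 * eps T) * T)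
        - MPlus (Kvol T) s0 ((1 - 6 * eps T) * T))
      + C * Real.exp (-(T : ℝ) ^ ((1 : ℝ) / 64))

/-- The good values are bounded below by the strict polytopes. -/
def LowerStatement : Prop :=
  ∃ S0 : ℝ, ∀ s0 : ℝ, S0 ≤ s0 → ∃ c : ℝ, 0 < c ∧ ∃ T0 : ℕ, ∀ T : ℕ, T0 ≤ T →
    ∃ G : Finset ℕ, ValuesOf (Good T) G ∧
      c * MMinus (Kvol T) (s0 / 2) ((1 - 6 * eps T) * T) ≤ invSum G

/-- The boundary values are negligible against the good values. -/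
def RegularityStatement : Prop :=
  ∀ η : ℝ, 0 < η → ∃ T0 : ℕ, ∀ T : ℕ, T0 ≤ T → ∀ F : Finset ℕ, ValuesOf (Mid T) F →
    ∃ G : Finset ℕ, ValuesOf (Good T) G ∧ invSum F ≤ η * invSum G

/-- The final statement. -/
def MainStatement : Prop :=
  ∀ c : ℝ, 1 < c → Tendsto (fun x : ℝ => (V (c * x) : ℝ) / (V x : ℝ)) atTop (𝓝 c)

end P031
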