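import Vale.Agent.P031.Statements
import Vale.Agent.P013.Mertens

/-! Reciprocal sums of primes over one cell, and Rankin's bound for smooth numbers. -/

open Finset

noncomputable section

namespace P031

open Vale.Agent.P013 in
/-- Mertens' second theorem on a range, from both sides. -/
theorem abs_sum_inv_range : ∃ K : ℝ, 0 ≤ K ∧ ∀ a b : ℕ, 2 ≤ a → a ≤ b →
    |∑ p ∈ (Ioc a b).filter Nat.Prime, (p : ℝ)⁻¹ - Real.log (Real.log b / Real.log a)| ≤
      K / Real.log a := by
  obtain ⟨K₁, hK₁0, hK₁⟩ := sum_inv_range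
  obtain ⟨K, hK0, hK⟩ := mertens_first
  refine ⟨max K₁ (2 * K + 1), le_trans hK₁0 (le_max_left _ _), fun a b ha hab => ?_⟩
  have hla : 0 < Real.log (a : ℝ) := Real.log_pos (by exact_mod_cast (by omega : 1 < a))
  have hL : ∀ n : ℕ, 1 ≤ n → Real.log n - K ≤ logSum n := fun n hn => by
    linarith [(abs_le.1 (hK n hn)).1]
  have inv : ∀ n : ℕ, a ≤ n →
      Real.log (Real.log n / Real.log a) + (logSum n - Real.log n + K) / Real.log n
          - 2 * K / Real.log a - (1 / Real.log a - 1 / Real.log n)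
        ≤ ∑ p ∈ (Ioc a n).filter Nat.Prime, (p : ℝ)⁻¹ := by
    intro n hn
    induction n, hn using Nat.le_induction with
    | base =>
      simp only [Ioc_self, filter_empty, sum_empty, div_self hla.ne', Real.log_one, zero_add,
        sub_self, sub_zero]
      rw [← sub_div]
      exact div_nonpos_of_nonpos_of_nonneg (by linarith [(abs_le.1 (hK a (by omega))).2]) hla.le
    | succ n hn ih =>
      have hn0 : (0 : ℝ) < n := by exact_mod_cast (by omega : 0 < n)
      have hn1 : (1 : ℝ) ≤ n := by exact_mod_cast (by omega : 1 ≤ n)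
      have hln : 0 < Real.log n := Real.log_pos (by exact_mod_cast (by omega : 1 < n))
      have hlt : Real.log n ≤ Real.log ((n + 1 : ℕ) : ℝ) :=
        Real.log_le_log hn0 (by exact_mod_cast n.le_succ)
      have hstep : Real.log ((n + 1 : ℕ) : ℝ) - Real.log n ≤ 1 := by
        rw [← Real.log_div (by positivity) hn0.ne']
        refine (Real.log_le_sub_one_of_pos (by positivity)).trans ?_
        rw [sub_le_iff_le_add, div_le_iff₀ hn0]
        push_cast
        linarith
      set l := Real.log (n : ℝ)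
      set l' := Real.log ((n + 1 : ℕ) : ℝ)
      have hl' : 0 < l' := by linarith
      have hD : 0 ≤ logSum n - l + K := by linarith [hL n (by omega)]
      have hlog : Real.log (l' / Real.log a) - Real.log (l / Real.log a) ≤
          (1 - l / l') + (1 / l - 1 / l') := by
        rw [Real.log_div hl'.ne' hla.ne', Real.log_div hln.ne' hla.ne']
        have h := Real.log_le_sub_one_of_pos (div_pos hl' hln)
        rw [Real.log_div hl'.ne' hln.ne'] at h
        have e : l' / l - 1 = (1 - l / l') + (l' - l) * (1 / l - 1 / l') := by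
          field_simp
          ring
        have h2 : (l' - l) * (1 / l - 1 / l') ≤ 1 * (1 / l - 1 / l') :=
          mul_le_mul_of_nonneg_right hstep (sub_nonneg.2 (one_div_le_one_div_of_le hln hlt))
        linarith
      have hS : ∑ p ∈ (Ioc a (n + 1)).filter Nat.Prime, (p : ℝ)⁻¹ =
          ∑ p ∈ (Ioc a n).filter Nat.Prime, (p : ℝ)⁻¹ + (logSum (n + 1) - logSum n) / l' := by
        have e1 : Ioc a (n + 1) = insert (n + 1) (Ioc a n) :=
          (insert_Ioc_right_eq_Ioc_add_one (by omega)).symm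
        unfold logSum
        by_cases hp : (n + 1).Prime
        · have e2 : Nat.primesLE (n + 1) = insert (n + 1) (Nat.primesLE n) := by
            ext t
            simp only [Nat.mem_primesLE, mem_insert]
            constructor
            · rintro ⟨h1, h2⟩
              rcases eq_or_lt_of_le h1 with h | h
              · exact Or.inl h
              · exact Or.inr ⟨by omega, h2⟩
            · rintro (rfl | ⟨h1, h2⟩)
              · exact ⟨le_rfl, hp⟩
              · exact ⟨by omega, h2⟩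
          rw [e1, filter_insert, if_pos hp, sum_insert (by simp)]
          rw [e2, sum_insert (by simp [Nat.mem_primesLE]), add_sub_cancel_right, add_comm]
          congr 1
          rw [div_right_comm, div_self hl'.ne', one_div]
        · have e2 : Nat.primesLE (n + 1) = Nat.primesLE n := by
            ext t
            simp only [Nat.mem_primesLE]
            constructor
            · rintro ⟨h1, h2⟩
              exact ⟨by by_contra h; exact hp ((show t = n + 1 by omega) ▸ h2), h2⟩
            · rintro ⟨h1, h2⟩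
              exact ⟨by omega, h2⟩
          rw [e1, filter_insert, if_neg hp]
          simp [e2]
      rw [hS]
      have e3 : (logSum (n + 1) - l' + K) / l' =
          (logSum n - l + K) / l + (logSum (n + 1) - logSum n) / l' + (l / l' - 1)
            - (logSum n - l + K) * (1 / l - 1 / l') := by
        field_simp
        ring
      have : 0 ≤ (logSum n - l + K) * (1 / l - 1 / l') :=
        mul_nonneg hD (sub_nonneg.2 (one_div_le_one_div_of_le hln hlt))
      rw [e3]
      linarith
  have hlb : 0 ≤ Real.log (b : ℝ) := Real.log_natCast_nonneg _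
  have h1 : 0 ≤ (logSum b - Real.log b + K) / Real.log b :=
    div_nonneg (by linarith [hL b (by omega)]) hlb
  have h2 : 0 ≤ 1 / Real.log b := div_nonneg zero_le_one hlb
  have h3 : K₁ / Real.log a ≤ max K₁ (2 * K + 1) / Real.log a :=
    div_le_div_of_nonneg_right (le_max_left _ _) hla.le
  have h4 : (2 * K + 1) / Real.log a ≤ max K₁ (2 * K + 1) / Real.log a :=
    div_le_div_of_nonneg_right (le_max_right _ _) hla.le
  rw [add_div] at h4
  rw [abs_le]
  constructor <;> linarith [hK₁ a b ha hab, inv b hab]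

/-- Membership in a cell, for a prime and a positive scale. -/
lemma cell_eq_iff {p t : ℕ} (hp : p.Prime) (ht : 1 ≤ t) :
    cell p = t ↔ Real.exp (Real.exp (t : ℝ)) ≤ p ∧ (p : ℝ) < Real.exp (Real.exp ((t : ℝ) + 1)) := by
  have hp1 : (1 : ℝ) < p := by exact_mod_cast hp.one_lt
  rw [cell, Nat.floor_eq_iff' (by omega),
    Real.le_log_iff_exp_le (Real.log_pos hp1), Real.le_log_iff_exp_le (by linarith),
    Real.log_lt_iff_lt_exp (Real.log_pos hp1), Real.log_lt_iff_lt_exp (by linarith)]

/-- A cell is a range of primes with known logarithmic endpoints. -/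
lemma cellPrimes_eq_Ioc {t : ℕ} (ht : 1 ≤ t) :
    cellPrimes t = (Ioc (⌈Real.exp (Real.exp (t : ℝ))⌉₊ - 1)
      (⌈Real.exp (Real.exp ((t : ℝ) + 1))⌉₊ - 1)).filter Nat.Prime := by
  have hx : 0 < ⌈Real.exp (Real.exp (t : ℝ))⌉₊ := Nat.ceil_pos.2 (Real.exp_pos _)
  ext p
  simp only [cellPrimes, mem_filter, mem_range, mem_Ioc]
  constructor
  · rintro ⟨-, hp, hc⟩
    obtain ⟨h1, h2⟩ := (cell_eq_iff hp ht).1 hc
    have := Nat.ceil_le.2 h1
    have := Nat.lt_ceil.2 h2
    exact ⟨⟨by omega, by omega⟩, hp⟩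
  · rintro ⟨⟨h1, h2⟩, hp⟩
    exact ⟨by omega, hp, (cell_eq_iff hp ht).2 ⟨Nat.ceil_le.1 (by omega), Nat.lt_ceil.1 (by omega)⟩⟩

/-- The logarithm of `⌈exp u⌉ - 1`. -/
lemma log_ceil_exp_sub_one {u : ℝ} (hu : 2 ≤ u) :
    2 ≤ ⌈Real.exp u⌉₊ - 1 ∧ Real.log ((⌈Real.exp u⌉₊ - 1 : ℕ) : ℝ) ≤ u ∧
      u - 1 ≤ Real.log ((⌈Real.exp u⌉₊ - 1 : ℕ) : ℝ) := by
  have h3 : u + 1 ≤ Real.exp u := Real.add_one_le_exp u
  have hc : 3 ≤ ⌈Real.exp u⌉₊ := by
    have : ((3 : ℕ) : ℝ) ≤ ⌈Real.exp u⌉₊ := by
      push_cast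
      linarith [Nat.le_ceil (Real.exp u)]
    exact_mod_cast this
  have hup := Nat.ceil_lt_add_one (Real.exp_pos u).le
  have hlo := Nat.le_ceil (Real.exp u)
  refine ⟨by omega, ?_, ?_⟩ <;> rw [Nat.cast_sub (by omega)] <;> push_cast
  · rw [Real.log_le_iff_le_exp (by linarith)]
    linarith
  · rw [Real.le_log_iff_exp_le (by linarith), Real.exp_sub]
    have h2 : 2 ≤ Real.exp 1 := by linarith [Real.add_one_le_exp (1 : ℝ)]
    have : Real.exp u / Real.exp 1 ≤ Real.exp u / 2 :=
      div_le_div_of_nonneg_left (Real.exp_pos u).le two_pos h2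
    linarith

/-- Reciprocal sums over one cell tend to one exponentially fast. -/
theorem cell_mass : CellStatement := by
  obtain ⟨K, hK0, hK⟩ := abs_sum_inv_range
  refine ⟨⌈4 + 4 * K⌉₊, fun t ht => ?_⟩
  have ht' : 4 + 4 * K ≤ (t : ℝ) := Nat.ceil_le.1 ht
  have ht1 : 1 ≤ t := by exact_mod_cast (by linarith : (1 : ℝ) ≤ t)
  have hu := Real.add_one_le_exp (t : ℝ)
  obtain ⟨ha, hla1, hla2⟩ := log_ceil_exp_sub_one (u := Real.exp (t : ℝ)) (by linarith)
  obtain ⟨-, hlb1, hlb2⟩ := log_ceil_exp_sub_one (u := Real.exp ((t : ℝ) + 1))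
    (by linarith [Real.add_one_le_exp ((t : ℝ) + 1)])
  have hab : ⌈Real.exp (Real.exp (t : ℝ))⌉₊ - 1 ≤ ⌈Real.exp (Real.exp ((t : ℝ) + 1))⌉₊ - 1 :=
    Nat.sub_le_sub_right (Nat.ceil_le_ceil (Real.exp_le_exp.2 (Real.exp_le_exp.2 (by linarith)))) 1
  rw [cellPrimes_eq_Ioc ht1]
  set a := ⌈Real.exp (Real.exp (t : ℝ))⌉₊ - 1
  set b := ⌈Real.exp (Real.exp ((t : ℝ) + 1))⌉₊ - 1
  have hS := abs_le.1 (hK a b ha hab)
  set u := Real.exp (t : ℝ) with hu_def
  have he : Real.exp ((t : ℝ) + 1) = Real.exp 1 * u := by rw [Real.exp_add, mul_comm]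
  rw [he] at hlb1 hlb2
  have he2 : 2 ≤ Real.exp 1 := by linarith [Real.add_one_le_exp (1 : ℝ)]
  have hu5 : 5 ≤ u := by linarith
  have hla : 0 < Real.log (a : ℝ) := by linarith
  have hlb : 0 < Real.log (b : ℝ) := by nlinarith
  have hq : K / Real.log a ≤ 2 * K / u := by
    rw [div_le_div_iff₀ hla (by linarith)]
    nlinarith
  have hm1 : Real.log (Real.log b / Real.log a) ≤ 1 + 2 / u := by
    rw [Real.log_le_iff_le_exp (div_pos hlb hla), div_le_iff₀ hla, Real.exp_add]
    have h := Real.add_one_le_exp (2 / u)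
    calc Real.log (b : ℝ) ≤ Real.exp 1 * u := hlb1
      _ ≤ Real.exp 1 * ((2 / u + 1) * (u - 1)) := by
          refine mul_le_mul_of_nonneg_left ?_ (Real.exp_pos 1).le
          have : (2 / u + 1) * (u - 1) = u + 1 - 2 / u := by field_simp; ring
          have : 2 / u ≤ 1 := by rw [div_le_one (by linarith)]; linarith
          linarith
      _ ≤ Real.exp 1 * (Real.exp (2 / u) * Real.log a) := by gcongr; linarith
      _ = _ := by ring
  have hm2 : 1 - 2 / u ≤ Real.log (Real.log b / Real.log a) := by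
    have hpos : 0 < 1 - 1 / (Real.exp 1 * u) := by
      rw [sub_pos, div_lt_one (by positivity)]
      nlinarith
    have hle : Real.exp 1 * (1 - 1 / (Real.exp 1 * u)) ≤ Real.log b / Real.log a := by
      rw [le_div_iff₀ hla]
      calc Real.exp 1 * (1 - 1 / (Real.exp 1 * u)) * Real.log a
          ≤ Real.exp 1 * (1 - 1 / (Real.exp 1 * u)) * u :=
            mul_le_mul_of_nonneg_left hla1 (by positivity)
        _ = Real.exp 1 * u - 1 := by field_simp
        _ ≤ _ := hlb2
    refine le_trans ?_ (Real.log_le_log (by positivity) hle)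
    rw [Real.log_mul (Real.exp_pos 1).ne' hpos.ne', Real.log_exp]
    have h := Real.log_le_sub_one_of_pos (inv_pos.2 hpos)
    rw [Real.log_inv] at h
    have : (1 - 1 / (Real.exp 1 * u))⁻¹ - 1 ≤ 2 / u := by
      have e : (1 - 1 / (Real.exp 1 * u))⁻¹ - 1 = 1 / (Real.exp 1 * u - 1) := by
        have : Real.exp 1 * u - 1 ≠ 0 := by nlinarith
        field_simp
        ring
      rw [e, div_le_div_iff₀ (by nlinarith) (by linarith)]
      nlinarith
    linarith
  have hfin : (2 + 2 * K) / u ≤ Real.exp (-(t : ℝ) / 2) := by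
    rw [div_le_iff₀ (by linarith), hu_def, ← Real.exp_add]
    have := Real.add_one_le_exp (-(t : ℝ) / 2 + t)
    linarith
  rw [add_div] at hfin
  rw [abs_le]
  constructor <;> linarith [hS.1, hS.2]

/-- Rankin's bound for the number of smooth numbers. -/
theorem smooth : SmoothStatement := by
  obtain ⟨K, hK0, hK⟩ := Vale.Agent.P013.sum_inv_range
  have hS2 : Summable fun n : ℕ => 1 / (n : ℝ) ^ 2 := Real.summable_one_div_nat_pow.2 one_lt_two
  set K₁ : ℝ := 1 / 2 - Real.log (Real.log 2) + K / Real.log 2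
  set K₂ : ℝ := ∑' n : ℕ, 1 / (n : ℝ) ^ 2
  refine ⟨Real.exp (5 / 3 * K₁ + 17 * K₂), Real.exp_pos _, fun X Y hY hYX F hF => ?_⟩
  have hX : 0 < X := by linarith
  have hl2 : 0 < Real.log 2 := Real.log_pos one_lt_two
  have hl2' : 1 / 2 < Real.log 2 := by linarith [Real.log_two_gt_d9]
  set L := Real.log Y with hLdef
  have hL2 : Real.log 2 ≤ L := Real.log_le_log two_pos hY
  have hL0 : 0 < L := by linarith
  have hLX : L ≤ Real.log X := Real.log_le_log (by linarith) hYX
  set δ := 1 / (2 * L) with hδ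
  have hδ0 : 0 < δ := by positivity
  have hδ1 : δ < 1 := by rw [hδ, div_lt_one (by positivity)]; linarith
  set N := ⌊Y⌋₊
  have hN : 2 ≤ N := Nat.le_floor (by exact_mod_cast hY)
  have hc : Real.exp (1 / 2) ≤ 5 / 3 := by
    have h : Real.exp (1 / 2) ^ 2 = Real.exp 1 := by rw [← Real.exp_nat_mul]; norm_num
    nlinarith [Real.exp_one_lt_d9, Real.exp_pos (1 / 2)]
  let f : ℕ →* ℝ :=
    { toFun := fun n => ((n : ℝ) ^ (1 - δ))⁻¹
      map_one' := by simp
      map_mul' := fun m n => by
        push_cast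
        rw [Real.mul_rpow (Nat.cast_nonneg _) (Nat.cast_nonneg _), mul_inv] }
  have hf0 : ∀ n, 0 ≤ f n := fun n => by
    simp only [f, MonoidHom.coe_mk, OneHom.coe_mk]
    positivity
  have hf1 : ∀ {p : ℕ}, p.Prime → f p < 1 := fun {p} hp => by
    simp only [f, MonoidHom.coe_mk, OneHom.coe_mk]
    exact inv_lt_one_of_one_lt₀
      (Real.one_lt_rpow (by exact_mod_cast hp.one_lt) (by linarith))
  obtain ⟨-, hh⟩ := EulerProduct.summable_and_hasSum_smoothNumbers_prod_primesBelow_geometric
    (f := f) (fun {p} hp => by rw [Real.norm_of_nonneg (hf0 p)]; exact hf1 hp) (N + 1)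
  have hsum : ∑ n ∈ F, f n ≤ ∏ p ∈ (N + 1).primesBelow, (1 - f p)⁻¹ := by
    classical
    let emb : {n // n ∈ F} → (N + 1).smoothNumbers := fun n =>
      ⟨n.1, Nat.mem_smoothNumbers.2 ⟨by have := (hF _ n.2).1; omega, fun p hp =>
        Nat.lt_succ_of_le (Nat.le_floor ((hF _ n.2).2.2 p (List.mem_toFinset.2 hp)))⟩⟩
    have hinj : Function.Injective emb := fun u v h =>
      Subtype.ext (show (emb u).1 = (emb v).1 from congrArg Subtype.val h)
    rw [← hh.tsum_eq, ← sum_attach]
    calc ∑ n ∈ F.attach, f n.1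
        = ∑ m ∈ F.attach.image emb, f m.1 := by rw [sum_image hinj.injOn]
      _ ≤ _ := hh.summable.sum_le_tsum _ fun m _ => hf0 _
  have hcard : (F.card : ℝ) ≤ X ^ (1 - δ) * ∑ n ∈ F, f n := by
    rw [mul_sum]
    refine le_trans (by simp) (card_nsmul_le_sum F _ (1 : ℝ) fun n hn => ?_)
    obtain ⟨h1, h2, -⟩ := hF n hn
    have : (0 : ℝ) < n := by exact_mod_cast h1
    simp only [f, MonoidHom.coe_mk, OneHom.coe_mk]
    rw [← div_eq_mul_inv, ← Real.div_rpow hX.le this.le]
    exact Real.one_le_rpow ((one_le_div this).2 h2) (by linarith)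
  have hfac : ∀ p ∈ (N + 1).primesBelow,
      (1 - f p)⁻¹ ≤ Real.exp (5 / 3 * (p : ℝ)⁻¹ + 17 * (1 / (p : ℝ) ^ 2)) := by
    intro p hp
    have hpp := Nat.prime_of_mem_primesBelow hp
    have hp2 : (2 : ℝ) ≤ p := by exact_mod_cast hpp.two_le
    have hpY : (p : ℝ) ≤ Y :=
      le_trans (by exact_mod_cast Nat.le_of_lt_succ (Nat.lt_of_mem_primesBelow hp))
        (Nat.floor_le (by linarith))
    have hx : f p ≤ 5 / 3 / p := by
      have e : f p = (p : ℝ) ^ δ / p := by
        simp only [f, MonoidHom.coe_mk, OneHom.coe_mk]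
        rw [← Real.rpow_neg (by linarith), neg_sub, Real.rpow_sub_one (by linarith)]
      rw [e]
      refine div_le_div_of_nonneg_right ?_ (by linarith)
      refine le_trans ?_ hc
      rw [Real.rpow_def_of_pos (by linarith), Real.exp_le_exp]
      calc Real.log p * δ ≤ L * δ :=
            mul_le_mul_of_nonneg_right (Real.log_le_log (by linarith) hpY) hδ0.le
        _ = 1 / 2 := by rw [hδ]; field_simp
    have hp53 : 0 < (p : ℝ) - 5 / 3 := by linarith
    calc (1 - f p)⁻¹ ≤ (1 - 5 / 3 / (p : ℝ))⁻¹ := by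
          refine inv_anti₀ ?_ (by linarith)
          rw [sub_pos, div_lt_one (by linarith)]
          linarith
      _ = 1 + 5 / 3 / ((p : ℝ) - 5 / 3) := by
          rw [one_sub_div (by linarith : (p : ℝ) ≠ 0), inv_div, one_add_div hp53.ne',
            sub_add_cancel]
      _ ≤ 1 + (5 / 3 * (p : ℝ)⁻¹ + 17 * (1 / (p : ℝ) ^ 2)) := by
          rw [add_le_add_iff_left, div_le_iff₀ hp53]
          field_simp
          nlinarith
      _ ≤ _ := by linarith [Real.add_one_le_exp (5 / 3 * (p : ℝ)⁻¹ + 17 * (1 / (p : ℝ) ^ 2))]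
  have hrec : ∑ p ∈ (N + 1).primesBelow, (p : ℝ)⁻¹ ≤ Real.log L + K₁ := by
    have e : (N + 1).primesBelow = insert 2 ((Ioc 2 N).filter Nat.Prime) := by
      ext p
      simp only [Nat.mem_primesBelow, mem_insert, mem_filter, mem_Ioc]
      constructor
      · rintro ⟨h1, h2⟩
        have := h2.two_le
        by_cases h : p = 2
        · exact Or.inl h
        · exact Or.inr ⟨⟨by omega, by omega⟩, h2⟩
      · rintro (rfl | ⟨⟨h1, h2⟩, h3⟩)
        · exact ⟨by omega, Nat.prime_two⟩
        · exact ⟨by omega, h3⟩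
    rw [e, sum_insert (by simp)]
    have h := hK 2 N le_rfl hN
    push_cast at h ⊢
    have hlN : 0 < Real.log (N : ℝ) := Real.log_pos (by exact_mod_cast (by omega : 1 < N))
    rw [Real.log_div hlN.ne' hl2.ne'] at h
    have : Real.log (Real.log (N : ℝ)) ≤ Real.log L :=
      Real.log_le_log hlN (Real.log_le_log (by exact_mod_cast (by omega : 0 < N))
        (Nat.floor_le (by linarith)))
    simp only [K₁]
    linarith
  have hprod : ∏ p ∈ (N + 1).primesBelow, (1 - f p)⁻¹ ≤
      Real.exp (5 / 3 * K₁ + 17 * K₂) * (Real.log X + 2) ^ 8 := by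
    refine le_trans (prod_le_prod (fun p hp => inv_nonneg.2
      (by linarith [hf1 (Nat.prime_of_mem_primesBelow hp)])) hfac) ?_
    rw [← Real.exp_sum, sum_add_distrib, ← mul_sum, ← mul_sum]
    have h2 : ∑ p ∈ (N + 1).primesBelow, 1 / (p : ℝ) ^ 2 ≤ K₂ :=
      hS2.sum_le_tsum _ fun n _ => by positivity
    have h3 : Real.log L ≤ Real.log (Real.log X + 2) := Real.log_le_log hL0 (by linarith)
    have h4 : 0 ≤ Real.log (Real.log X + 2) := Real.log_nonneg (by linarith)
    rw [show (Real.log X + 2) ^ 8 = Real.exp (8 * Real.log (Real.log X + 2)) by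
      rw [mul_comm, ← Real.rpow_def_of_pos (by linarith)]; norm_num, ← Real.exp_add,
      Real.exp_le_exp]
    linarith
  have hXs : X ^ (1 - δ) ≤ X * Real.exp (-Real.log X / (4 * L)) := by
    rw [sub_eq_add_neg, Real.rpow_add hX, Real.rpow_one, Real.rpow_def_of_pos hX]
    refine mul_le_mul_of_nonneg_left (Real.exp_le_exp.2 ?_) hX.le
    rw [hδ]
    have : 0 ≤ Real.log X / (4 * L) := div_nonneg (by linarith) (by linarith)
    have e : Real.log X * -(1 / (2 * L)) = -Real.log X / (4 * L) - Real.log X / (4 * L) := by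
      field_simp
      ring
    linarith
  calc (F.card : ℝ) ≤ X ^ (1 - δ) * ∑ n ∈ F, f n := hcard
    _ ≤ X * Real.exp (-Real.log X / (4 * L)) *
        (Real.exp (5 / 3 * K₁ + 17 * K₂) * (Real.log X + 2) ^ 8) :=
        mul_le_mul hXs (hsum.trans hprod) (sum_nonneg fun n _ => hf0 n) (by positivity)
    _ = _ := by ring

end P031
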