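import Vale.Agent.P013.Mertens

/-!
An upper bound sieve of bounded dimension: Selberg's weights with Rankin's trick for the tail.

For residue classes `ρ p` (at most `k` of them, and not all) the number of `n < X` avoiding all of
them for `p ≤ X ^ δ` is at most a constant times `X ∏ p ≤ X, (1 - #(ρ p) / p)`.
-/

open Finset

noncomputable section

namespace Vale.Agent.P031.Sieve

/-- The density of a set of primes. -/
def dens (c : ℕ → ℕ) (S : Finset ℕ) : ℝ := ∏ p ∈ S, ((c p : ℝ) / p)

/-- Selberg's terms. -/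
def gOf (c : ℕ → ℕ) (S : Finset ℕ) : ℝ := ∏ p ∈ S, ((c p : ℝ) / ((p : ℝ) - c p))

/-- The small subsets. -/
def smallSubsets (P : Finset ℕ) (y : ℝ) : Finset (Finset ℕ) :=
  P.powerset.filter fun L => ((∏ p ∈ L, p : ℕ) : ℝ) ≤ y

/-- The normalising sum. -/
def bigG (c : ℕ → ℕ) (P : Finset ℕ) (y : ℝ) : ℝ := ∑ L ∈ smallSubsets P y, gOf c L

/-- Selberg's weights. -/
def weight (c : ℕ → ℕ) (P : Finset ℕ) (y : ℝ) (S : Finset ℕ) : ℝ :=
  (-1) ^ S.card / (dens c S * bigG c P y) * ∑ L ∈ smallSubsets P y, if S ⊆ L then gOf c L else 0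

/-- Progressions cut by residue conditions are equidistributed up to the number of classes. -/
theorem count_residues {X : ℕ} {ρ : ℕ → Finset ℕ} :
    ∀ S : Finset ℕ, (∀ p ∈ S, p.Prime ∧ ρ p ⊆ range p) → ∀ q a : ℕ, a < q →
      (∀ p ∈ S, Nat.Coprime q p) →
      |(((range X).filter fun n => n % q = a ∧ ∀ p ∈ S, n % p ∈ ρ p).card : ℝ)
        - X / q * dens (fun p => (ρ p).card) S| ≤ ∏ p ∈ S, ((ρ p).card : ℝ) := by
  intro S
  induction S using Finset.induction_on with
  | empty =>
    intro _ q a ha _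
    have hq : 0 < q := by omega
    simp only [dens, prod_empty, mul_one, notMem_empty, false_imp_iff, forall_const, and_true]
    have hc : ((range X).filter fun n => n % q = a).card = (X - a + q - 1) / q := by
      have h := Nat.count_modEq_card X hq a
      rw [Nat.count_eq_card_filter_range] at h
      have h' : ((range X).filter fun n => n % q = a) = (range X).filter fun n => n ≡ a [MOD q] := by
        refine filter_congr fun n _ => ?_
        rw [Nat.ModEq, Nat.mod_eq_of_lt ha]
      rw [h', h, Nat.mod_eq_of_lt ha]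
      have hdm := Nat.div_add_mod X q
      have hr := Nat.mod_lt X hq
      symm
      refine Nat.div_eq_of_lt_le ?_ ?_ <;> split_ifs with hh <;>
        simp only [add_mul, one_mul, add_zero] <;>
        rw [mul_comm (X / q) q] <;> omega
    rw [hc]
    have h1 := Nat.div_mul_le_self (X - a + q - 1) q
    have h2 := Nat.lt_mul_div_succ (X - a + q - 1) hq
    have h3 : ((X - a + q - 1) / q) * q ≤ X + q - 1 := by omega
    have h4 : X ≤ q * ((X - a + q - 1) / q + 1) := by
      rcases le_total a X with h | h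
      · rw [mul_add, mul_one] at h2 ⊢
        omega
      · rw [mul_add, mul_one]
        omega
    rw [abs_le]
    have hq' : (0 : ℝ) < q := by exact_mod_cast hq
    have h5 : (((X - a + q - 1) / q : ℕ) : ℝ) * q ≤ (X : ℝ) + q := by
      exact_mod_cast h3.trans (Nat.sub_le _ _)
    have h6 : (X : ℝ) ≤ q * ((((X - a + q - 1) / q : ℕ) : ℝ) + 1) := by exact_mod_cast h4
    have e : (X : ℝ) / q * q = X := div_mul_cancel₀ _ hq'.ne'
    constructor <;> refine le_of_mul_le_mul_right ?_ hq' <;> rw [sub_mul, e] <;> linarith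
  | @insert p S hp ih =>
    intro hS q a ha hcop
    obtain ⟨hpp, hρ⟩ := hS p (mem_insert_self p S)
    have hcq : Nat.Coprime q p := hcop p (mem_insert_self p S)
    have hS' := fun r hr => hS r (mem_insert_of_mem hr)
    set crt : ℕ → ℕ := fun r => (Nat.chineseRemainder hcq a r : ℕ)
    have hlt : ∀ r, crt r < q * p := fun r =>
      Nat.chineseRemainder_lt_mul hcq a r (by omega) hpp.ne_zero
    have hsplit : ((range X).filter fun n => n % q = a ∧ ∀ t ∈ insert p S, n % t ∈ ρ t) =
        (ρ p).biUnion fun r => (range X).filter fun n => n % (q * p) = crt r ∧ ∀ t ∈ S, n % t ∈ ρ t := by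
      ext n
      simp only [mem_filter, mem_biUnion, mem_range, forall_mem_insert]
      have key : ∀ r, r < p → (n % (q * p) = crt r ↔ n % q = a ∧ n % p = r) := fun r hr => by
        have hs := (Nat.chineseRemainder hcq a r).2
        constructor
        · intro h
          have hn : n ≡ crt r [MOD q * p] := by
            rw [Nat.ModEq, h, Nat.mod_eq_of_lt (hlt r)]
          exact ⟨Eq.trans ((hn.of_mul_right p).trans hs.1) (Nat.mod_eq_of_lt ha),
            Eq.trans ((hn.of_mul_left q).trans hs.2) (Nat.mod_eq_of_lt hr)⟩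
        · rintro ⟨h1, h2⟩
          have : n ≡ crt r [MOD q * p] := Nat.chineseRemainder_modEq_unique hcq
            (by rw [Nat.ModEq, h1, Nat.mod_eq_of_lt ha]) (by rw [Nat.ModEq, h2, Nat.mod_eq_of_lt hr])
          exact Eq.trans this (Nat.mod_eq_of_lt (hlt r))
      constructor
      · rintro ⟨hn, h1, h2, h3⟩
        exact ⟨n % p, h2, hn, (key _ (Nat.mod_lt _ hpp.pos)).2 ⟨h1, rfl⟩, h3⟩
      · rintro ⟨r, hr, hn, h1, h3⟩
        obtain ⟨h4, h5⟩ := (key r (mem_range.1 (hρ hr))).1 h1
        exact ⟨hn, h4, h5 ▸ hr, h3⟩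
    have hdisj : ((ρ p : Finset ℕ) : Set ℕ).PairwiseDisjoint fun r =>
        (range X).filter fun n => n % (q * p) = crt r ∧ ∀ t ∈ S, n % t ∈ ρ t := by
      intro r hr r' hr' hne
      refine disjoint_left.2 fun n hn hn' => hne ?_
      simp only [mem_filter] at hn hn'
      have e : crt r = crt r' := hn.2.1.symm.trans hn'.2.1
      have h1 := (Nat.chineseRemainder hcq a r).2.2
      have h2 := (Nat.chineseRemainder hcq a r').2.2
      have h3 : r ≡ r' [MOD p] := by
        refine h1.symm.trans ?_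
        show crt r ≡ r' [MOD p]
        rw [e]
        exact h2
      rw [Nat.ModEq, Nat.mod_eq_of_lt (mem_range.1 (hρ hr)), Nat.mod_eq_of_lt (mem_range.1 (hρ hr'))] at h3
      exact h3
    rw [hsplit, card_biUnion hdisj, Nat.cast_sum, prod_insert hp]
    have hmain : (X : ℝ) / q * dens (fun t => (ρ t).card) (insert p S)
        = ∑ _r ∈ ρ p, (X : ℝ) / ((q * p : ℕ) : ℝ) * dens (fun t => (ρ t).card) S := by
      rw [sum_const, nsmul_eq_mul, dens, prod_insert hp, ← dens]
      push_cast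
      have : (p : ℝ) ≠ 0 := by exact_mod_cast hpp.ne_zero
      field_simp
    rw [hmain, ← sum_sub_distrib]
    refine (abs_sum_le_sum_abs _ _).trans ?_
    refine (sum_le_card_nsmul _ _ _ fun r _ => ih hS' (q * p) (crt r) (hlt r) fun t ht => ?_).trans
      (by rw [nsmul_eq_mul])
    refine Nat.Coprime.mul_left (hcop t (mem_insert_of_mem ht)) ?_
    exact (Nat.coprime_primes hpp (hS' t ht).1).2 fun h => hp (h ▸ ht)

section Weights

variable {c : ℕ → ℕ} {P : Finset ℕ} {y : ℝ}

theorem sum_alternating (L U : Finset ℕ) (hUL : U ⊆ L) :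
    (∑ S ∈ L.powerset, if U ⊆ S then (-1 : ℝ) ^ S.card else 0)
      = if L = U then (-1) ^ U.card else 0 := by
  have h := prod_add (fun _ : ℕ => (-1 : ℝ)) (fun p => if p ∈ U then 0 else 1) L
  have e1 : ∏ p ∈ L, ((-1 : ℝ) + if p ∈ U then 0 else 1) = if L = U then (-1) ^ U.card else 0 := by
    split_ifs with hLU
    · subst hLU
      rw [prod_congr rfl fun p hp => by rw [if_pos hp, add_zero], prod_const]
    · obtain ⟨p, hpL, hpU⟩ : ∃ p ∈ L, p ∉ U := not_subset.1 fun h => hLU (Subset.antisymm h hUL)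
      exact prod_eq_zero hpL (by simp [hpU])
  rw [← e1, h]
  refine sum_congr rfl fun S hS => ?_
  rw [prod_const]
  split_ifs with hUS
  · rw [prod_eq_one fun p hp => ?_, mul_one]
    rw [if_neg fun hpU => (mem_sdiff.1 hp).2 (hUS hpU)]
  · obtain ⟨p, hpU, hpS⟩ := not_subset.1 hUS
    rw [prod_eq_zero (mem_sdiff.2 ⟨hUL hpU, hpS⟩) (by simp [hpU]), mul_zero]

variable (hP : ∀ p ∈ P, p.Prime ∧ 1 ≤ c p ∧ c p < p)
include hP

theorem dens_pos {S : Finset ℕ} (hS : S ⊆ P) : 0 < dens c S := by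
  refine prod_pos fun p hp => ?_
  obtain ⟨h1, h2, -⟩ := hP p (hS hp)
  exact div_pos (by exact_mod_cast h2) (by exact_mod_cast h1.pos)

theorem gOf_pos {S : Finset ℕ} (hS : S ⊆ P) : 0 < gOf c S := by
  refine prod_pos fun p hp => ?_
  obtain ⟨-, h2, h3⟩ := hP p (hS hp)
  exact div_pos (by exact_mod_cast h2) (sub_pos.2 (by exact_mod_cast h3))

theorem inv_dens {U : Finset ℕ} (hU : U ⊆ P) : (dens c U)⁻¹ = ∑ L ∈ U.powerset, (gOf c L)⁻¹ := by
  rw [dens, ← prod_inv_distrib]
  refine (prod_congr rfl fun p hp => ?_).trans ((prod_one_add (f := fun p => ((c p : ℝ) / ((p : ℝ) - c p))⁻¹) U).trans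
    (sum_congr rfl fun L _ => by rw [gOf, ← prod_inv_distrib]))
  obtain ⟨-, h2, h3⟩ := hP p (hU hp)
  have : (c p : ℝ) ≠ 0 := by exact_mod_cast (by omega : c p ≠ 0)
  rw [inv_div, inv_div]
  field_simp
  ring

variable (hy : 1 ≤ y)
include hy

theorem bigG_pos : 0 < bigG c P y := by
  refine sum_pos (fun L hL => gOf_pos hP (mem_powerset.1 (mem_filter.1 hL).1)) ⟨∅, ?_⟩
  simp [smallSubsets, hy]

theorem weight_empty : weight c P y ∅ = 1 := by
  have := bigG_pos hP hy
  simp only [weight, dens, prod_empty, card_empty, pow_zero, empty_subset, if_true, one_mul]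
  rw [← bigG]
  field_simp

theorem transformed (U : Finset ℕ) :
    (∑ S ∈ P.powerset, if U ⊆ S then dens c S * weight c P y S else 0)
      = if U ∈ smallSubsets P y then (-1) ^ U.card * gOf c U / bigG c P y else 0 := by
  have hG := bigG_pos hP hy
  have step : ∀ S ∈ P.powerset, (if U ⊆ S then dens c S * weight c P y S else 0)
      = ∑ L ∈ smallSubsets P y, (gOf c L / bigG c P y) *
          (if U ⊆ S ∧ S ⊆ L then (-1) ^ S.card else 0) := fun S hS => by
    have hd := (dens_pos hP (mem_powerset.1 hS)).ne'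
    split_ifs with hUS
    · rw [weight, mul_sum, mul_sum]
      refine sum_congr rfl fun L _ => ?_
      by_cases h : S ⊆ L
      · simp only [hUS, h, and_self, if_true]
        field_simp
      · simp [h]
    · simp [hUS]
  rw [sum_congr rfl step, sum_comm]
  simp only [← mul_sum]
  have inner : ∀ L ∈ smallSubsets P y, (∑ S ∈ P.powerset, if U ⊆ S ∧ S ⊆ L then (-1 : ℝ) ^ S.card else 0)
      = if L = U then (-1) ^ U.card else 0 := fun L hL => by
    by_cases hUL : U ⊆ L
    · rw [← sum_alternating L U hUL, ← sum_filter, ← sum_filter]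
      refine sum_congr ?_ fun _ _ => rfl
      ext S
      simp only [mem_filter, mem_powerset]
      exact ⟨fun h => ⟨h.2.2, h.2.1⟩, fun h => ⟨h.1.trans (mem_powerset.1 (mem_filter.1 hL).1), h.2, h.1⟩⟩
    · rw [if_neg fun h : L = U => hUL (h ▸ Subset.refl _)]
      exact sum_eq_zero fun S _ => if_neg fun h => hUL (h.1.trans h.2)
  rw [sum_congr rfl fun L hL => by rw [inner L hL]]
  simp only [mul_ite, mul_zero, sum_ite_eq']
  split_ifs <;> ring

theorem main_term : (∑ S ∈ P.powerset, ∑ T ∈ P.powerset,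
      weight c P y S * weight c P y T * dens c (S ∪ T)) = (bigG c P y)⁻¹ := by
  have hG := bigG_pos hP hy
  have e : ∀ S ∈ P.powerset, ∀ T ∈ P.powerset, weight c P y S * weight c P y T * dens c (S ∪ T)
      = ∑ U ∈ P.powerset, (if U ⊆ S then dens c S * weight c P y S else 0)
          * (if U ⊆ T then dens c T * weight c P y T else 0) * (gOf c U)⁻¹ := fun S hS T hT => by
    have hSP := mem_powerset.1 hS
    have hST : S ∩ T ⊆ P := inter_subset_left.trans hSP
    have h1 : dens c (S ∪ T) = dens c S * dens c T * (dens c (S ∩ T))⁻¹ := by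
      rw [← div_eq_mul_inv, eq_div_iff (dens_pos hP hST).ne']
      exact prod_union_inter
    have e2 : (S ∩ T).powerset = P.powerset.filter fun U => U ⊆ S ∧ U ⊆ T := by
      ext U
      simp only [mem_powerset, mem_filter, subset_inter_iff]
      exact ⟨fun h => ⟨h.1.trans hSP, h⟩, fun h => h.2⟩
    rw [h1, inv_dens hP hST, e2, sum_filter, mul_sum, mul_sum]
    refine sum_congr rfl fun U _ => ?_
    by_cases hUS : U ⊆ S <;> by_cases hUT : U ⊆ T <;> simp [hUS, hUT]; ring
  rw [sum_congr rfl fun S hS => sum_congr rfl (e S hS),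
    sum_congr rfl fun S _ => sum_comm, sum_comm]
  have e3 : ∀ U ∈ P.powerset, (∑ S ∈ P.powerset, ∑ T ∈ P.powerset,
      (if U ⊆ S then dens c S * weight c P y S else 0)
        * (if U ⊆ T then dens c T * weight c P y T else 0) * (gOf c U)⁻¹)
      = if U ∈ smallSubsets P y then gOf c U / bigG c P y ^ 2 else 0 := fun U hU => by
    have hg := (gOf_pos hP (mem_powerset.1 hU)).ne'
    simp only [← sum_mul, ← mul_sum]
    rw [transformed hP hy U]
    split_ifs
    · have hs : ((-1 : ℝ) ^ U.card) ^ 2 = 1 := by rw [← pow_mul, mul_comm, pow_mul]; norm_num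
      field_simp
      linear_combination hs
    · simp
  rw [sum_congr rfl e3, ← sum_filter]
  have : (P.powerset.filter fun U => U ∈ smallSubsets P y) = smallSubsets P y := by
    ext U; simp +contextual [smallSubsets]
  rw [this, ← sum_div, ← bigG]
  field_simp

end Weights

/-- The Rankin tail: half of the complete sum lies below a fixed power of `z`. -/
theorem bigG_lower (k : ℕ) : ∃ M : ℕ, ∀ (c : ℕ → ℕ) (P : Finset ℕ) (z : ℝ), 2 ≤ z →
    (∀ p ∈ P, (p : ℝ) ≤ z ∧ p.Prime ∧ 1 ≤ c p ∧ c p ≤ k ∧ c p < p) →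
    (∏ p ∈ P, (1 + (c p : ℝ) / ((p : ℝ) - c p))) / 2 ≤ bigG c P (z ^ M) := by
  obtain ⟨K, hK0, hK⟩ := Vale.Agent.P013.mertens_first
  set A : ℝ := 2 * (k * (k + 1)) * (1 + 2 * K) with hA
  refine ⟨⌈A⌉₊ + 1, fun c P z hz hP => ?_⟩
  set M := ⌈A⌉₊ + 1
  have hlz : 0 < Real.log z := Real.log_pos (by linarith)
  have hg : ∀ p ∈ P, 0 ≤ (c p : ℝ) / ((p : ℝ) - c p) ∧
      (c p : ℝ) / ((p : ℝ) - c p) ≤ (k * (k + 1) : ℝ) / p := fun p hp => by
    obtain ⟨-, hpp, h1, h2, h3⟩ := hP p hp
    have hd : (1 : ℝ) ≤ (p : ℝ) - c p := by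
      rw [le_sub_iff_add_le]; exact_mod_cast (by omega : 1 + c p ≤ p)
    have h2' : (c p : ℝ) ≤ k := by exact_mod_cast h2
    refine ⟨div_nonneg (by positivity) (by linarith), ?_⟩
    rw [div_le_div_iff₀ (by linarith) (by exact_mod_cast hpp.pos)]
    nlinarith [mul_nonneg (sub_nonneg.2 hd) (sq_nonneg (k : ℝ)),
      mul_nonneg (sub_nonneg.2 h2') (show (0 : ℝ) ≤ (c p : ℝ) + k + 1 by positivity)]
  set ε := 1 / Real.log z with hε
  have hexp : ∀ p ∈ P, (p : ℝ) ^ ε = Real.exp (Real.log p / Real.log z) := fun p hp => by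
    rw [Real.rpow_def_of_pos (by exact_mod_cast (hP p hp).2.1.pos)]
    congr 1; rw [hε]; ring
  have hsum : ∑ p ∈ P, Real.log p / p ≤ Real.log z + K := by
    have hsub : P ⊆ Nat.primesLE ⌊z⌋₊ := fun p hp =>
      Nat.mem_primesLE.2 ⟨Nat.le_floor (hP p hp).1, (hP p hp).2.1⟩
    refine (sum_le_sum_of_subset_of_nonneg hsub fun p _ _ => div_nonneg (Real.log_natCast_nonneg p) (Nat.cast_nonneg p)).trans ?_
    have h1 := (abs_le.1 (hK ⌊z⌋₊ (Nat.le_floor (by norm_num; linarith)))).2
    have h2 : Real.log (⌊z⌋₊ : ℝ) ≤ Real.log z :=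
      Real.log_le_log (by exact_mod_cast Nat.floor_pos.2 (by linarith)) (Nat.floor_le (by linarith))
    change Vale.Agent.P013.logSum _ ≤ _
    linarith
  have hprod : ∏ p ∈ P, (1 + (c p : ℝ) / ((p : ℝ) - c p) * (p : ℝ) ^ ε)
      ≤ (∏ p ∈ P, (1 + (c p : ℝ) / ((p : ℝ) - c p))) * Real.exp A := by
    calc _ ≤ ∏ p ∈ P, (1 + (c p : ℝ) / ((p : ℝ) - c p))
          * Real.exp ((2 * (k * (k + 1)) / Real.log z) * (Real.log p / p)) := by
          refine prod_le_prod (fun p hp => by have := (hg p hp).1; positivity) fun p hp => ?_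
          obtain ⟨hpz, hpp, -⟩ := hP p hp
          obtain ⟨hg0, hg1⟩ := hg p hp
          have hlp : 0 ≤ Real.log p := Real.log_natCast_nonneg p
          have ht : |Real.log p / Real.log z| ≤ 1 := by
            rw [abs_of_nonneg (by positivity), div_le_one hlz]
            exact Real.log_le_log (by exact_mod_cast hpp.pos) hpz
          have he := Real.abs_exp_sub_one_le ht
          rw [abs_of_nonneg (show 0 ≤ Real.log p / Real.log z by positivity)] at he
          have he' := (abs_le.1 he).2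
          rw [hexp p hp]
          set g := (c p : ℝ) / ((p : ℝ) - c p)
          set x := Real.log p / Real.log z
          have hgx : g * (Real.exp x - 1) ≤ 2 * (k * (k + 1)) / Real.log z * (Real.log p / p) := by
            calc g * (Real.exp x - 1) ≤ g * (2 * x) := mul_le_mul_of_nonneg_left he' hg0
              _ ≤ (k * (k + 1) : ℝ) / p * (2 * x) := mul_le_mul_of_nonneg_right hg1 (by positivity)
              _ = _ := by simp only [x]; ring
          set w := 2 * ((k : ℝ) * (k + 1)) / Real.log z * (Real.log p / p)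
          calc 1 + g * Real.exp x = (1 + g) + g * (Real.exp x - 1) := by ring
            _ ≤ (1 + g) + (1 + g) * w := by
                have : 0 ≤ w := by positivity
                nlinarith
            _ ≤ (1 + g) * Real.exp w := by nlinarith [Real.add_one_le_exp w]
      _ = (∏ p ∈ P, (1 + (c p : ℝ) / ((p : ℝ) - c p)))
          * Real.exp ((2 * (k * (k + 1)) / Real.log z) * ∑ p ∈ P, Real.log p / p) := by
          rw [prod_mul_distrib, ← Real.exp_sum, ← mul_sum]
      _ ≤ _ := by
          refine mul_le_mul_of_nonneg_left (Real.exp_le_exp.2 ?_)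
            (prod_nonneg fun p hp => by linarith [(hg p hp).1])
          refine (mul_le_mul_of_nonneg_left hsum (by positivity)).trans ?_
          rw [hA, div_mul_eq_mul_div, div_le_iff₀ hlz, mul_assoc (2 * _)]
          refine mul_le_mul_of_nonneg_left ?_ (by positivity)
          have : (1 / 2 : ℝ) ≤ Real.log z :=
            le_trans (by linarith [Real.log_two_gt_d9]) (Real.log_le_log two_pos hz)
          nlinarith
  have htail : (∑ L ∈ P.powerset.filter fun L => ¬ ((∏ p ∈ L, p : ℕ) : ℝ) ≤ z ^ M, gOf c L)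
      ≤ (∏ p ∈ P, (1 + (c p : ℝ) / ((p : ℝ) - c p))) / 2 := by
    have hgOf : ∀ L ∈ P.powerset, 0 ≤ gOf c L := fun L hL =>
      prod_nonneg fun p hp => (hg p (mem_powerset.1 hL hp)).1
    have hzM : (z ^ M) ^ ε = Real.exp M := by
      rw [Real.rpow_def_of_pos (by positivity), Real.log_pow, hε]
      congr 1; field_simp
    calc _ ≤ ∑ L ∈ P.powerset, gOf c L * ((((∏ p ∈ L, p : ℕ) : ℝ) ^ ε) / Real.exp M) := by
          refine le_trans (sum_le_sum fun L hL => ?_)
            (sum_le_sum_of_subset_of_nonneg (filter_subset _ _) fun L hL _ =>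
              mul_nonneg (hgOf L hL) (by positivity))
          obtain ⟨hL', hlt⟩ := mem_filter.1 hL
          refine le_mul_of_one_le_right (hgOf L hL') ?_
          rw [one_le_div (Real.exp_pos _), ← hzM]
          exact Real.rpow_le_rpow (by positivity) (not_le.1 hlt).le (by positivity)
      _ = (∏ p ∈ P, (1 + (c p : ℝ) / ((p : ℝ) - c p) * (p : ℝ) ^ ε)) / Real.exp M := by
          rw [prod_one_add, sum_div]
          refine sum_congr rfl fun L _ => ?_
          rw [gOf, prod_mul_distrib, Nat.cast_prod, ← Real.finsetProd_rpow _ _ (fun p _ => Nat.cast_nonneg p)]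
          ring
      _ ≤ _ := by
          rw [div_le_div_iff₀ (Real.exp_pos _) two_pos]
          refine (mul_le_mul_of_nonneg_right hprod two_pos.le).trans ?_
          rw [mul_assoc]
          refine mul_le_mul_of_nonneg_left ?_ (prod_nonneg fun p hp => by linarith [(hg p hp).1])
          have h2e : 2 ≤ Real.exp ((M : ℝ) - A) := by
            refine le_trans (by linarith [Real.add_one_le_exp (1 : ℝ)]) (Real.exp_le_exp.2 (?_ : (1 : ℝ) ≤ _))
            have := Nat.le_ceil A
            simp only [M]; push_cast; linarith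
          calc Real.exp A * 2 ≤ Real.exp A * Real.exp ((M : ℝ) - A) := by gcongr
            _ = Real.exp M := by rw [← Real.exp_add, add_sub_cancel]
  have hfull : ∏ p ∈ P, (1 + (c p : ℝ) / ((p : ℝ) - c p)) = ∑ L ∈ P.powerset, gOf c L := by
    rw [prod_one_add]; rfl
  have hsplit := sum_filter_add_sum_filter_not P.powerset
    (fun L => ((∏ p ∈ L, p : ℕ) : ℝ) ≤ z ^ M) (gOf c)
  rw [bigG, smallSubsets]
  linarith

/-- The upper bound with the error made explicit. -/
theorem sieve_core {X k : ℕ} {ρ : ℕ → Finset ℕ} {P : Finset ℕ} {y : ℝ} (hy : 1 ≤ y)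
    (hP : ∀ p ∈ P, p.Prime ∧ ρ p ⊆ range p ∧ 1 ≤ (ρ p).card ∧ (ρ p).card ≤ k ∧ (ρ p).card < p)
    (hG : (∏ p ∈ P, (1 + ((ρ p).card : ℝ) / ((p : ℝ) - (ρ p).card))) / 2
      ≤ bigG (fun p => (ρ p).card) P y) :
    (((range X).filter fun n => ∀ p ∈ P, n % p ∉ ρ p).card : ℝ)
      ≤ 2 * X * ∏ p ∈ P, (1 - ((ρ p).card : ℝ) / p) + 16 * y ^ (2 * (2 * (k + 1)) + 2) := by
  set c : ℕ → ℕ := fun p => (ρ p).card with hc
  have hP' : ∀ p ∈ P, p.Prime ∧ 1 ≤ c p ∧ c p < p := fun p hp =>
    ⟨(hP p hp).1, (hP p hp).2.2.1, (hP p hp).2.2.2.2⟩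
  set w := weight c P y
  have hG0 := bigG_pos hP' hy
  set F : ℝ := ∏ p ∈ P, (1 + (c p : ℝ) / ((p : ℝ) - c p)) with hF
  set f : ℝ := ∏ p ∈ P, (1 - (c p : ℝ) / p) with hf
  have hFf : F * f = 1 := by
    rw [hF, hf, ← prod_mul_distrib]
    refine prod_eq_one fun p hp => ?_
    obtain ⟨h1, -, h3⟩ := hP' p hp
    have : (p : ℝ) ≠ 0 := by exact_mod_cast h1.ne_zero
    have : (p : ℝ) - c p ≠ 0 := (sub_pos.2 (by exact_mod_cast h3)).ne'
    field_simp
    ring
  have hwzero : ∀ S ∈ P.powerset, S ∉ smallSubsets P y → w S = 0 := fun S hS hn => by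
    simp only [w, weight]
    refine mul_eq_zero_of_right _ (sum_eq_zero fun L hL => if_neg fun hSL => hn ?_)
    refine mem_filter.2 ⟨hS, le_trans ?_ (mem_filter.1 hL).2⟩
    exact_mod_cast prod_le_prod_of_subset_of_one_le' hSL fun p hp _ =>
      (hP p (mem_powerset.1 (mem_filter.1 hL).1 hp)).1.one_le
  have hw : ∀ S ∈ smallSubsets P y, |w S| * ∏ p ∈ S, (c p : ℝ) ≤ 2 * y ^ (2 * (k + 1)) := by
    intro S hS
    obtain ⟨hSP, hSy⟩ := mem_filter.1 hS
    rw [mem_powerset] at hSP
    have hd := dens_pos hP' hSP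
    have hgS := gOf_pos hP' hSP
    have hsum : (∑ L ∈ smallSubsets P y, if S ⊆ L then gOf c L else 0) ≤ gOf c S * F := by
      rw [← sum_filter, hF, prod_one_add, mul_sum]
      have hinj : Set.InjOn (· \ S) ((smallSubsets P y).filter (S ⊆ ·) : Finset (Finset ℕ)) := by
        intro L hL L' hL' h
        rw [← sdiff_union_of_subset (mem_filter.1 (mem_coe.1 hL)).2,
          ← sdiff_union_of_subset (mem_filter.1 (mem_coe.1 hL')).2]
        exact congrArg (· ∪ S) h
      calc _ = ∑ L ∈ (smallSubsets P y).filter (S ⊆ ·), gOf c S * gOf c (L \ S) :=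
            sum_congr rfl fun L hL => by
              rw [gOf, gOf, gOf, ← prod_union disjoint_sdiff, union_sdiff_of_subset (mem_filter.1 hL).2]
        _ = ∑ T ∈ ((smallSubsets P y).filter (S ⊆ ·)).image (· \ S), gOf c S * gOf c T := by
            rw [sum_image hinj]
        _ ≤ _ := sum_le_sum_of_subset_of_nonneg (fun T hT => ?_) fun T hT _ =>
            mul_nonneg hgS.le (gOf_pos hP' (mem_powerset.1 hT)).le
      obtain ⟨L, hL, rfl⟩ := mem_image.1 hT
      exact mem_powerset.2 (sdiff_subset.trans (mem_powerset.1 (mem_filter.1 (mem_filter.1 hL).1).1))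
    have hbound : |w S| ≤ 2 * (gOf c S / dens c S) := by
      simp only [w, weight]
      rw [abs_mul, abs_div, abs_pow, abs_neg, abs_one, one_pow, abs_of_pos (by positivity),
        abs_of_nonneg (sum_nonneg fun L hL => by
          split_ifs
          · exact (gOf_pos hP' (mem_powerset.1 (mem_filter.1 hL).1)).le
          · exact le_rfl)]
      refine (mul_le_mul_of_nonneg_left hsum (by positivity)).trans ?_
      have hFG : F ≤ 2 * bigG c P y := by linarith
      rw [div_mul_eq_mul_div, one_mul, div_le_iff₀ (by positivity)]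
      calc gOf c S * F ≤ gOf c S * (2 * bigG c P y) := mul_le_mul_of_nonneg_left hFG hgS.le
        _ = 2 * (gOf c S / dens c S) * (dens c S * bigG c P y) := by field_simp
    refine (mul_le_mul_of_nonneg_right hbound (prod_nonneg fun p _ => Nat.cast_nonneg _)).trans ?_
    rw [mul_assoc]
    refine mul_le_mul_of_nonneg_left ?_ two_pos.le
    rw [gOf, dens, ← prod_div_distrib, ← prod_mul_distrib]
    calc _ ≤ ∏ p ∈ S, (p : ℝ) ^ (2 * (k + 1)) := by
          refine prod_le_prod (fun p hp => ?_) fun p hp => ?_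
          · obtain ⟨-, -, h3⟩ := hP' p (hSP hp)
            have : (c p : ℝ) < p := by exact_mod_cast h3
            have : 0 < (p : ℝ) - c p := by linarith
            positivity
          · obtain ⟨hpp, -, h1, h2, h3⟩ := hP p (hSP hp)
            have hd : (1 : ℝ) ≤ (p : ℝ) - c p := by
              rw [le_sub_iff_add_le]; exact_mod_cast (by simp only [c]; omega : 1 + c p ≤ p)
            have hc0 : (0 : ℝ) < c p := by exact_mod_cast h1
            have hk2 : ((c p : ℝ) + 1) * c p ≤ (p : ℝ) ^ (2 * (k + 1)) := by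
              calc ((c p : ℝ) + 1) * c p ≤ ((k + 1) * (k + 1) : ℕ) := by
                    exact_mod_cast Nat.mul_le_mul (Nat.succ_le_succ h2) (h2.trans (Nat.le_succ k))
                _ ≤ ((2 ^ (k + 1) * 2 ^ (k + 1) : ℕ) : ℝ) := by
                    exact_mod_cast Nat.mul_le_mul (Nat.lt_two_pow_self).le (Nat.lt_two_pow_self).le
                _ = (2 : ℝ) ^ (2 * (k + 1)) := by push_cast; ring
                _ ≤ _ := pow_le_pow_left₀ two_pos.le (by exact_mod_cast hpp.two_le) _
            refine le_trans ?_ hk2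
            rw [div_div_div_eq, div_mul_eq_mul_div, div_le_iff₀ (by positivity)]
            have hc0' := hc0.le
            nlinarith [mul_nonneg (mul_nonneg hc0' hc0') (sub_nonneg.2 hd)]
      _ = ((∏ p ∈ S, p : ℕ) : ℝ) ^ (2 * (k + 1)) := by rw [prod_pow]; push_cast; rfl
      _ ≤ _ := pow_le_pow_left₀ (Nat.cast_nonneg _) hSy _
  have hcard : ((smallSubsets P y).card : ℝ) ≤ 2 * y := by
    have h1 : (smallSubsets P y).card ≤ (range (⌊y⌋₊ + 1)).card := by
      refine card_le_card_of_injOn (fun L => ∏ p ∈ L, p) (fun L hL => ?_) fun L hL L' hL' h => ?_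
      · exact mem_coe.2 (mem_range.2 (Nat.lt_succ_of_le (Nat.le_floor (mem_filter.1 hL).2)))
      · have e : ∀ L ∈ smallSubsets P y, (∏ p ∈ L, p).primeFactors = L := fun L hL =>
          Nat.primeFactors_prod fun p hp => (hP p (mem_powerset.1 (mem_filter.1 hL).1 hp)).1
        rw [← e L hL, ← e L' hL']
        exact congrArg Nat.primeFactors h
    rw [card_range] at h1
    have : ((smallSubsets P y).card : ℝ) ≤ (⌊y⌋₊ : ℝ) + 1 := by exact_mod_cast h1
    linarith [Nat.floor_le (show 0 ≤ y by linarith)]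
  set B : ℕ → Finset ℕ := fun n => P.filter fun p => n % p ∈ ρ p
  have hsift : (((range X).filter fun n => ∀ p ∈ P, n % p ∉ ρ p).card : ℝ)
      ≤ ∑ n ∈ range X, (∑ S ∈ P.powerset, if S ⊆ B n then w S else 0) ^ 2 := by
    rw [← sum_boole]
    refine sum_le_sum fun n _ => ?_
    split_ifs with hn
    · have hB : B n = ∅ := filter_eq_empty_iff.2 fun p hp => hn p hp
      have : (∑ S ∈ P.powerset, if S ⊆ B n then w S else 0) = 1 := by
        rw [hB]
        simp only [subset_empty, sum_ite_eq', empty_mem_powerset, if_true]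
        exact weight_empty hP' hy
      rw [this, one_pow]
    · exact sq_nonneg _
  have hswap : ∑ n ∈ range X, (∑ S ∈ P.powerset, if S ⊆ B n then w S else 0) ^ 2
      = ∑ S ∈ P.powerset, ∑ T ∈ P.powerset,
          w S * w T * ((range X).filter fun n => S ∪ T ⊆ B n).card := by
    simp only [sq, sum_mul_sum]
    rw [sum_comm]
    refine sum_congr rfl fun S _ => ?_
    rw [sum_comm]
    refine sum_congr rfl fun T _ => ?_
    rw [← sum_boole, mul_sum]
    refine sum_congr rfl fun n _ => ?_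
    simp only [union_subset_iff]
    by_cases h1 : S ⊆ B n <;> by_cases h2 : T ⊆ B n <;> simp [h1, h2]
  have hterm : ∀ S ∈ P.powerset, ∀ T ∈ P.powerset,
      w S * w T * ((range X).filter fun n => S ∪ T ⊆ B n).card
        ≤ (X : ℝ) * (w S * w T * dens c (S ∪ T))
          + (if S ∈ smallSubsets P y ∧ T ∈ smallSubsets P y then (2 * y ^ (2 * (k + 1))) ^ 2 else 0) := by
    intro S hS T hT
    by_cases hsm : S ∈ smallSubsets P y ∧ T ∈ smallSubsets P y
    swap
    · rw [if_neg hsm]
      rcases not_and_or.1 hsm with h | h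
      · simp [hwzero S hS h]
      · simp [hwzero T hT h]
    rw [if_pos hsm]
    have hU : S ∪ T ⊆ P := union_subset (mem_powerset.1 hS) (mem_powerset.1 hT)
    have hcnt := count_residues (X := X) (ρ := ρ) (S ∪ T)
      (fun p hp => ⟨(hP p (hU hp)).1, (hP p (hU hp)).2.1⟩) 1 0 one_pos fun p _ => Nat.coprime_one_left p
    have e : ((range X).filter fun n => n % 1 = 0 ∧ ∀ p ∈ S ∪ T, n % p ∈ ρ p)
        = (range X).filter fun n => S ∪ T ⊆ B n := by
      refine filter_congr fun n _ => ?_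
      simp only [Nat.mod_one, true_and, B, subset_iff, mem_filter]
      exact ⟨fun h p hp => ⟨hU hp, h p hp⟩, fun h p hp => (h hp).2⟩
    rw [e, Nat.cast_one, div_one] at hcnt
    set m := (((range X).filter fun n => S ∪ T ⊆ B n).card : ℝ)
    set R := m - X * dens c (S ∪ T) with hR
    have hcU : ∏ p ∈ S ∪ T, (c p : ℝ) ≤ (∏ p ∈ S, (c p : ℝ)) * ∏ p ∈ T, (c p : ℝ) := by
      rw [← prod_union_inter]
      refine le_mul_of_one_le_right (prod_nonneg fun p _ => Nat.cast_nonneg _) ?_
      exact one_le_prod fun p hp => by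
        exact_mod_cast (hP p (mem_powerset.1 hS (mem_inter.1 hp).1)).2.2.1
    calc w S * w T * m = X * (w S * w T * dens c (S ∪ T)) + w S * w T * R := by rw [hR]; ring
      _ ≤ X * (w S * w T * dens c (S ∪ T)) + |w S| * |w T| * ∏ p ∈ S ∪ T, (c p : ℝ) := by
          refine add_le_add le_rfl ((le_abs_self _).trans ?_)
          rw [abs_mul, abs_mul]
          exact mul_le_mul_of_nonneg_left hcnt (by positivity)
      _ ≤ _ := by
          gcongr
          calc |w S| * |w T| * ∏ p ∈ S ∪ T, (c p : ℝ)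
              ≤ |w S| * |w T| * ((∏ p ∈ S, (c p : ℝ)) * ∏ p ∈ T, (c p : ℝ)) := by gcongr
            _ = (|w S| * ∏ p ∈ S, (c p : ℝ)) * (|w T| * ∏ p ∈ T, (c p : ℝ)) := by ring
            _ ≤ _ := by
                rw [sq]
                exact mul_le_mul (hw S hsm.1) (hw T hsm.2) (mul_nonneg (abs_nonneg _)
                  (prod_nonneg fun p _ => Nat.cast_nonneg _)) (by positivity)
  refine hsift.trans (hswap.le.trans ((sum_le_sum fun S hS => sum_le_sum fun T hT => hterm S hS T hT).trans ?_))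
  simp only [sum_add_distrib, ← mul_sum]
  rw [main_term hP' hy]
  refine add_le_add ?_ ?_
  · have h2 : (bigG c P y)⁻¹ ≤ 2 * f := by
      rw [inv_le_iff_one_le_mul₀ hG0]
      have hf0 : 0 ≤ f := by
        by_contra h
        have : F * f ≤ 0 := mul_nonpos_of_nonneg_of_nonpos
          (prod_nonneg fun p hp => by
            obtain ⟨-, -, h3⟩ := hP' p hp
            have : (c p : ℝ) < p := by exact_mod_cast h3
            have : 0 < (p : ℝ) - c p := by linarith
            positivity) (not_le.1 h).le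
        linarith
      nlinarith
    calc (X : ℝ) * (bigG c P y)⁻¹ ≤ X * (2 * f) := mul_le_mul_of_nonneg_left h2 (Nat.cast_nonneg X)
      _ = _ := by ring
  · have hf' : P.powerset.filter (fun S => S ∈ smallSubsets P y) = smallSubsets P y := by
      ext S; simp +contextual [smallSubsets]
    simp only [ite_and, sum_ite_irrel, sum_const_zero, ← sum_filter, hf', sum_const, nsmul_eq_mul]
    calc _ ≤ (2 * y) * ((2 * y) * (2 * y ^ (2 * (k + 1))) ^ 2) := by gcongr
      _ = _ := by ring

/-- The upper bound sieve. -/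
theorem residue_sieve (k : ℕ) : ∃ C δ : ℝ, 0 < C ∧ 0 < δ ∧ ∀ X : ℕ, 2 ≤ X → ∀ ρ : ℕ → Finset ℕ,
    (∀ p, p.Prime → ρ p ⊆ range p ∧ (ρ p).card ≤ k ∧ (ρ p).card < p) →
    (((range X).filter fun n => ∀ p ∈ Nat.primesLE X, (p : ℝ) ≤ (X : ℝ) ^ δ → n % p ∉ ρ p).card : ℝ)
      ≤ C * X * ∏ p ∈ Nat.primesLE X, (1 - ((ρ p).card : ℝ) / p) := by
  obtain ⟨M, hM⟩ := bigG_lower (k + 1)
  obtain ⟨K, hK0, hK⟩ := Vale.Agent.P013.sum_inv_range
  set N := M * (2 * (2 * (k + 1 + 1)) + 2)
  set δ : ℝ := 1 / (2 * (N + 1)) with hδ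
  have hδ0 : 0 < δ := by positivity
  set B : ℝ := ((k : ℝ) + 1) * (k + 2) with hB
  have hB0 : 0 < B := by positivity
  set E : ℝ := 1 / 2 + Real.log (2 / δ) + K / Real.log 2 with hE
  set D : ℝ := Real.exp (B * E) with hD
  set E0 : ℝ := 1 / 2 + K / Real.log 2 - Real.log (Real.log 2) with hE0
  set C1 : ℝ := (2 * B) ^ B * Real.exp (B * E0) with hC1
  refine ⟨2 * D + 16 * C1, δ, by positivity, hδ0, fun X hX ρ hρ => ?_⟩
  have hX1 : (1 : ℝ) ≤ X := by exact_mod_cast (by omega : 1 ≤ X)
  set Q := Nat.primesLE X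
  set z : ℝ := (X : ℝ) ^ δ with hz
  set P := Q.filter fun p : ℕ => (p : ℝ) ≤ z ∧ (ρ p).Nonempty
  have hsub : ((range X).filter fun n => ∀ p ∈ Q, (p : ℝ) ≤ z → n % p ∉ ρ p)
      ⊆ (range X).filter fun n => ∀ p ∈ P, n % p ∉ ρ p := by
    intro n hn
    simp only [mem_filter, P] at hn ⊢
    exact ⟨hn.1, fun p hp => hn.2 p hp.1 hp.2.1⟩
  have hfac : ∀ p ∈ Q, 0 < 1 - ((ρ p).card : ℝ) / p ∧
      (1 - ((ρ p).card : ℝ) / p)⁻¹ ≤ Real.exp (B / p) := fun p hp => by
    have hpp := (Nat.mem_primesLE.1 hp).2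
    obtain ⟨-, h2, h3⟩ := hρ p hpp
    have hp0 : (0 : ℝ) < p := by exact_mod_cast hpp.pos
    have hcp : ((ρ p).card : ℝ) < p := by exact_mod_cast h3
    have hd : (1 : ℝ) ≤ (p : ℝ) - (ρ p).card := by
      rw [le_sub_iff_add_le]; exact_mod_cast (by omega : 1 + (ρ p).card ≤ p)
    refine ⟨sub_pos.2 ((div_lt_one hp0).2 hcp), ?_⟩
    have h2' : ((ρ p).card : ℝ) ≤ k := by exact_mod_cast h2
    refine le_trans ?_ (Real.add_one_le_exp _)
    rw [one_sub_div hp0.ne', inv_div, div_le_iff₀ (by linarith), div_add_one hp0.ne', div_mul_eq_mul_div,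
      le_div_iff₀ hp0, hB]
    nlinarith [mul_nonneg (sub_nonneg.2 hd) (sq_nonneg ((k : ℝ) + 1)),
      mul_nonneg (sub_nonneg.2 h2') (show (0 : ℝ) ≤ p by linarith)]
  have hlX : 0 < Real.log X := Real.log_pos (by exact_mod_cast (by omega : 1 < X))
  have hinv : ∀ R ⊆ Q, (∏ p ∈ R, (1 - ((ρ p).card : ℝ) / p))⁻¹
      ≤ Real.exp (B * ∑ p ∈ R, (p : ℝ)⁻¹) := fun R hR => by
    rw [mul_sum, Real.exp_sum, ← prod_inv_distrib]
    exact prod_le_prod (fun p hp => (inv_pos.2 (hfac p (hR hp)).1).le)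
      fun p hp => by simpa [div_eq_mul_inv] using (hfac p (hR hp)).2
  have hrange : ∀ a : ℕ, 2 ≤ a → a ≤ X → ∀ R ⊆ Q, (∀ p ∈ R, p = 2 ∨ a < p) →
      ∑ p ∈ R, (p : ℝ)⁻¹ ≤ 1 / 2 + Real.log (Real.log X / Real.log a) + K / Real.log 2 := by
    intro a ha haX R hR hR2
    have hsub' : R ⊆ insert 2 ((Ioc a X).filter Nat.Prime) := fun p hp => by
      rcases hR2 p hp with rfl | h
      · exact mem_insert_self _ _
      · exact mem_insert_of_mem (mem_filter.2 ⟨mem_Ioc.2 ⟨h, (Nat.mem_primesLE.1 (hR hp)).1⟩,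
          (Nat.mem_primesLE.1 (hR hp)).2⟩)
    refine (sum_le_sum_of_subset_of_nonneg hsub' fun p _ _ => by positivity).trans ?_
    rw [sum_insert (by simp; omega)]
    have h1 := hK a X ha haX
    have h2 : K / Real.log a ≤ K / Real.log 2 :=
      div_le_div_of_nonneg_left hK0 (Real.log_pos one_lt_two)
        (Real.log_le_log two_pos (by exact_mod_cast ha))
    norm_num
    linarith
  have htail : ∏ p ∈ P, (1 - ((ρ p).card : ℝ) / p) ≤ D * ∏ p ∈ Q, (1 - ((ρ p).card : ℝ) / p) := by
    set R := Q.filter fun p : ℕ => ¬ (p : ℝ) ≤ z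
    have hPR : ∏ p ∈ Q, (1 - ((ρ p).card : ℝ) / p)
        = (∏ p ∈ P, (1 - ((ρ p).card : ℝ) / p)) * ∏ p ∈ R, (1 - ((ρ p).card : ℝ) / p) := by
      rw [← prod_filter_mul_prod_filter_not Q fun p : ℕ => (p : ℝ) ≤ z]
      congr 1
      symm
      refine prod_subset (fun p hp => ?_) fun p hp hp' => ?_
      · simp only [mem_filter, P] at hp ⊢; exact ⟨hp.1, hp.2.1⟩
      · simp only [mem_filter, P] at hp hp'
        have : ρ p = ∅ := not_nonempty_iff_eq_empty.1 fun h => hp' ⟨hp.1, hp.2, h⟩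
        simp [this]
    have hR0 : 0 < ∏ p ∈ R, (1 - ((ρ p).card : ℝ) / p) :=
      prod_pos fun p hp => (hfac p (mem_filter.1 hp).1).1
    have hP0 : 0 ≤ ∏ p ∈ P, (1 - ((ρ p).card : ℝ) / p) :=
      prod_nonneg fun p hp => (hfac p (mem_filter.1 hp).1).1.le
    have hRD : (∏ p ∈ R, (1 - ((ρ p).card : ℝ) / p))⁻¹ ≤ D := by
      refine (hinv R (filter_subset _ _)).trans (Real.exp_le_exp.2 (mul_le_mul_of_nonneg_left ?_ hB0.le))
      set a := max 2 ⌊z⌋₊
      have haX : a ≤ X := max_le hX (Nat.floor_le_of_le (by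
        rw [hz]; refine (Real.rpow_le_rpow_of_exponent_le hX1 ?_).trans_eq (Real.rpow_one _)
        rw [hδ, div_le_one (by positivity)]; linarith [Nat.cast_nonneg (α := ℝ) N]))
      refine (hrange a (le_max_left _ _) haX R (filter_subset _ _) fun p hp => ?_).trans ?_
      · have h := Nat.lt_of_lt_of_le (Nat.lt_succ_of_le (le_refl ⌊z⌋₊)) ((Nat.floor_lt (by positivity)).2 (not_le.1 (mem_filter.1 hp).2))
        have := (Nat.mem_primesLE.1 (mem_filter.1 hp).1).2.two_le
        omega
      · have hla : δ * Real.log X / 2 ≤ Real.log (a : ℝ) := by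
          have hlz : Real.log z = δ * Real.log X := Real.log_rpow (by linarith) δ
          rcases lt_or_ge z 2 with h | h
          · have := Real.log_le_log (by positivity) h.le
            have h2 : Real.log 2 ≤ Real.log (a : ℝ) :=
              Real.log_le_log two_pos (by exact_mod_cast le_max_left 2 ⌊z⌋₊)
            have := Real.log_pos one_lt_two
            nlinarith [mul_nonneg hδ0.le hlX.le]
          · have hf2 : 2 ≤ ⌊z⌋₊ := Nat.le_floor (by exact_mod_cast h)
            have hf : (2 : ℝ) ≤ ⌊z⌋₊ := by exact_mod_cast hf2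
            have hsq : z ≤ (⌊z⌋₊ : ℝ) ^ 2 := by nlinarith [Nat.lt_floor_add_one z]
            have := Real.log_le_log (by linarith) hsq
            rw [Real.log_pow] at this
            have h3 : Real.log (⌊z⌋₊ : ℝ) ≤ Real.log (a : ℝ) :=
              Real.log_le_log (by linarith) (by exact_mod_cast le_max_right 2 ⌊z⌋₊)
            push_cast at this
            linarith
        have hla0 : 0 < Real.log (a : ℝ) := lt_of_lt_of_le (by positivity) hla
        have : Real.log (Real.log X / Real.log a) ≤ Real.log (2 / δ) := by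
          refine Real.log_le_log (by positivity) ?_
          rw [div_le_div_iff₀ hla0 hδ0]
          nlinarith
        rw [hE]; linarith
    rw [hPR]
    have h := mul_le_mul_of_nonneg_left hRD (mul_nonneg hP0 hR0.le)
    rw [mul_assoc, mul_inv_cancel₀ hR0.ne', mul_one] at h
    linarith [h.trans_eq (mul_comm _ D)]
  have hlow : Real.sqrt X ≤ C1 * X * ∏ p ∈ Q, (1 - ((ρ p).card : ℝ) / p) := by
    have hQ0 : 0 < ∏ p ∈ Q, (1 - ((ρ p).card : ℝ) / p) := prod_pos fun p hp => (hfac p hp).1
    have h1 := (hinv Q (Subset.refl _)).trans (Real.exp_le_exp.2 (mul_le_mul_of_nonneg_left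
      (hrange 2 le_rfl hX Q (Subset.refl _) fun p hp => by
        have := (Nat.mem_primesLE.1 hp).2.two_le; omega) hB0.le))
    have h2 : Real.exp (B * (1 / 2 + Real.log (Real.log X / Real.log (2 : ℕ)) + K / Real.log 2))
        = Real.exp (B * E0) * Real.log X ^ B := by
      rw [Real.rpow_def_of_pos hlX, ← Real.exp_add, Nat.cast_ofNat,
        Real.log_div hlX.ne' (Real.log_pos one_lt_two).ne', hE0]
      congr 1; ring
    rw [h2] at h1
    have h3 : Real.log X ^ B ≤ (2 * B) ^ B * Real.sqrt X := by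
      have h := Real.log_le_rpow_div (Nat.cast_nonneg X) (show 0 < 1 / (2 * B) by positivity)
      refine (Real.rpow_le_rpow hlX.le h hB0.le).trans (le_of_eq ?_)
      rw [div_div_eq_mul_div, div_one, Real.mul_rpow (by positivity) (by positivity),
        ← Real.rpow_mul (Nat.cast_nonneg X), Real.sqrt_eq_rpow, mul_comm]
      congr 2; field_simp
    have h4 : (∏ p ∈ Q, (1 - ((ρ p).card : ℝ) / p))⁻¹ ≤ C1 * Real.sqrt X := by
      refine h1.trans (le_of_le_of_eq (mul_le_mul_of_nonneg_left h3 (Real.exp_pos _).le) ?_)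
      rw [hC1]; ring
    rw [inv_le_iff_one_le_mul₀ hQ0] at h4
    calc Real.sqrt X ≤ Real.sqrt X * (C1 * Real.sqrt X * ∏ p ∈ Q, (1 - ((ρ p).card : ℝ) / p)) :=
          le_mul_of_one_le_right (Real.sqrt_nonneg _) h4
      _ = C1 * (Real.sqrt X * Real.sqrt X) * ∏ p ∈ Q, (1 - ((ρ p).card : ℝ) / p) := by ring
      _ = _ := by rw [Real.mul_self_sqrt (Nat.cast_nonneg X)]
  refine le_trans (Nat.cast_le.2 (card_le_card hsub)) ?_
  rcases lt_or_ge z 2 with hz2 | hz2
  · have hPe : P = ∅ := filter_eq_empty_iff.2 fun p hp h => by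
      have : (2 : ℝ) ≤ p := by exact_mod_cast (Nat.mem_primesLE.1 hp).2.two_le
      linarith [h.1]
    rw [hPe, prod_empty] at htail
    have hcard : (((range X).filter fun n => ∀ p ∈ P, n % p ∉ ρ p).card : ℝ) ≤ X := by
      exact_mod_cast (card_filter_le _ _).trans_eq (card_range X)
    refine hcard.trans ?_
    have hQ0 : 0 ≤ ∏ p ∈ Q, (1 - ((ρ p).card : ℝ) / p) := prod_nonneg fun p hp => (hfac p hp).1.le
    have : 0 ≤ C1 := by positivity
    have : 0 ≤ D := by positivity
    nlinarith [mul_le_mul_of_nonneg_left htail (Nat.cast_nonneg (α := ℝ) X),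
      mul_nonneg (mul_nonneg (add_nonneg (show 0 ≤ D by positivity) (show 0 ≤ 16 * C1 by positivity)) (Nat.cast_nonneg (α := ℝ) X)) hQ0]
  · have hP : ∀ p ∈ P, p.Prime ∧ ρ p ⊆ range p ∧ 1 ≤ (ρ p).card ∧ (ρ p).card ≤ k + 1 ∧ (ρ p).card < p :=
      fun p hp => by
        obtain ⟨hQ, -, hne⟩ := mem_filter.1 hp
        obtain ⟨h1, h2, h3⟩ := hρ p (Nat.mem_primesLE.1 hQ).2
        exact ⟨(Nat.mem_primesLE.1 hQ).2, h1, hne.card_pos, h2.trans (Nat.le_succ k), h3⟩
    have hy : 1 ≤ z ^ M := one_le_pow₀ (by linarith)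
    have hcore := sieve_core (X := X) hy hP (hM _ P z hz2 fun p hp =>
      ⟨(mem_filter.1 hp).2.1, (hP p hp).1, (hP p hp).2.2.1, (hP p hp).2.2.2.1, (hP p hp).2.2.2.2⟩)
    have hpow : (z ^ M) ^ (2 * (2 * (k + 1 + 1)) + 2) ≤ Real.sqrt X := by
      rw [← pow_mul, hz, ← Real.rpow_natCast, ← Real.rpow_mul (Nat.cast_nonneg X), Real.sqrt_eq_rpow]
      refine Real.rpow_le_rpow_of_exponent_le hX1 ?_
      rw [hδ, div_mul_eq_mul_div, one_mul, div_le_iff₀ (by positivity)]
      linarith [Nat.cast_nonneg (α := ℝ) N]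
    refine hcore.trans ?_
    nlinarith [mul_le_mul_of_nonneg_left htail (show (0 : ℝ) ≤ 2 * X by positivity)]

end Vale.Agent.P031.Sieve
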