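import Vale.Agent.P031.Statements
import Vale.Agent.P031.SieveCore

/-!
Upper bounds for two and three simultaneous prime conditions `l`, `a l + 1`, `b l + 1`, from the
residue sieve.
-/

open Finset

noncomputable section

namespace P031

open Vale.Agent.P031.Sieve (residue_sieve)

/-- The classes excluded at `p` by `l` and the `a l + 1`, for `5 ≤ p < Y`. -/
def sieveClasses (A : Finset ℕ) (Y : ℝ) (p : ℕ) : Finset ℕ :=
  if 5 ≤ p ∧ (p : ℝ) < Y then insert 0 (A.image fun a : ℕ => (-((a : ZMod p)⁻¹)).val) else ∅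

theorem one_le_llg {z : ℝ} (hz : 0 ≤ z) : 1 ≤ llg z := by
  have h1 : Real.exp 1 ≤ Real.log (z + 16) := by
    refine le_trans ?_ (Real.log_le_log (by norm_num : (0 : ℝ) < 16) (by linarith))
    rw [show (16 : ℝ) = 2 ^ 4 by norm_num, Real.log_pow]
    have := Real.log_two_gt_d9
    have := Real.exp_one_lt_d9
    push_cast; linarith
  rw [llg, ← Real.log_exp 1]
  exact Real.log_le_log (Real.exp_pos 1) h1

/-- The lower half of Mertens' second theorem. -/
theorem sum_inv_primesLE_ge : ∃ C : ℝ, ∀ n : ℕ, 2 ≤ n →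
    Real.log (Real.log n) - C ≤ ∑ p ∈ Nat.primesLE n, (p : ℝ)⁻¹ := by
  obtain ⟨K, hK0, hK⟩ := Vale.Agent.P013.mertens_first
  refine ⟨2 * (K + 1) / Real.log 2 + |Real.log (Real.log 2)|, fun n hn => ?_⟩
  have hl2 : 0 < Real.log 2 := Real.log_pos one_lt_two
  have hlog1 : ∀ m : ℕ, 1 ≤ m → Real.log ((m + 1 : ℕ) : ℝ) ≤ Real.log m + 1 := fun m hm => by
    have hm0 : (0 : ℝ) < m := by exact_mod_cast hm
    have h : ((m + 1 : ℕ) : ℝ) ≤ 2 * m := by exact_mod_cast (by omega : m + 1 ≤ 2 * m)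
    refine (Real.log_le_log (by positivity) h).trans ?_
    rw [Real.log_mul two_ne_zero hm0.ne']
    linarith [Real.log_two_lt_d9]
  have inv : ∀ m : ℕ, 2 ≤ m → Real.log (Real.log m)
      + (Vale.Agent.P013.logSum m - Real.log m + (K + 1)) / Real.log m
      - (2 * (K + 1) / Real.log 2 + |Real.log (Real.log 2)|)
        ≤ ∑ p ∈ Nat.primesLE m, (p : ℝ)⁻¹ := by
    intro m hm
    induction m, hm using Nat.le_induction with
    | base =>
      have h := (abs_le.1 (hK 2 one_le_two)).2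
      have h2 : (Vale.Agent.P013.logSum 2 - Real.log 2 + (K + 1)) / Real.log 2
          ≤ 2 * (K + 1) / Real.log 2 := by
        refine div_le_div_of_nonneg_right ?_ hl2.le
        push_cast at h; linarith
      have h3 : 0 ≤ ∑ p ∈ Nat.primesLE 2, (p : ℝ)⁻¹ := sum_nonneg fun p _ => by positivity
      push_cast
      linarith [le_abs_self (Real.log (Real.log 2))]
    | succ m hm ih =>
      set l := Real.log (m : ℝ)
      set l' := Real.log ((m + 1 : ℕ) : ℝ)
      have hl : 0 < l := Real.log_pos (by exact_mod_cast (by omega : 1 < m))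
      have hll : l ≤ l' :=
        Real.log_le_log (by exact_mod_cast (by omega : 0 < m)) (by exact_mod_cast m.le_succ)
      have hl' : 0 < l' := by linarith
      have hKm : l' ≤ Vale.Agent.P013.logSum m + (K + 1) := by
        linarith [(abs_le.1 (hK m (by omega))).1, hlog1 m (by omega)]
      have hS : ∑ p ∈ Nat.primesLE (m + 1), (p : ℝ)⁻¹ = ∑ p ∈ Nat.primesLE m, (p : ℝ)⁻¹
          + (Vale.Agent.P013.logSum (m + 1) - Vale.Agent.P013.logSum m) / l' := by
        unfold Vale.Agent.P013.logSum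
        by_cases hp : (m + 1).Prime
        · have e : Nat.primesLE (m + 1) = insert (m + 1) (Nat.primesLE m) := by
            ext t
            simp only [Nat.mem_primesLE, mem_insert]
            constructor
            · rintro ⟨h1, h2⟩
              by_cases h : t = m + 1
              · exact Or.inl h
              · exact Or.inr ⟨by omega, h2⟩
            · rintro (rfl | ⟨h1, h2⟩)
              · exact ⟨le_rfl, hp⟩
              · exact ⟨by omega, h2⟩
          rw [e, sum_insert (by simp [Nat.mem_primesLE]), sum_insert (by simp [Nat.mem_primesLE]),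
            add_sub_cancel_right, add_comm]
          congr 1
          rw [div_right_comm, div_self hl'.ne', one_div]
        · have e : Nat.primesLE (m + 1) = Nat.primesLE m := by
            ext t
            simp only [Nat.mem_primesLE]
            constructor
            · rintro ⟨h1, h2⟩
              exact ⟨by by_contra h; exact hp ((show t = m + 1 by omega) ▸ h2), h2⟩
            · rintro ⟨h1, h2⟩; exact ⟨by omega, h2⟩
          rw [e]; simp
      have hlog : Real.log l' - Real.log l ≤ (l' - l) / l := by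
        rw [← Real.log_div hl'.ne' hl.ne', sub_div, div_self hl.ne']
        exact Real.log_le_sub_one_of_pos (div_pos hl' hl)
      have hprod : (l' - l) / l ≤ (Vale.Agent.P013.logSum m + (K + 1)) * (1 / l - 1 / l') := by
        rw [div_sub_div _ _ hl.ne' hl'.ne', mul_div_assoc', div_le_div_iff₀ hl (by positivity)]
        nlinarith [mul_le_mul_of_nonneg_left hKm (mul_nonneg hl.le (sub_nonneg.2 hll))]
      have e3 : (Vale.Agent.P013.logSum (m + 1) - l' + (K + 1)) / l'
          = (Vale.Agent.P013.logSum m - l + (K + 1)) / l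
            + (Vale.Agent.P013.logSum (m + 1) - Vale.Agent.P013.logSum m) / l'
            - (Vale.Agent.P013.logSum m + (K + 1)) * (1 / l - 1 / l') := by
        field_simp
        ring
      rw [hS, e3]
      linarith
  have h0 : 0 ≤ (Vale.Agent.P013.logSum n - Real.log n + (K + 1)) / Real.log n :=
    div_nonneg (by linarith [(abs_le.1 (hK n (by omega))).1]) (Real.log_natCast_nonneg n)
  linarith [inv n hn]

/-- The reciprocals of the prime divisors of `D` add up to at most a triple logarithm. -/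
theorem exp_sum_inv_primeFactors : ∃ C : ℝ, 0 < C ∧ ∀ c : ℕ, c ≤ 3 → ∀ D : ℕ,
    Real.exp ((c : ℝ) * ∑ p ∈ D.primeFactors, (p : ℝ)⁻¹) ≤ C * llg D ^ 3 := by
  obtain ⟨K, hK0, hK⟩ := Vale.Agent.P013.sum_inv_range
  have hl2 : 0 < Real.log 2 := Real.log_pos one_lt_two
  refine ⟨Real.exp (3 * (1 / 2 + K / Real.log 2 + 1 / Real.log 2)) * (2 / Real.log 2) ^ 3,
    by positivity, fun c hc D => ?_⟩
  set L := Real.log ((D : ℝ) + 16)
  set M := ⌈L⌉₊
  have hllg := one_le_llg (Nat.cast_nonneg (α := ℝ) D)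
  have hL : Real.exp 1 ≤ L := by
    have h := Real.exp_le_exp.2 hllg
    rwa [llg, Real.exp_log (Real.log_pos (by linarith [Nat.cast_nonneg (α := ℝ) D]))] at h
  have hL2 : (2 : ℝ) ≤ L := le_trans (by linarith [Real.add_one_le_exp (1 : ℝ)]) hL
  have hM : (2 : ℝ) ≤ M := hL2.trans (Nat.le_ceil L)
  have hM2 : 2 ≤ M := by exact_mod_cast hM
  set S₁ := D.primeFactors.filter (· ≤ M)
  set S₂ := D.primeFactors.filter fun p => ¬ p ≤ M
  have h1 : ∑ p ∈ S₁, (p : ℝ)⁻¹ ≤ 1 / 2 + Real.log (2 * llg D / Real.log 2) + K / Real.log 2 := by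
    have hsub : S₁ ⊆ insert 2 ((Ioc 2 M).filter Nat.Prime) := fun p hp => by
      obtain ⟨h1, h2⟩ := mem_filter.1 hp
      have hpp := Nat.prime_of_mem_primeFactors h1
      rcases eq_or_lt_of_le hpp.two_le with h | h
      · exact h ▸ mem_insert_self _ _
      · exact mem_insert_of_mem (mem_filter.2 ⟨mem_Ioc.2 ⟨h, h2⟩, hpp⟩)
    refine (sum_le_sum_of_subset_of_nonneg hsub fun p _ _ => by positivity).trans ?_
    rw [sum_insert (by simp)]
    have h := hK 2 M le_rfl hM2
    have hlm : Real.log M ≤ 2 * llg D := by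
      have : (M : ℝ) ≤ L ^ 2 := by
        have := Nat.ceil_lt_add_one (show 0 ≤ L by linarith)
        nlinarith
      refine (Real.log_le_log (by linarith) this).trans (le_of_eq ?_)
      rw [Real.log_pow]; rfl
    have hlm' : Real.log (Real.log M / Real.log 2) ≤ Real.log (2 * llg D / Real.log 2) :=
      Real.log_le_log (div_pos (Real.log_pos (by linarith)) hl2)
        (div_le_div_of_nonneg_right hlm hl2.le)
    norm_num at h ⊢
    linarith
  have h2 : ∑ p ∈ S₂, (p : ℝ)⁻¹ ≤ 1 / Real.log 2 := by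
    have hcard : (D.primeFactors.card : ℝ) * Real.log 2 ≤ L := by
      rcases Nat.eq_zero_or_pos D with rfl | hD
      · simp only [Nat.primeFactors_zero, card_empty, Nat.cast_zero, zero_mul]
        linarith
      · have h : 2 ^ D.primeFactors.card ≤ D :=
          (pow_card_le_prod _ _ _ fun p hp => (Nat.prime_of_mem_primeFactors hp).two_le).trans
            (Nat.le_of_dvd hD (Nat.prod_primeFactors_dvd D))
        have h' : (2 : ℝ) ^ D.primeFactors.card ≤ (D : ℝ) + 16 := by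
          have : (2 : ℝ) ^ D.primeFactors.card ≤ D := by exact_mod_cast h
          linarith
        have := Real.log_le_log (by positivity) h'
        rwa [Real.log_pow] at this
    calc ∑ p ∈ S₂, (p : ℝ)⁻¹ ≤ ∑ _p ∈ S₂, L⁻¹ := by
          refine sum_le_sum fun p hp => ?_
          have hp' : M < p := not_le.1 (mem_filter.1 hp).2
          refine inv_anti₀ (by linarith) ((Nat.le_ceil L).trans ?_)
          exact_mod_cast hp'.le
      _ = S₂.card * L⁻¹ := by rw [sum_const, nsmul_eq_mul]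
      _ ≤ D.primeFactors.card * L⁻¹ := by
          gcongr
          exact filter_subset _ _
      _ ≤ _ := by
          rw [← div_eq_mul_inv, div_le_div_iff₀ (by linarith) hl2, one_mul]
          exact hcard
  have hsum : ∑ p ∈ D.primeFactors, (p : ℝ)⁻¹
      ≤ 1 / 2 + Real.log (2 * llg D / Real.log 2) + K / Real.log 2 + 1 / Real.log 2 := by
    rw [← sum_filter_add_sum_filter_not D.primeFactors (· ≤ M)]
    exact add_le_add h1 h2
  have hc3 : (c : ℝ) * ∑ p ∈ D.primeFactors, (p : ℝ)⁻¹ ≤ 3 * ∑ p ∈ D.primeFactors, (p : ℝ)⁻¹ :=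
    mul_le_mul_of_nonneg_right (by exact_mod_cast hc) (sum_nonneg fun p _ => by positivity)
  refine (Real.exp_le_exp.2 (hc3.trans (mul_le_mul_of_nonneg_left hsum (by norm_num)))).trans
    (le_of_eq ?_)
  have hpos : 0 < 2 * llg (D : ℝ) / Real.log 2 := by positivity
  rw [show (3 : ℝ) * (1 / 2 + Real.log (2 * llg D / Real.log 2) + K / Real.log 2 + 1 / Real.log 2)
      = 3 * (1 / 2 + K / Real.log 2 + 1 / Real.log 2) + Real.log ((2 * llg D / Real.log 2) ^ 3) by
    rw [Real.log_pow]; push_cast; ring, Real.exp_add, Real.exp_log (by positivity)]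
  ring

theorem sieveClasses_spec (A : Finset ℕ) (Y : ℝ) {p : ℕ} (hp : p.Prime) (hA : A.card ≤ 2) :
    sieveClasses A Y p ⊆ range p ∧ (sieveClasses A Y p).card ≤ A.card + 1 ∧
      (sieveClasses A Y p).card < p := by
  have := NeZero.mk hp.ne_zero
  unfold sieveClasses
  split_ifs with h
  · have hc : (insert 0 (A.image fun a : ℕ => (-((a : ZMod p)⁻¹)).val)).card ≤ A.card + 1 :=
      (card_insert_le _ _).trans (Nat.add_le_add_right card_image_le 1)
    refine ⟨insert_subset (mem_range.2 hp.pos) fun x hx => ?_, hc, by omega⟩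
    obtain ⟨a, -, rfl⟩ := mem_image.1 hx
    exact mem_range.2 (ZMod.val_lt _)
  · exact ⟨empty_subset _, by simp, by simpa using hp.pos⟩

theorem card_sieveClasses (A : Finset ℕ) (Y : ℝ) (D : ℕ) {p : ℕ} (hp : p.Prime) (h5 : 5 ≤ p)
    (hY : (p : ℝ) < Y) (hpD : ¬ p ∣ D) (hA : ∀ a ∈ A, a ∣ D)
    (hAA : ∀ a ∈ A, ∀ b ∈ A, a ≠ b → ((a : ℤ) - b) ∣ D) :
    (sieveClasses A Y p).card = A.card + 1 := by
  have := Fact.mk hp
  have := NeZero.mk hp.ne_zero
  rw [sieveClasses, if_pos ⟨h5, hY⟩]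
  have hne : ∀ a ∈ A, (a : ZMod p) ≠ 0 := fun a ha h =>
    hpD (((CharP.cast_eq_zero_iff (ZMod p) p a).1 h).trans (hA a ha))
  rw [card_insert_of_notMem, card_image_of_injOn]
  · intro a ha b hb h
    have h' : (a : ZMod p) = b := inv_injective (neg_injective (ZMod.val_injective p h))
    by_contra hab
    refine hpD (Int.natCast_dvd_natCast.1 (dvd_trans ?_ (hAA a ha b hb hab)))
    rw [← ZMod.intCast_zmod_eq_zero_iff_dvd]
    push_cast
    rw [h', sub_self]
  · intro h
    obtain ⟨a, ha, hv⟩ := mem_image.1 h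
    exact inv_ne_zero (hne a ha) (neg_eq_zero.1 ((ZMod.val_eq_zero _).1 hv))

theorem notMem_sieveClasses (A : Finset ℕ) (Y : ℝ) {p l : ℕ} (hp : p.Prime) (hl : l.Prime)
    (hYl : Y ≤ l) (hA : ∀ a ∈ A, 1 ≤ a ∧ (a * l + 1).Prime) : l % p ∉ sieveClasses A Y p := by
  have := Fact.mk hp
  have := NeZero.mk hp.ne_zero
  unfold sieveClasses
  split_ifs with h
  swap
  · exact notMem_empty _
  have hpl : p < l := by exact_mod_cast (h.2.trans_le hYl)
  intro hmem
  rcases mem_insert.1 hmem with h0 | h0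
  · exact hpl.ne ((Nat.prime_dvd_prime_iff_eq hp hl).1 (Nat.dvd_of_mod_eq_zero h0))
  · obtain ⟨a, ha, hv⟩ := mem_image.1 h0
    obtain ⟨ha1, hap⟩ := hA a ha
    have hle : l ≤ a * l := Nat.le_mul_of_pos_left l ha1
    have e : (l : ZMod p) = -((a : ZMod p)⁻¹) := by
      rw [← ZMod.natCast_mod l p, ← hv, ZMod.natCast_zmod_val]
    by_cases hz : (a : ZMod p) = 0
    · rw [hz, inv_zero, neg_zero] at e
      exact hpl.ne ((Nat.prime_dvd_prime_iff_eq hp hl).1 ((CharP.cast_eq_zero_iff (ZMod p) p l).1 e))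
    · have h1 : ((a * l + 1 : ℕ) : ZMod p) = 0 := by
        push_cast
        rw [e, mul_neg, mul_inv_cancel₀ hz, neg_add_cancel]
      have := (Nat.prime_dvd_prime_iff_eq hp hap).1 ((CharP.cast_eq_zero_iff (ZMod p) p _).1 h1)
      omega

/-- The counting bound, with the bad primes collected in `D`. -/
theorem count_bound : ∃ C : ℝ, 0 < C ∧ ∀ (A : Finset ℕ) (D : ℕ), A.card ≤ 2 → D ≠ 0 →
    (∀ a ∈ A, 1 ≤ a ∧ a ∣ D) → (∀ a ∈ A, ∀ b ∈ A, a ≠ b → ((a : ℤ) - b) ∣ D) →
    ∀ X Y : ℝ, 3 ≤ Y → Y ≤ X → ∀ L : Finset ℕ,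
    (∀ l ∈ L, l.Prime ∧ Y ≤ l ∧ (l : ℝ) ≤ X ∧ ∀ a ∈ A, (a * l + 1).Prime) →
    (L.card : ℝ) ≤ C * X * llg D ^ 3 / Real.log Y ^ (A.card + 1) := by
  obtain ⟨C0, δ, hC0, -, hsieve⟩ := residue_sieve 3
  obtain ⟨C1, hC1⟩ := sum_inv_primesLE_ge
  obtain ⟨C2, hC2, hC2'⟩ := exp_sum_inv_primeFactors
  set C3 := max 1 (Real.exp (3 * (|C1| + 5 + Real.log 2)))
  refine ⟨2 * C0 * C3 * C2, by positivity, fun A D hA hD0 hAD hAA X Y hY hYX L hL => ?_⟩
  have hlY : 0 < Real.log Y := Real.log_pos (by linarith)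
  set N := ⌊X⌋₊ + 1
  have hN : 2 ≤ N := by
    have : (3 : ℕ) ≤ ⌊X⌋₊ := Nat.le_floor (by push_cast; linarith)
    omega
  set ρ := sieveClasses A Y
  have hρ : ∀ p, p.Prime → ρ p ⊆ range p ∧ (ρ p).card ≤ 3 ∧ (ρ p).card < p := fun p hp => by
    obtain ⟨h1, h2, h3⟩ := sieveClasses_spec A Y hp hA
    exact ⟨h1, h2.trans (by omega), h3⟩
  have hsub : L ⊆ (range N).filter fun n => ∀ p ∈ Nat.primesLE N, (p : ℝ) ≤ (N : ℝ) ^ δ → n % p ∉ ρ p := by
    intro l hl
    obtain ⟨h1, h2, h3, h4⟩ := hL l hl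
    refine mem_filter.2 ⟨mem_range.2 (Nat.lt_succ_of_le (Nat.le_floor h3)), fun p hp _ => ?_⟩
    exact notMem_sieveClasses A Y (Nat.mem_primesLE.1 hp).2 h1 h2 fun a ha => ⟨(hAD a ha).1, h4 a ha⟩
  refine ((Nat.cast_le.2 (card_le_card hsub)).trans (hsieve N hN ρ hρ)).trans ?_
  set c := A.card + 1
  set n₀ := ⌈Y⌉₊ - 1
  have hn₀ : 2 ≤ n₀ := by
    have : (3 : ℕ) ≤ ⌈Y⌉₊ := by exact_mod_cast hY.trans (Nat.le_ceil Y)
    omega
  set G := ((Nat.primesLE n₀).filter fun p => 5 ≤ p) \ D.primeFactors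
  have hG : ∀ p ∈ G, p ∈ Nat.primesLE N ∧ (ρ p).card = c := fun p hp => by
    obtain ⟨h1, h2⟩ := mem_sdiff.1 hp
    obtain ⟨h1, h5⟩ := mem_filter.1 h1
    obtain ⟨hle, hpp⟩ := Nat.mem_primesLE.1 h1
    have hpY : (p : ℝ) < Y := by
      by_contra h
      have := Nat.ceil_le.2 (not_lt.1 h)
      omega
    refine ⟨Nat.mem_primesLE.2 ⟨?_, hpp⟩, card_sieveClasses A Y D hpp h5 hpY
      (fun hd => h2 (Nat.mem_primeFactors.2 ⟨hpp, hd, hD0⟩)) (fun a ha => (hAD a ha).2) hAA⟩
    have : p ≤ ⌊X⌋₊ := Nat.le_floor (by linarith)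
    omega
  have hprod : ∏ p ∈ Nat.primesLE N, (1 - ((ρ p).card : ℝ) / p)
      ≤ Real.exp (-(c : ℝ) * ∑ p ∈ G, (p : ℝ)⁻¹) := by
    refine (prod_le_prod (fun p hp => ?_) fun p _ => Real.one_sub_le_exp_neg _).trans ?_
    · have hpp := (Nat.mem_primesLE.1 hp).2
      rw [sub_nonneg, div_le_one (by exact_mod_cast hpp.pos)]
      exact_mod_cast (hρ p hpp).2.2.le
    · rw [← Real.exp_sum, sum_neg_distrib, neg_mul, Real.exp_le_exp, neg_le_neg_iff, mul_sum]
      refine le_trans (le_of_eq (sum_congr rfl fun p hp => ?_))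
        (sum_le_sum_of_subset_of_nonneg (fun p hp => (hG p hp).1) fun p _ _ => by positivity)
      rw [(hG p hp).2, div_eq_mul_inv]
  have hlow : Real.log (Real.log Y) - (|C1| + 5 + Real.log 2) - ∑ p ∈ D.primeFactors, (p : ℝ)⁻¹
      ≤ ∑ p ∈ G, (p : ℝ)⁻¹ := by
    have h1 := hC1 n₀ hn₀
    have h2 : Real.log Y / 2 ≤ Real.log n₀ := by
      have hn : Y ≤ (n₀ : ℝ) + 1 := by
        refine (Nat.le_ceil Y).trans ?_
        exact_mod_cast (by omega : ⌈Y⌉₊ ≤ n₀ + 1)
      have hn' : (2 : ℝ) ≤ n₀ := by exact_mod_cast hn₀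
      have := Real.log_le_log (by linarith) (show Y ≤ (n₀ : ℝ) ^ 2 by nlinarith)
      rw [Real.log_pow] at this
      push_cast at this
      linarith
    have h3 : Real.log (Real.log Y) - Real.log 2 ≤ Real.log (Real.log (n₀ : ℝ)) := by
      rw [← Real.log_div hlY.ne' two_ne_zero]
      exact Real.log_le_log (by positivity) h2
    have h4 : ∑ p ∈ Nat.primesLE n₀, (p : ℝ)⁻¹
        ≤ ∑ p ∈ G, (p : ℝ)⁻¹ + ∑ p ∈ D.primeFactors, (p : ℝ)⁻¹ + ∑ p ∈ range 5, (p : ℝ)⁻¹ := by
      have hs : Nat.primesLE n₀ ⊆ G ∪ D.primeFactors ∪ range 5 := fun p hp => by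
        by_cases h5 : 5 ≤ p
        · by_cases hd : p ∈ D.primeFactors
          · exact mem_union_left _ (mem_union_right _ hd)
          · exact mem_union_left _ (mem_union_left _ (mem_sdiff.2 ⟨mem_filter.2 ⟨hp, h5⟩, hd⟩))
        · exact mem_union_right _ (mem_range.2 (by omega))
      refine (sum_le_sum_of_subset_of_nonneg hs fun p _ _ => by positivity).trans ?_
      have hu : ∀ s t : Finset ℕ, ∑ p ∈ s ∪ t, (p : ℝ)⁻¹ ≤ ∑ p ∈ s, (p : ℝ)⁻¹ + ∑ p ∈ t, (p : ℝ)⁻¹ :=
        fun s t => by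
          rw [← sum_union_inter]
          exact le_add_of_nonneg_right (sum_nonneg fun p _ => by positivity)
      exact (hu _ _).trans (add_le_add (hu _ _) le_rfl)
    have h5 : ∑ p ∈ range 5, (p : ℝ)⁻¹ ≤ 5 := by norm_num [sum_range_succ]
    linarith [le_abs_self C1]
  have hfac : Real.exp (-(c : ℝ) * ∑ p ∈ G, (p : ℝ)⁻¹)
      ≤ C3 * (C2 * llg D ^ 3) / Real.log Y ^ c := by
    have hc3 : (c : ℝ) ≤ 3 := by exact_mod_cast (by omega : c ≤ 3)
    have hb : 0 ≤ |C1| + 5 + Real.log 2 := by positivity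
    calc Real.exp (-(c : ℝ) * ∑ p ∈ G, (p : ℝ)⁻¹)
        ≤ Real.exp (3 * (|C1| + 5 + Real.log 2) + (c : ℝ) * ∑ p ∈ D.primeFactors, (p : ℝ)⁻¹
            + -((c : ℝ) * Real.log (Real.log Y))) := by
          refine Real.exp_le_exp.2 ?_
          have hm := mul_le_mul_of_nonneg_left hlow (Nat.cast_nonneg (α := ℝ) c)
          nlinarith [mul_le_mul_of_nonneg_right hc3 hb]
      _ = Real.exp (3 * (|C1| + 5 + Real.log 2))
            * Real.exp ((c : ℝ) * ∑ p ∈ D.primeFactors, (p : ℝ)⁻¹) / Real.log Y ^ c := by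
          rw [Real.exp_add, Real.exp_add, Real.exp_neg, Real.exp_nat_mul (Real.log (Real.log Y)),
            Real.exp_log hlY, div_eq_mul_inv]
      _ ≤ _ := by
          gcongr
          · exact le_max_right _ _
          · exact hC2' c (by omega) D
  have hNX : (N : ℝ) ≤ 2 * X := by
    have := Nat.floor_le (show 0 ≤ X by linarith)
    simp only [N]; push_cast; linarith
  calc C0 * (N : ℝ) * ∏ p ∈ Nat.primesLE N, (1 - ((ρ p).card : ℝ) / p)
      ≤ C0 * (2 * X) * (C3 * (C2 * llg D ^ 3) / Real.log Y ^ c) := by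
        refine mul_le_mul (mul_le_mul_of_nonneg_left hNX hC0.le) (hprod.trans hfac) ?_ (mul_nonneg hC0.le (by linarith))
        refine prod_nonneg fun p hp => ?_
        have hpp := (Nat.mem_primesLE.1 hp).2
        rw [sub_nonneg, div_le_one (by exact_mod_cast hpp.pos)]
        exact_mod_cast (hρ p hpp).2.2.le
    _ = _ := by ring

theorem llg_mono {u v : ℝ} (hu : 0 ≤ u) (h : u ≤ v) : llg u ≤ llg v :=
  Real.log_le_log (Real.log_pos (by linarith)) (Real.log_le_log (by linarith) (by linarith))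

theorem llg_cube_le {z : ℝ} (hz : 0 ≤ z) : llg ((z + 16) ^ 2) ≤ 3 * llg z := by
  have h1 := one_le_llg hz
  have hlog : 0 < Real.log (z + 16) := Real.log_pos (by linarith)
  have h2 : Real.log ((z + 16) ^ 2 + 16) ≤ 3 * Real.log (z + 16) := by
    have h : (z + 16) ^ 2 + 16 ≤ (z + 16) ^ 3 := by nlinarith [pow_nonneg hz 3, sq_nonneg z]
    have := Real.log_le_log (by positivity) h
    rw [Real.log_pow] at this
    exact_mod_cast this
  calc llg ((z + 16) ^ 2) ≤ Real.log (3 * Real.log (z + 16)) :=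
        Real.log_le_log (Real.log_pos (by nlinarith)) h2
    _ = Real.log 3 + llg z := by rw [Real.log_mul (by norm_num) hlog.ne', llg]
    _ ≤ 3 * llg z := by
        have := Real.log_le_sub_one_of_pos (show (0 : ℝ) < 3 by norm_num)
        linarith

/-- Both forms of the bound for one set of multipliers. -/
theorem count_and_sum : ∃ C : ℝ, 0 < C ∧ ∀ (A : Finset ℕ) (D : ℕ), A.card ≤ 2 → D ≠ 0 →
    (∀ a ∈ A, 1 ≤ a ∧ a ∣ D) → (∀ a ∈ A, ∀ b ∈ A, a ≠ b → ((a : ℤ) - b) ∣ D) →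
    ∀ X Y z : ℝ, 3 ≤ Y → Y ≤ X → 0 ≤ z → (D : ℝ) ≤ (z + 16) ^ 2 → ∀ L : Finset ℕ,
    (∀ l ∈ L, l.Prime ∧ Y ≤ l ∧ (l : ℝ) ≤ X ∧ ∀ a ∈ A, (a * l + 1).Prime) →
    (L.card : ℝ) ≤ C * X * llg z ^ 3 / Real.log Y ^ (A.card + 1) ∧
    ∑ l ∈ L, (l : ℝ)⁻¹ ≤ C * Real.log X * llg z ^ 3 / Real.log Y ^ (A.card + 1) := by
  obtain ⟨C, hC, hcount⟩ := count_bound
  refine ⟨162 * C, by positivity, fun A D hA hD hAD hAA X Y z hY hYX hz hDz L hL => ?_⟩
  have hz1 := one_le_llg hz
  have hlY : 0 < Real.log Y := Real.log_pos (by linarith)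
  have hllg : llg (D : ℝ) ^ 3 ≤ 27 * llg z ^ 3 := by
    calc llg (D : ℝ) ^ 3 ≤ (3 * llg z) ^ 3 := by
          refine pow_le_pow_left₀ (zero_le_one.trans (one_le_llg (Nat.cast_nonneg D))) ?_ 3
          exact (llg_mono (Nat.cast_nonneg D) hDz).trans (llg_cube_le hz)
      _ = _ := by ring
  have hblock : ∀ U : ℝ, Y ≤ U → ∀ M ⊆ L, (∀ l ∈ M, (l : ℝ) ≤ U) →
      (M.card : ℝ) ≤ 27 * C * U * llg z ^ 3 / Real.log Y ^ (A.card + 1) := fun U hYU M hM hMU => by
    refine (hcount A D hA hD hAD hAA U Y hY hYU M fun l hl =>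
      ⟨(hL l (hM hl)).1, (hL l (hM hl)).2.1, hMU l hl, (hL l (hM hl)).2.2.2⟩).trans ?_
    refine div_le_div_of_nonneg_right ?_ (pow_nonneg hlY.le _)
    calc C * U * llg (D : ℝ) ^ 3 ≤ C * U * (27 * llg z ^ 3) :=
          mul_le_mul_of_nonneg_left hllg (mul_nonneg hC.le (by linarith))
      _ = _ := by ring
  refine ⟨(hblock X hYX L (Subset.refl _) fun l hl => (hL l hl).2.2.1).trans ?_, ?_⟩
  · gcongr
    · linarith
    · linarith
  set J := Nat.log 2 ⌊X⌋₊
  have hmaps : ∀ l ∈ L, Nat.log 2 l ∈ range (J + 1) := fun l hl => mem_range.2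
    (Nat.lt_succ_of_le (Nat.log_mono_right (Nat.le_floor (hL l hl).2.2.1)))
  set W := 54 * C * llg z ^ 3 / Real.log Y ^ (A.card + 1) with hW
  have hpiece : ∀ j ∈ range (J + 1), ∑ l ∈ L.filter (fun l => Nat.log 2 l = j), (l : ℝ)⁻¹ ≤ W := by
    intro j _
    set M := L.filter fun l => Nat.log 2 l = j
    rcases M.eq_empty_or_nonempty with hM | ⟨l₀, hl₀⟩
    · rw [hM, sum_empty]; positivity
    have hmem : ∀ l ∈ M, (2 : ℝ) ^ j ≤ l ∧ (l : ℝ) ≤ 2 ^ (j + 1) := fun l hl => by
      obtain ⟨h1, h2⟩ := mem_filter.1 hl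
      have hl0 : l ≠ 0 := (hL l h1).1.ne_zero
      have e1 := Nat.pow_log_le_self 2 hl0
      have e2 := (Nat.lt_pow_succ_log_self one_lt_two l).le
      rw [h2] at e1 e2
      exact ⟨by exact_mod_cast e1, by exact_mod_cast e2⟩
    have hcard := hblock (2 ^ (j + 1)) ((hL l₀ (mem_filter.1 hl₀).1).2.1.trans (hmem l₀ hl₀).2) M
      (filter_subset _ _) fun l hl => (hmem l hl).2
    calc ∑ l ∈ M, (l : ℝ)⁻¹ ≤ ∑ _l ∈ M, ((2 : ℝ) ^ j)⁻¹ :=
          sum_le_sum fun l hl => inv_anti₀ (by positivity) (hmem l hl).1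
      _ = (M.card : ℝ) * ((2 : ℝ) ^ j)⁻¹ := by rw [sum_const, nsmul_eq_mul]
      _ ≤ 27 * C * 2 ^ (j + 1) * llg z ^ 3 / Real.log Y ^ (A.card + 1) * ((2 : ℝ) ^ j)⁻¹ :=
          mul_le_mul_of_nonneg_right hcard (by positivity)
      _ = W := by rw [hW, pow_succ]; field_simp; ring
  rw [← sum_fiberwise_of_maps_to hmaps]
  refine (sum_le_card_nsmul _ _ W hpiece).trans ?_
  rw [card_range, nsmul_eq_mul]
  have hJ : ((J + 1 : ℕ) : ℝ) ≤ 3 * Real.log X := by
    have h3 : (3 : ℕ) ≤ ⌊X⌋₊ := Nat.le_floor (by push_cast; linarith)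
    have h1 : (2 : ℝ) ^ J ≤ X :=
      le_trans (by exact_mod_cast Nat.pow_log_le_self 2 (by omega : ⌊X⌋₊ ≠ 0))
        (Nat.floor_le (by linarith))
    have h2 := Real.log_le_log (by positivity) h1
    rw [Real.log_pow] at h2
    have h4 : 1 ≤ Real.log X := by
      rw [← Real.log_exp 1]
      exact Real.log_le_log (Real.exp_pos 1) (by linarith [Real.exp_one_lt_d9])
    have := Real.log_two_gt_d9
    push_cast
    nlinarith [Nat.cast_nonneg (α := ℝ) J]
  calc ((J + 1 : ℕ) : ℝ) * W ≤ 3 * Real.log X * W := mul_le_mul_of_nonneg_right hJ (by positivity)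
    _ = _ := by rw [hW]; ring

/-- Upper sieve bounds for two and for three simultaneous prime conditions. -/
theorem sieve : SieveStatement := by
  obtain ⟨C, hC, h⟩ := count_and_sum
  refine ⟨C, hC, 3, fun X Y hY hYX L hL => ⟨fun a ha hap => ?_, fun a b ha hb hab habp => ?_⟩⟩
  · have hX : 1 ≤ X := by linarith
    have ha' : (1 : ℝ) ≤ a := by exact_mod_cast ha
    have := h {a} a (by simp) (by omega) (by simp [ha])
      (by simp only [mem_singleton]; rintro x rfl y rfl hxy; exact absurd rfl hxy)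
      X Y (X * a) hY hYX (by positivity) (by nlinarith [mul_le_mul_of_nonneg_right hX (show (0 : ℝ) ≤ a by positivity), sq_nonneg (X * a + 15)]) L
      fun l hl => ⟨(hL l hl).1, (hL l hl).2.1, (hL l hl).2.2, by simpa using hap l hl⟩
    simpa using this
  · have hX : 1 ≤ X := by linarith
    have ha' : (1 : ℝ) ≤ a := by exact_mod_cast ha
    have hb' : (1 : ℝ) ≤ b := by exact_mod_cast hb
    have hd : 0 < ((a : ℤ) - b).natAbs := Int.natAbs_pos.2 (sub_ne_zero.2 (by exact_mod_cast hab))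
    set D := a * b * ((a : ℤ) - b).natAbs with hD
    have hDz : (D : ℝ) ≤ (X * a * b + 16) ^ 2 := by
      have h1 : (((a : ℤ) - b).natAbs : ℝ) ≤ (a : ℝ) + b := by
        have : ((a : ℤ) - b).natAbs ≤ a + b := by omega
        exact_mod_cast this
      have hab' : 0 ≤ (a : ℝ) * b := by positivity
      have h2 : (a : ℝ) * b ≤ X * a * b := by nlinarith
      have h3 : (a : ℝ) + b ≤ 2 * (a * b) := by nlinarith
      rw [hD]; push_cast [Nat.cast_mul]
      nlinarith [mul_le_mul_of_nonneg_left (h1.trans h3) hab', mul_le_mul h2 h2 hab' (by positivity)]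
    have hA : ({a, b} : Finset ℕ).card = 2 := card_pair hab
    have := h {a, b} D hA.le (mul_ne_zero (mul_ne_zero (by omega) (by omega)) (by omega))
      (by
        simp only [mem_insert, mem_singleton]
        rintro x (rfl | rfl)
        · exact ⟨ha, dvd_mul_of_dvd_left (dvd_mul_right _ _) _⟩
        · exact ⟨hb, dvd_mul_of_dvd_left (dvd_mul_left _ _) _⟩)
      (by
        have hdvd : ((a : ℤ) - b) ∣ (D : ℤ) := by
          rw [hD, Nat.cast_mul]
          exact dvd_mul_of_dvd_right (Int.dvd_natAbs.2 dvd_rfl) _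
        simp only [mem_insert, mem_singleton]
        rintro x (rfl | rfl) y (rfl | rfl) hxy
        · exact absurd rfl hxy
        · exact hdvd
        · simpa [neg_sub] using neg_dvd.2 hdvd
        · exact absurd rfl hxy)
      X Y (X * a * b) hY hYX (by positivity) hDz L
      fun l hl => ⟨(hL l hl).1, (hL l hl).2.1, (hL l hl).2.2, by simpa using habp l hl⟩
    simpa [hA] using this

end P031
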