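import Vale.Agent.P031.Statements

/-!
Abnormal primes are rare: a prime `q` for which `q - 1` has an unusual number of prime factors in
some range of scales, or has no large prime factor, occurs with a saving `exp (-c sqrt t)` at
scale `t`.
-/

open Finset Filter Topology

noncomputable section

namespace P031

namespace Abn

lemma omegaSeg_eq_finsuppSum (n u w : ℕ) :
    omegaSeg n u w =
      n.factorization.sum fun p e => if u ≤ cell p ∧ cell p < w then e else 0 := by
  rw [omegaSeg, Finsupp.sum, Nat.support_factorization, Finset.sum_filter]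

lemma omegaSeg_mul {a b : ℕ} (ha : a ≠ 0) (hb : b ≠ 0) (u w : ℕ) :
    omegaSeg (a * b) u w = omegaSeg a u w + omegaSeg b u w := by
  simp only [omegaSeg_eq_finsuppSum]
  rw [Nat.factorization_mul ha hb]
  refine Finsupp.sum_add_index' (fun p => ?_) (fun p e e' => ?_)
  · simp
  · split_ifs <;> simp

lemma omegaSeg_prime {p : ℕ} (hp : p.Prime) (u w : ℕ) :
    omegaSeg p u w = if u ≤ cell p ∧ cell p < w then 1 else 0 := by
  rw [omegaSeg_eq_finsuppSum, hp.factorization, Finsupp.sum_single_index]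
  simp

lemma omegaSeg_one (u w : ℕ) : omegaSeg 1 u w = 0 := by
  simp [omegaSeg]

lemma cell_mono {p q : ℕ} (hp : 2 ≤ p) (h : p ≤ q) : cell p ≤ cell q := by
  unfold cell
  have h2 : (2 : ℝ) ≤ p := by exact_mod_cast hp
  have hl : 0 < Real.log p := Real.log_pos (by linarith)
  have hpq : (p : ℝ) ≤ q := by exact_mod_cast h
  exact Nat.floor_mono (Real.log_le_log hl (Real.log_le_log (by linarith) hpq))

lemma log_lt_of_cell {p t : ℕ} (hp : 2 ≤ p) (h : cell p = t) :
    Real.log (p : ℝ) < Real.exp ((t : ℝ) + 1) := by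
  have h2 : (2 : ℝ) ≤ p := by exact_mod_cast hp
  have hl : 0 < Real.log p := Real.log_pos (by linarith)
  have := Nat.lt_floor_add_one (Real.log (Real.log (p : ℝ)))
  rw [show ⌊Real.log (Real.log (p : ℝ))⌋₊ = t from h] at this
  calc Real.log (p : ℝ) = Real.exp (Real.log (Real.log (p : ℝ))) := (Real.exp_log hl).symm
    _ < _ := Real.exp_lt_exp.2 this

lemma exp_le_log_of_cell {p t : ℕ} (hp : 2 ≤ p) (h : cell p = t) (ht : 1 ≤ t) :
    Real.exp (t : ℝ) ≤ Real.log (p : ℝ) := by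
  have h2 : (2 : ℝ) ≤ p := by exact_mod_cast hp
  have hl : 0 < Real.log p := Real.log_pos (by linarith)
  have hpos : 0 ≤ Real.log (Real.log (p : ℝ)) := by
    by_contra hneg
    have : cell p = 0 := Nat.floor_of_nonpos (le_of_not_ge hneg)
    omega
  have hle := Nat.floor_le hpos
  rw [show ⌊Real.log (Real.log (p : ℝ))⌋₊ = t from h] at hle
  calc Real.exp (t : ℝ) ≤ Real.exp (Real.log (Real.log (p : ℝ))) := Real.exp_le_exp.2 hle
    _ = _ := Real.exp_log hl

lemma mem_cellPrimes {p t : ℕ} : p ∈ cellPrimes t ↔ p.Prime ∧ cell p = t := by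
  constructor
  · intro h
    exact (Finset.mem_filter.1 h).2
  · rintro ⟨hp, hc⟩
    refine Finset.mem_filter.2 ⟨Finset.mem_range.2 (Nat.lt_succ_of_le ?_), hp, hc⟩
    have h2 : (2 : ℝ) ≤ p := by exact_mod_cast hp.two_le
    have hlt := Real.exp_lt_exp.2 (log_lt_of_cell hp.two_le hc)
    rw [Real.exp_log (by linarith)] at hlt
    exact_mod_cast hlt.le.trans (Nat.le_ceil _)

/-- The multiplicative weight attached to the segment `[u, w)` and the parameter `z`. -/
def wfun (z : ℝ) (u w : ℕ) : ℕ →* ℝ where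
  toFun n := if n = 0 then 0 else Real.exp (z * omegaSeg n u w) / n
  map_one' := by simp [omegaSeg_one]
  map_mul' a b := by
    rcases eq_or_ne a 0 with rfl | ha
    · simp
    rcases eq_or_ne b 0 with rfl | hb
    · simp
    have hab : a * b ≠ 0 := mul_ne_zero ha hb
    simp only [ha, hb, hab, if_false, omegaSeg_mul ha hb]
    push_cast
    rw [mul_add, Real.exp_add, div_mul_div_comm]

lemma wfun_apply (z : ℝ) (u w : ℕ) {n : ℕ} (hn : n ≠ 0) :
    wfun z u w n = Real.exp (z * omegaSeg n u w) / n := by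
  simp [wfun, hn]

lemma wfun_prime_le {z : ℝ} (hz : |z| ≤ 1 / 4) (u w : ℕ) {p : ℕ} (hp : p.Prime) :
    0 ≤ wfun z u w p ∧ wfun z u w p ≤ 4 / 3 / p ∧ wfun z u w p ≤ 2 / 3 := by
  have h2 : (2 : ℝ) ≤ p := by exact_mod_cast hp.two_le
  rw [wfun_apply z u w hp.ne_zero, omegaSeg_prime hp]
  set e : ℕ := (if u ≤ cell p ∧ cell p < w then 1 else 0) with he
  have he1 : (e : ℝ) ≤ 1 := by rw [he]; split_ifs <;> simp
  have hze : z * e ≤ 1 / 4 := by
    have : |z * e| ≤ 1 / 4 * 1 := by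
      rw [abs_mul, Nat.abs_cast]; exact mul_le_mul hz he1 (Nat.cast_nonneg _) (by norm_num)
    linarith [le_abs_self (z * e)]
  have hexp : Real.exp (z * e) ≤ 4 / 3 := by
    refine (Real.exp_le_exp.2 hze).trans ?_
    have h34 : (3 / 4 : ℝ) ≤ Real.exp (-(1 / 4)) := by
      have := Real.add_one_le_exp (-(1 / 4 : ℝ))
      linarith
    rw [Real.exp_neg] at h34
    have hpos := Real.exp_pos (1 / 4 : ℝ)
    rw [le_inv_comm₀ (by norm_num) hpos] at h34
    linarith [h34]
  refine ⟨by positivity, ?_, ?_⟩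
  · gcongr
  · rw [div_le_iff₀ (by linarith)]
    nlinarith

lemma inv_one_sub_le {x : ℝ} (h0 : 0 ≤ x) (h1 : x ≤ 2 / 3) :
    (1 - x)⁻¹ ≤ Real.exp (x + 3 * x ^ 2) := by
  have hpos : 0 < 1 - x := by linarith
  have hkey : x / (1 - x) ≤ x + 3 * x ^ 2 := by
    rw [div_le_iff₀ hpos]
    nlinarith [mul_nonneg (sq_nonneg x) (by linarith : (0 : ℝ) ≤ 2 - 3 * x)]
  calc (1 - x)⁻¹ = x / (1 - x) + 1 := by field_simp; ring
    _ ≤ Real.exp (x / (1 - x)) := Real.add_one_le_exp _
    _ ≤ _ := Real.exp_le_exp.2 hkey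

lemma exists_weight_bound (hC : CellStatement) :
    ∃ A : ℝ, ∀ s u w : ℕ, u < w → w ≤ s + 1 → ∀ z : ℝ, |z| ≤ 1 / 4 →
      ∀ M : Finset ℕ, (∀ m ∈ M, 0 < m ∧ CellsLe m s) →
      ∑ m ∈ M, Real.exp (z * omegaSeg m u w) / m ≤
        Real.exp ((s : ℝ) + (Real.exp z - 1) * ((w : ℝ) - u) + A) := by
  obtain ⟨t0, ht0⟩ := hC
  set S : ℕ → ℝ := fun t => ∑ p ∈ cellPrimes t, (p : ℝ)⁻¹ with hS
  set g : ℕ → ℝ := fun t => Real.exp (-(t : ℝ) / 2) with hg
  have hgs : Summable g := by
    have : g = fun t : ℕ => Real.exp (-(1 / 2 : ℝ)) ^ t := by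
      funext t
      simp only [hg, ← Real.exp_nat_mul]
      ring_nf
    rw [this]
    exact summable_geometric_of_lt_one (Real.exp_pos _).le (Real.exp_lt_one_iff.2 (by norm_num))
  have hsq : Summable (fun n : ℕ => 1 / (n : ℝ) ^ 2) :=
    Real.summable_one_div_nat_pow.2 (by norm_num)
  set B : ℝ := (∑ t ∈ Finset.range t0, |S t - 1|) + ∑' t, g t with hB
  set Q : ℝ := ∑' n : ℕ, 1 / (n : ℝ) ^ 2 with hQ
  refine ⟨1 + 2 * B + 6 * Q, fun s u w huw hws z hz M hM => ?_⟩
  set P : Finset ℕ := (Finset.range (s + 1)).biUnion cellPrimes with hP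
  have hPp : ∀ p ∈ P, p.Prime := by
    intro p hp
    obtain ⟨t, -, h⟩ := Finset.mem_biUnion.1 hp
    exact (mem_cellPrimes.1 h).1
  have hlt : ∀ {p : ℕ}, p.Prime → ‖wfun z u w p‖ < 1 := by
    intro p hp
    obtain ⟨h0, -, h23⟩ := wfun_prime_le hz u w hp
    rw [Real.norm_eq_abs, abs_of_nonneg h0]; linarith
  have hH := (EulerProduct.summable_and_hasSum_factoredNumbers_prod_filter_prime_geometric hlt P).2
  have hmem : ∀ m ∈ M, m ∈ Nat.factoredNumbers P := by
    intro m hm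
    refine Nat.mem_factoredNumbers'.2 fun p hp hpd => ?_
    obtain ⟨hm0, hmc⟩ := hM m hm
    have hpm : p ∈ m.primeFactors := Nat.mem_primeFactors.2 ⟨hp, hpd, hm0.ne'⟩
    exact Finset.mem_biUnion.2
      ⟨cell p, Finset.mem_range.2 (Nat.lt_succ_of_le (hmc p hpm)), mem_cellPrimes.2 ⟨hp, rfl⟩⟩
  have hnn : ∀ n : ℕ, 0 ≤ wfun z u w n := by
    intro n
    rcases eq_or_ne n 0 with rfl | hn
    · simp [wfun]
    · rw [wfun_apply z u w hn]; positivity
  have hsum : ∑ m ∈ M, Real.exp (z * omegaSeg m u w) / m ≤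
      ∏ p ∈ P, (1 - wfun z u w p)⁻¹ := by
    have h1 := sum_le_hasSum (M.subtype fun m => m ∈ Nat.factoredNumbers P)
      (fun i _ => hnn i.1) hH
    rw [Finset.sum_subtype_eq_sum_filter (f := fun m => wfun z u w m),
      Finset.filter_true_of_mem hmem, Finset.filter_true_of_mem hPp] at h1
    refine le_trans (le_of_eq (Finset.sum_congr rfl fun m hm => ?_)) h1
    rw [wfun_apply z u w (hM m hm).1.ne']
  have hprod : ∏ p ∈ P, (1 - wfun z u w p)⁻¹ ≤
      Real.exp (∑ p ∈ P, (wfun z u w p + 3 * (wfun z u w p) ^ 2)) := by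
    rw [Real.exp_sum]
    refine Finset.prod_le_prod (fun p hp => ?_) (fun p hp => ?_)
    · obtain ⟨-, -, h23⟩ := wfun_prime_le hz u w (hPp p hp)
      exact inv_nonneg.2 (by linarith)
    · obtain ⟨h0, -, h23⟩ := wfun_prime_le hz u w (hPp p hp)
      exact inv_one_sub_le h0 h23
  have hsq2 : ∑ p ∈ P, 3 * (wfun z u w p) ^ 2 ≤ 6 * Q := by
    calc ∑ p ∈ P, 3 * (wfun z u w p) ^ 2 ≤ ∑ p ∈ P, 6 * (1 / (p : ℝ) ^ 2) := by
          refine Finset.sum_le_sum fun p hp => ?_
          obtain ⟨h0, h43, -⟩ := wfun_prime_le hz u w (hPp p hp)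
          have h := pow_le_pow_left₀ h0 h43 2
          have e : (4 / 3 / (p : ℝ)) ^ 2 = 16 / 9 * (1 / (p : ℝ) ^ 2) := by
            rw [div_pow]; ring
          rw [e] at h
          have : 0 ≤ 1 / (p : ℝ) ^ 2 := by positivity
          linarith
      _ = 6 * ∑ p ∈ P, 1 / (p : ℝ) ^ 2 := (Finset.mul_sum _ _ _).symm
      _ ≤ 6 * Q := by
          gcongr
          exact hsq.sum_le_tsum P (fun i _ => by positivity)
  set c : ℕ → ℝ := fun t => if u ≤ t ∧ t < w then Real.exp z else 1 with hc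
  have hc0 : ∀ t, 0 ≤ c t ∧ c t ≤ 2 := by
    intro t
    simp only [hc]
    split_ifs
    · refine ⟨(Real.exp_pos _).le, ?_⟩
      have h := Real.exp_le_exp.2 ((le_abs_self z).trans hz)
      have h2 : Real.exp (1 / 4 : ℝ) ≤ 2 := by
        have hl := Real.exp_le_exp.2 (show (1 / 4 : ℝ) ≤ Real.log 2 by
          linarith [Real.log_two_gt_d9])
        rwa [Real.exp_log (by norm_num)] at hl
      linarith
    · exact ⟨zero_le_one, by norm_num⟩
  have hfirst : ∑ p ∈ P, wfun z u w p = ∑ t ∈ Finset.range (s + 1), c t * S t := by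
    rw [hP, Finset.sum_biUnion ?_]
    · refine Finset.sum_congr rfl fun t _ => ?_
      simp only [hS]
      rw [Finset.mul_sum]
      refine Finset.sum_congr rfl fun p hp => ?_
      obtain ⟨hpp, hcell⟩ := mem_cellPrimes.1 hp
      rw [wfun_apply z u w hpp.ne_zero, omegaSeg_prime hpp, hcell]
      simp only [hc]
      split_ifs <;> simp [div_eq_mul_inv]
    · intro a _ b _ hab
      refine Finset.disjoint_left.2 fun p hpa hpb => hab ?_
      rw [← (mem_cellPrimes.1 hpa).2, (mem_cellPrimes.1 hpb).2]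
  have hdev : ∑ t ∈ Finset.range (s + 1), c t * S t ≤
      (∑ t ∈ Finset.range (s + 1), c t) + 2 * B := by
    have h1 : ∀ t ∈ Finset.range (s + 1),
        c t * S t ≤ c t + 2 * ((if t < t0 then |S t - 1| else 0) + g t) := by
      intro t _
      have habs : c t * (S t - 1) ≤ 2 * |S t - 1| := by
        refine le_trans (le_abs_self _) ?_
        rw [abs_mul, abs_of_nonneg (hc0 t).1]
        exact mul_le_mul_of_nonneg_right (hc0 t).2 (abs_nonneg _)
      have hb : |S t - 1| ≤ (if t < t0 then |S t - 1| else 0) + g t := by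
        split_ifs with h
        · have : 0 ≤ g t := (Real.exp_pos _).le
          linarith
        · simpa [hS, hg] using ht0 t (not_lt.1 h)
      linarith
    refine (Finset.sum_le_sum h1).trans ?_
    rw [Finset.sum_add_distrib, ← Finset.mul_sum, Finset.sum_add_distrib, hB]
    gcongr
    · rw [← Finset.sum_filter]
      refine Finset.sum_le_sum_of_subset_of_nonneg (fun t ht => ?_) (fun i _ _ => abs_nonneg _)
      exact Finset.mem_range.2 (Finset.mem_filter.1 ht).2
    · exact hgs.sum_le_tsum _ (fun i _ => (Real.exp_pos _).le)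
  have hcsum : ∑ t ∈ Finset.range (s + 1), c t =
      (s : ℝ) + 1 + (Real.exp z - 1) * ((w : ℝ) - u) := by
    have e : ∀ t, c t = 1 + (if u ≤ t ∧ t < w then Real.exp z - 1 else 0) := by
      intro t; simp only [hc]; split_ifs <;> ring
    simp only [e, Finset.sum_add_distrib, Finset.sum_const, Finset.card_range, nsmul_eq_mul,
      mul_one, ← Finset.sum_filter]
    have hI : (Finset.range (s + 1)).filter (fun t => u ≤ t ∧ t < w) = Finset.Ico u w := by
      ext t
      simp only [Finset.mem_filter, Finset.mem_range, Finset.mem_Ico]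
      omega
    rw [hI, Nat.card_Ico, Nat.cast_sub huw.le]
    push_cast
    ring
  refine hsum.trans (hprod.trans (Real.exp_le_exp.2 ?_))
  rw [Finset.sum_add_distrib, hfirst]
  linarith

lemma exists_deviation_bound (hC : CellStatement) :
    ∃ A : ℝ, ∀ s u w : ℕ, u < w → w ≤ s + 1 →
      ∀ M : Finset ℕ, (∀ m ∈ M, 0 < m ∧ CellsLe m s ∧
        dev s - 1 ≤ |(omegaSeg m u w : ℝ) - ((w : ℝ) - u)|) →
      ∑ m ∈ M, (m : ℝ)⁻¹ ≤ Real.exp ((s : ℝ) + A - 3 * Real.sqrt ((s : ℝ) + 4) / 16) := by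
  obtain ⟨A, hA⟩ := exists_weight_bound hC
  refine ⟨A + 1 / 4 + Real.log 2, fun s u w huw hws M hM => ?_⟩
  set σ : ℝ := (s : ℝ) + 4 with hσ
  have hs0 : (0 : ℝ) ≤ s := Nat.cast_nonneg s
  have hσ4 : (4 : ℝ) ≤ σ := by linarith
  set r : ℝ := σ ^ ((1 : ℝ) / 4) with hr
  have hr1 : 1 ≤ r := Real.one_le_rpow (by linarith) (by norm_num)
  have hr2 : r ^ 2 = Real.sqrt σ := by
    rw [hr, ← Real.rpow_natCast, ← Real.rpow_mul (by linarith), Real.sqrt_eq_rpow]
    norm_num
  have hr4 : r ^ 4 = σ := by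
    have : (r ^ 2) ^ 2 = σ := by rw [hr2, Real.sq_sqrt (by linarith)]
    rw [← this]; ring
  have hdev : dev s = r ^ 3 := by
    rw [dev, hr, ← hσ, ← Real.rpow_natCast, ← Real.rpow_mul (by linarith)]
    norm_num
  set h : ℝ := 1 / (4 * r) with hh
  have hh0 : 0 < h := by positivity
  have hh4 : h ≤ 1 / 4 := by
    rw [hh]; exact one_div_le_one_div_of_le (by norm_num) (by linarith)
  have hrh : 4 * r * h = 1 := by rw [hh]; field_simp
  set N : ℝ := (w : ℝ) - u with hN
  have hN0 : 0 ≤ N := by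
    rw [hN]; exact sub_nonneg.2 (by exact_mod_cast huw.le)
  have hNσ : N ≤ σ := by
    have : (w : ℝ) ≤ (s : ℝ) + 1 := by exact_mod_cast hws
    have : (0 : ℝ) ≤ u := Nat.cast_nonneg u
    rw [hN]; linarith
  have hside : ∀ z : ℝ, |z| = h → ∑ m ∈ M.filter (fun m =>
      h * (dev s - 1) ≤ z * ((omegaSeg m u w : ℝ) - N)), (m : ℝ)⁻¹ ≤
      Real.exp ((s : ℝ) + (A + 1 / 4) - 3 * Real.sqrt σ / 16) := by
    intro z hz
    set M' := M.filter (fun m => h * (dev s - 1) ≤ z * ((omegaSeg m u w : ℝ) - N)) with hM'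
    have hkey := hA s u w huw hws z (by rw [hz]; exact hh4) M'
      (fun m hm => ⟨(hM m (Finset.mem_filter.1 hm).1).1, (hM m (Finset.mem_filter.1 hm).1).2.1⟩)
    have h1 : Real.exp (z * N + h * (dev s - 1)) * ∑ m ∈ M', (m : ℝ)⁻¹ ≤
        ∑ m ∈ M', Real.exp (z * omegaSeg m u w) / m := by
      rw [Finset.mul_sum]
      refine Finset.sum_le_sum fun m hm => ?_
      rw [div_eq_mul_inv]
      refine mul_le_mul_of_nonneg_right (Real.exp_le_exp.2 ?_) (by positivity)
      have := (Finset.mem_filter.1 hm).2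
      linarith
    have h2 : Real.exp z - 1 ≤ z + h ^ 2 := by
      have := (abs_le.1 (Real.abs_exp_sub_one_sub_id_le (show |z| ≤ 1 by rw [hz]; linarith))).2
      have hz2 : z ^ 2 = h ^ 2 := by rw [← sq_abs, hz]
      linarith
    have h3 : (Real.exp z - 1) * N ≤ z * N + Real.sqrt σ / 16 := by
      have : h ^ 2 * N ≤ Real.sqrt σ / 16 := by
        have e : h ^ 2 * σ = r ^ 2 / 16 := by
          rw [← hr4]
          have : (4 * r * h) ^ 2 = 1 := by rw [hrh]; norm_num
          linear_combination (r ^ 2 / 16) * this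
        rw [← hr2, ← e]
        exact mul_le_mul_of_nonneg_left hNσ (sq_nonneg h)
      nlinarith [mul_le_mul_of_nonneg_right h2 hN0]
    have h4 : Real.sqrt σ / 4 - 1 / 4 ≤ h * (dev s - 1) := by
      have e : h * r ^ 3 = r ^ 2 / 4 := by linear_combination (r ^ 2 / 4) * hrh
      rw [hdev, mul_sub, e, hr2, mul_one]
      linarith
    have h5 := h1.trans hkey
    rw [← le_div_iff₀' (Real.exp_pos _), ← Real.exp_sub] at h5
    refine h5.trans (Real.exp_le_exp.2 ?_)
    linarith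
  have hcover : M ⊆
      M.filter (fun m => h * (dev s - 1) ≤ h * ((omegaSeg m u w : ℝ) - N)) ∪
      M.filter (fun m => h * (dev s - 1) ≤ (-h) * ((omegaSeg m u w : ℝ) - N)) := by
    intro m hm
    have hd := (hM m hm).2.2
    rw [Finset.mem_union, Finset.mem_filter, Finset.mem_filter]
    rcases le_total 0 ((omegaSeg m u w : ℝ) - N) with hp | hp
    · rw [abs_of_nonneg hp] at hd
      exact Or.inl ⟨hm, mul_le_mul_of_nonneg_left hd hh0.le⟩
    · rw [abs_of_nonpos hp] at hd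
      refine Or.inr ⟨hm, ?_⟩
      rw [neg_mul, ← mul_neg]
      exact mul_le_mul_of_nonneg_left hd hh0.le
  calc ∑ m ∈ M, (m : ℝ)⁻¹
      ≤ ∑ m ∈ M.filter (fun m => h * (dev s - 1) ≤ h * ((omegaSeg m u w : ℝ) - N)) ∪
          M.filter (fun m => h * (dev s - 1) ≤ (-h) * ((omegaSeg m u w : ℝ) - N)), (m : ℝ)⁻¹ :=
        Finset.sum_le_sum_of_subset_of_nonneg hcover (fun i _ _ => by positivity)
    _ ≤ ∑ m ∈ M.filter (fun m => h * (dev s - 1) ≤ h * ((omegaSeg m u w : ℝ) - N)), (m : ℝ)⁻¹ +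
        ∑ m ∈ M.filter (fun m => h * (dev s - 1) ≤ (-h) * ((omegaSeg m u w : ℝ) - N)),
          (m : ℝ)⁻¹ := by
        rw [← Finset.sum_union_inter]
        exact le_add_of_nonneg_right (Finset.sum_nonneg fun i _ => by positivity)
    _ ≤ Real.exp ((s : ℝ) + (A + 1 / 4) - 3 * Real.sqrt σ / 16) +
        Real.exp ((s : ℝ) + (A + 1 / 4) - 3 * Real.sqrt σ / 16) :=
        add_le_add (hside h (abs_of_pos hh0)) (hside (-h) (by rw [abs_neg, abs_of_pos hh0]))
    _ = _ := by
        rw [show (s : ℝ) + (A + 1 / 4 + Real.log 2) - 3 * Real.sqrt σ / 16 =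
          ((s : ℝ) + (A + 1 / 4) - 3 * Real.sqrt σ / 16) + Real.log 2 by ring, Real.exp_add,
          Real.exp_log (by norm_num : (0 : ℝ) < 2)]
        ring

/-- The saving for abnormal primes of scale `s`. -/
def save (s : ℕ) : ℝ := Real.exp (-Real.sqrt ((s : ℝ) + 4) / 32)

lemma eventually_growth (K : ℝ) (n : ℕ) :
    ∀ᶠ s : ℕ in atTop,
      K * ((s : ℝ) + 4) ^ n * Real.exp (-3 * Real.sqrt ((s : ℝ) + 4) / 16) ≤ save s / 2 := by
  have ht : Tendsto (fun s : ℕ => Real.sqrt ((s : ℝ) + 4)) atTop atTop :=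
    Real.tendsto_sqrt_atTop.comp (tendsto_natCast_atTop_atTop.atTop_add tendsto_const_nhds)
  have h0 := (tendsto_rpow_mul_exp_neg_mul_atTop_nhds_zero ((2 * n : ℕ) : ℝ) (5 / 32)
    (by norm_num)).comp ht
  have h1 := h0.const_mul K
  rw [mul_zero] at h1
  filter_upwards [h1.eventually_le_const (show (0 : ℝ) < 1 / 2 by norm_num)] with s hs
  have hnn : (0 : ℝ) ≤ (s : ℝ) + 4 := by positivity
  simp only [Function.comp_apply, Real.rpow_natCast, pow_mul, Real.sq_sqrt hnn] at hs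
  have e : Real.exp (-3 * Real.sqrt ((s : ℝ) + 4) / 16) =
      Real.exp (-(5 / 32) * Real.sqrt ((s : ℝ) + 4)) * save s := by
    rw [save, ← Real.exp_add]; congr 1; ring
  rw [e, ← mul_assoc]
  have hm := mul_le_mul_of_nonneg_right hs (Real.exp_pos (-Real.sqrt ((s : ℝ) + 4) / 32)).le
  change _ ≤ _
  unfold save
  linarith

/-- The primes `q` with `q - 1` free of large prime factors. -/
lemma card_smooth_le {Cr : ℝ} (hCr : 0 < Cr) (hrankin : ∀ X Y : ℝ, 2 ≤ Y → Y ≤ X →
      ∀ F : Finset ℕ, (∀ n ∈ F, 1 ≤ n ∧ (n : ℝ) ≤ X ∧ ∀ p ∈ n.primeFactors, (p : ℝ) ≤ Y) →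
      (F.card : ℝ) ≤ Cr * X * Real.exp (-Real.log X / (4 * Real.log Y)) * (Real.log X + 2) ^ 8)
    {s : ℕ} (hsR : (20 : ℝ) ≤ s) {X L : ℝ} (hX1 : 2 ≤ X)
    (hXs : Real.exp (s : ℝ) ≤ Real.log X) (hX : Real.log X ≤ Real.exp ((s : ℝ) + 3))
    (hL : L = Real.exp (s : ℝ) / ((s : ℝ) + 1) ^ 4) (hL2 : 2 ≤ L)
    (hg1 : Cr * Real.exp 40 * ((s : ℝ) + 4) ^ 0 *
      Real.exp (-3 * Real.sqrt ((s : ℝ) + 4) / 16) ≤ save s / 2)
    (F1 : Finset ℕ) (hF : ∀ q ∈ F1, 2 ≤ q - 1 ∧ (q : ℝ) ≤ X ∧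
      ((s : ℝ) + 1) ^ 4 * Real.log (maxPrime (q - 1)) < Real.exp (s : ℝ)) :
    (F1.card : ℝ) ≤ X * Real.exp (-(s : ℝ)) * (save s / 2) := by
  set σ : ℝ := (s : ℝ) + 4 with hσ
  set a : ℝ := ((s : ℝ) + 1) ^ 4 with ha
  have ha1 : 1 ≤ a := one_le_pow₀ (by linarith)
  have hLs : L ≤ Real.exp (s : ℝ) := hL ▸ div_le_self (Real.exp_pos _).le ha1
  have hLa : L * a = Real.exp (s : ℝ) := by rw [hL]; exact div_mul_cancel₀ _ (by positivity)
  set Y : ℝ := Real.exp L with hY
  have hY3 : 3 ≤ Y := by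
    have := Real.add_one_le_exp L
    linarith
  have hlogY : Real.log Y = L := Real.log_exp L
  have hYX : Y ≤ X := by
    rw [← Real.exp_log (show (0 : ℝ) < X by linarith)]
    exact Real.exp_le_exp.2 (hLs.trans hXs)
  have hinj : (F1.image fun q => q - 1).card = F1.card := by
    refine Finset.card_image_of_injOn fun x hx y hy h => ?_
    have := (hF x hx).1
    have := (hF y hy).1
    omega
  have h := hrankin X Y (by linarith) hYX (F1.image fun q => q - 1) ?_
  · rw [hinj] at h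
    refine h.trans ?_
    rw [hlogY]
    have e1 : Real.exp (-Real.log X / (4 * L)) ≤ Real.exp (-(10 * (s : ℝ))) := by
      refine Real.exp_le_exp.2 ?_
      rw [div_le_iff₀ (by positivity)]
      have h40 : 40 * (s : ℝ) ≤ a := by
        have h2 : ((s : ℝ) + 1) ^ 2 ≤ a := pow_le_pow_right₀ (by linarith) (by norm_num)
        nlinarith
      nlinarith
    have e2 : (Real.log X + 2) ^ 8 ≤ Real.exp (8 * (s : ℝ) + 32) := by
      rw [show 8 * (s : ℝ) + 32 = (8 : ℕ) * ((s : ℝ) + 4) by push_cast; ring, Real.exp_nat_mul]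
      refine pow_le_pow_left₀ (by linarith [Real.exp_pos (s : ℝ)]) ?_ 8
      have h4 : Real.exp ((s : ℝ) + 4) = Real.exp ((s : ℝ) + 3) * Real.exp 1 := by
        rw [← Real.exp_add]; ring_nf
      have h2' : 2 ≤ Real.exp ((s : ℝ) + 3) := by
        linarith [Real.add_one_le_exp ((s : ℝ) + 3)]
      have he : 2 ≤ Real.exp 1 := by linarith [Real.add_one_le_exp (1 : ℝ)]
      rw [h4]
      nlinarith
    have hg1' : Cr * Real.exp 40 * Real.exp (-3 * Real.sqrt σ / 16) ≤ save s / 2 := by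
      rw [pow_zero, mul_one] at hg1
      exact hg1
    calc Cr * X * Real.exp (-Real.log X / (4 * L)) * (Real.log X + 2) ^ 8
        ≤ Cr * X * Real.exp (-(10 * (s : ℝ))) * Real.exp (8 * (s : ℝ) + 32) := by
          refine mul_le_mul (mul_le_mul_of_nonneg_left e1 (by positivity)) e2 ?_ (by positivity)
          exact pow_nonneg (by linarith [Real.exp_pos (s : ℝ)]) 8
      _ = X * Real.exp (-(s : ℝ)) * (Cr * Real.exp (32 - (s : ℝ))) := by
          have : Real.exp (-(10 * (s : ℝ))) * Real.exp (8 * (s : ℝ) + 32) =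
              Real.exp (-(s : ℝ)) * Real.exp (32 - (s : ℝ)) := by
            rw [← Real.exp_add, ← Real.exp_add]; ring_nf
          linear_combination (Cr * X) * this
      _ ≤ X * Real.exp (-(s : ℝ)) * (save s / 2) := by
          refine mul_le_mul_of_nonneg_left (le_trans ?_ hg1') (by positivity)
          rw [mul_assoc, ← Real.exp_add]
          refine mul_le_mul_of_nonneg_left (Real.exp_le_exp.2 ?_) hCr.le
          have hle : Real.sqrt σ ≤ σ := Real.sqrt_le_iff.2 ⟨by positivity, by nlinarith⟩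
          linarith
  · intro n hn
    obtain ⟨q, hq, rfl⟩ := Finset.mem_image.1 hn
    obtain ⟨h2, hqX, hsmall⟩ := hF q hq
    refine ⟨by omega, le_trans (by exact_mod_cast Nat.sub_le q 1) hqX,
      fun p hp => ?_⟩
    have hp2 : (2 : ℝ) ≤ p := by exact_mod_cast (Nat.prime_of_mem_primeFactors hp).two_le
    have hpm : p ≤ maxPrime (q - 1) := Finset.le_sup (f := id) hp
    have hlp : Real.log (p : ℝ) ≤ Real.log (maxPrime (q - 1) : ℝ) :=
      Real.log_le_log (by linarith) (by exact_mod_cast hpm)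
    rw [← Real.exp_log (show (0 : ℝ) < p by linarith), hY]
    refine Real.exp_le_exp.2 (hlp.trans ?_)
    rw [hL, le_div_iff₀ (by positivity), mul_comm]
    exact hsmall.le


/-- The primes `q` with `q - 1` having an unusual number of prime factors. -/
lemma card_deviation_le {Cs A : ℝ} (hCs : 0 < Cs) {k : ℕ}
    (hsieve : ∀ X Y : ℝ, 3 ≤ Y → Y ≤ X → ∀ L : Finset ℕ,
      (∀ l ∈ L, l.Prime ∧ Y ≤ l ∧ (l : ℝ) ≤ X) →
      ∀ a : ℕ, 1 ≤ a → (∀ l ∈ L, (a * l + 1).Prime) →
      (L.card : ℝ) ≤ Cs * X * llg (X * a) ^ k / Real.log Y ^ 2)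
    {s : ℕ} (hA : ∀ u w : ℕ, u < w → w ≤ s + 1 →
      ∀ M : Finset ℕ, (∀ m ∈ M, 0 < m ∧ CellsLe m s ∧
        dev s - 1 ≤ |(omegaSeg m u w : ℝ) - ((w : ℝ) - u)|) →
      ∑ m ∈ M, (m : ℝ)⁻¹ ≤ Real.exp ((s : ℝ) + A - 3 * Real.sqrt ((s : ℝ) + 4) / 16))
    (hsR : (20 : ℝ) ≤ s) {X L : ℝ} (hX1 : 2 ≤ X) (hX : Real.log X ≤ Real.exp ((s : ℝ) + 3))
    (hL : L = Real.exp (s : ℝ) / ((s : ℝ) + 1) ^ 4) (hL2 : 2 ≤ L)
    (hg2 : Cs * Real.exp A * ((s : ℝ) + 4) ^ (k + 10) *
      Real.exp (-3 * Real.sqrt ((s : ℝ) + 4) / 16) ≤ save s / 2)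
    (F2 : Finset ℕ) (hF : ∀ q ∈ F2, q.Prime ∧ 2 ≤ q - 1 ∧ (q : ℝ) ≤ X ∧ cell q = s ∧
      ¬ Normal q ∧ Real.exp (s : ℝ) ≤ ((s : ℝ) + 1) ^ 4 * Real.log (maxPrime (q - 1))) :
    (F2.card : ℝ) ≤ X * Real.exp (-(s : ℝ)) * (save s / 2) := by
  set σ : ℝ := (s : ℝ) + 4 with hσ
  set a : ℝ := ((s : ℝ) + 1) ^ 4 with ha
  set Y : ℝ := Real.exp L with hY
  have hY3 : 3 ≤ Y := by
    have := Real.add_one_le_exp L
    linarith
  have hlogY : Real.log Y = L := Real.log_exp L
  set co : ℕ → ℕ := fun q => (q - 1) / maxPrime (q - 1) with hco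
  set M := F2.image co with hM
  have hdata : ∀ q ∈ F2, co q * maxPrime (q - 1) + 1 = q ∧ (maxPrime (q - 1)).Prime ∧
      Y ≤ (maxPrime (q - 1) : ℝ) ∧ 1 ≤ co q ∧
      (maxPrime (q - 1) : ℝ) ≤ X / co q := by
    intro q hq
    obtain ⟨hqp, h2, hqX, -, -, hbig⟩ := hF q hq
    have hl : maxPrime (q - 1) ∈ (q - 1).primeFactors := by
      obtain ⟨b, hb, hbe⟩ := Finset.exists_mem_eq_sup (q - 1).primeFactors
        (Nat.nonempty_primeFactors.2 (by omega)) id
      rw [maxPrime, hbe]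
      exact hb
    have hlp := Nat.prime_of_mem_primeFactors hl
    have hdvd := Nat.dvd_of_mem_primeFactors hl
    have hmul : co q * maxPrime (q - 1) = q - 1 := Nat.div_mul_cancel hdvd
    have hco1 : 1 ≤ co q := by
      rcases Nat.eq_zero_or_pos (co q) with h | h
      · rw [h] at hmul; omega
      · exact h
    refine ⟨by omega, hlp, ?_, hco1, ?_⟩
    · rw [hY, ← Real.le_log_iff_exp_le (by exact_mod_cast hlp.pos), hL,
        div_le_iff₀ (by positivity), mul_comm]
      exact hbig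
    · rw [le_div_iff₀ (by exact_mod_cast hco1), mul_comm, ← Nat.cast_mul, hmul]
      exact le_trans (by exact_mod_cast Nat.sub_le q 1) hqX
  have hsum : ∑ m ∈ M, (m : ℝ)⁻¹ ≤
      σ ^ 2 * Real.exp ((s : ℝ) + A - 3 * Real.sqrt σ / 16) := by
    set pairs := ((Finset.range (s + 2)) ×ˢ (Finset.range (s + 2))).filter
      fun p => p.1 < p.2 with hpairs
    have hc : ∀ m ∈ M, 0 < m ∧ CellsLe m s ∧ ∃ p ∈ pairs,
        dev s - 1 ≤ |(omegaSeg m p.1 p.2 : ℝ) - ((p.2 : ℝ) - p.1)| := by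
      intro m hm
      obtain ⟨q, hq, rfl⟩ := Finset.mem_image.1 hm
      obtain ⟨heq, hlp, -, hco1, -⟩ := hdata q hq
      obtain ⟨hqp, -, -, hqc, hqn, hbig⟩ := hF q hq
      refine ⟨hco1, fun p hp => ?_, ?_⟩
      · obtain ⟨hpp, hpd, -⟩ := Nat.mem_primeFactors.1 hp
        have hple : p ≤ q := (Nat.le_of_dvd hco1 hpd).trans (by nlinarith [hlp.two_le])
        exact (cell_mono hpp.two_le hple).trans hqc.le
      · unfold Normal at hqn
        rw [hqc] at hqn
        have hsec : Real.exp (s : ℝ) ≤ ((s : ℝ) + 1) ^ 4 * Real.log (maxPrime (q - 1)) :=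
          hbig
        simp only [hsec, and_true, not_forall, not_le] at hqn
        obtain ⟨u, w, huw, hws, hbad⟩ := hqn
        refine ⟨(u, w), Finset.mem_filter.2 ⟨Finset.mem_product.2
          ⟨Finset.mem_range.2 (by omega), Finset.mem_range.2 (by omega)⟩, huw⟩, ?_⟩
        have hprod : q - 1 = co q * maxPrime (q - 1) := by omega
        rw [hprod, omegaSeg_mul (by omega) hlp.ne_zero, omegaSeg_prime hlp] at hbad
        push_cast at hbad
        set δ : ℝ := ((if u ≤ cell (maxPrime (q - 1)) ∧ cell (maxPrime (q - 1)) < w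
          then 1 else 0 : ℕ) : ℝ) with hδ
        have hδ0 : 0 ≤ δ := Nat.cast_nonneg _
        have hδ1 : δ ≤ 1 := by rw [hδ]; split_ifs <;> simp
        have htri := abs_add_le ((omegaSeg (co q) u w : ℝ) - ((w : ℝ) - u)) δ
        rw [abs_of_nonneg hδ0] at htri
        have e : (omegaSeg (co q) u w : ℝ) - ((w : ℝ) - u) + δ =
            (omegaSeg (co q) u w : ℝ) + δ - ((w : ℝ) - u) := by ring
        rw [e] at htri
        rw [hδ] at htri hδ1
        push_cast at htri hδ1
        linarith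
    calc ∑ m ∈ M, (m : ℝ)⁻¹
        ≤ ∑ m ∈ M, ∑ p ∈ pairs,
            if dev s - 1 ≤ |(omegaSeg m p.1 p.2 : ℝ) - ((p.2 : ℝ) - p.1)|
              then (m : ℝ)⁻¹ else 0 := by
          refine Finset.sum_le_sum fun m hm => ?_
          obtain ⟨-, -, p, hp, hpd⟩ := hc m hm
          refine le_trans (le_of_eq (if_pos hpd).symm) (Finset.single_le_sum
            (f := fun p : ℕ × ℕ =>
              if dev s - 1 ≤ |(omegaSeg m p.1 p.2 : ℝ) - ((p.2 : ℝ) - p.1)|
                then (m : ℝ)⁻¹ else 0) (fun i _ => ?_) hp)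
          positivity
      _ = ∑ p ∈ pairs, ∑ m ∈ M.filter (fun m =>
            dev s - 1 ≤ |(omegaSeg m p.1 p.2 : ℝ) - ((p.2 : ℝ) - p.1)|), (m : ℝ)⁻¹ := by
          rw [Finset.sum_comm]
          exact Finset.sum_congr rfl fun p _ => (Finset.sum_filter _ _).symm
      _ ≤ ∑ p ∈ pairs, Real.exp ((s : ℝ) + A - 3 * Real.sqrt σ / 16) := by
          refine Finset.sum_le_sum fun p hp => ?_
          obtain ⟨hp1, hp2⟩ := Finset.mem_filter.1 hp
          obtain ⟨-, hpw⟩ := Finset.mem_product.1 hp1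
          refine hA p.1 p.2 hp2 (Nat.le_of_lt_succ (Finset.mem_range.1 hpw)) _ fun m hm => ?_
          obtain ⟨hmM, hmd⟩ := Finset.mem_filter.1 hm
          exact ⟨(hc m hmM).1, (hc m hmM).2.1, hmd⟩
      _ ≤ σ ^ 2 * Real.exp ((s : ℝ) + A - 3 * Real.sqrt σ / 16) := by
          rw [Finset.sum_const, nsmul_eq_mul]
          gcongr
          have hle : pairs.card ≤ (s + 2) * (s + 2) := by
            refine (Finset.card_filter_le _ _).trans ?_
            rw [Finset.card_product, Finset.card_range]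
          refine le_trans (Nat.cast_le.2 hle) ?_
          push_cast
          nlinarith
  have hllg : 0 ≤ llg X ∧ llg X ≤ σ := by
    unfold llg
    have hl1 : 1 ≤ Real.log (X + 16) := by
      rw [Real.le_log_iff_exp_le (by linarith)]
      linarith [Real.exp_one_lt_d9]
    refine ⟨Real.log_nonneg hl1, ?_⟩
    rw [Real.log_le_iff_le_exp (by linarith)]
    have hmul : Real.log (X + 16) ≤ Real.log X + Real.log 9 := by
      rw [← Real.log_mul (by linarith) (by norm_num)]
      exact Real.log_le_log (by linarith) (by linarith)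
    have h9 : Real.log (9 : ℝ) ≤ 8 := by
      linarith [Real.log_le_sub_one_of_pos (show (0 : ℝ) < 9 by norm_num)]
    have h4 : Real.exp σ = Real.exp ((s : ℝ) + 3) * Real.exp 1 := by
      rw [← Real.exp_add, hσ]; ring_nf
    have h8 : 8 ≤ Real.exp ((s : ℝ) + 3) := by
      linarith [Real.add_one_le_exp ((s : ℝ) + 3)]
    have he : 2 ≤ Real.exp 1 := by linarith [Real.add_one_le_exp (1 : ℝ)]
    rw [h4]
    nlinarith
  have hfib : ∀ m ∈ M, ((F2.filter fun q => co q = m).card : ℝ) ≤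
      Cs * X * σ ^ k / L ^ 2 * (m : ℝ)⁻¹ := by
    intro m hm
    obtain ⟨q1, hq1, hq1m⟩ := Finset.mem_image.1 hm
    obtain ⟨-, -, hY1, hm1, hX1'⟩ := hdata q1 hq1
    rw [hq1m] at hm1 hX1'
    set Ls := (F2.filter fun q => co q = m).image fun q => maxPrime (q - 1) with hLs'
    have hinj : Ls.card = (F2.filter fun q => co q = m).card := by
      refine Finset.card_image_of_injOn fun x hx y hy h => ?_
      obtain ⟨hx2, hxm⟩ := Finset.mem_filter.1 hx
      obtain ⟨hy2, hym⟩ := Finset.mem_filter.1 hy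
      rw [← (hdata x hx2).1, ← (hdata y hy2).1, hxm, hym]
      rw [h]
    have hmX : X / (m : ℝ) * (m : ℝ) = X :=
      div_mul_cancel₀ X (Nat.cast_ne_zero.2 (by omega))
    have h := hsieve (X / m) Y hY3 (hY1.trans hX1') Ls ?_ m hm1 ?_
    · rw [hinj, hlogY, hmX] at h
      refine h.trans ?_
      have hk : llg X ^ k ≤ σ ^ k := pow_le_pow_left₀ hllg.1 hllg.2 k
      rw [show Cs * (X / m) * llg X ^ k / L ^ 2 = Cs * X * llg X ^ k / L ^ 2 * (m : ℝ)⁻¹ by
        field_simp]
      gcongr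
    · intro l hl
      obtain ⟨q, hq, rfl⟩ := Finset.mem_image.1 hl
      obtain ⟨hq2, hqm⟩ := Finset.mem_filter.1 hq
      obtain ⟨-, hp, hYl, -, hlX⟩ := hdata q hq2
      rw [hqm] at hlX
      exact ⟨hp, hYl, hlX⟩
    · intro l hl
      obtain ⟨q, hq, rfl⟩ := Finset.mem_image.1 hl
      obtain ⟨hq2, hqm⟩ := Finset.mem_filter.1 hq
      rw [← hqm, (hdata q hq2).1]
      exact (hF q hq2).1
  have hg2' : Cs * Real.exp A * σ ^ (k + 10) * Real.exp (-3 * Real.sqrt σ / 16) ≤
      save s / 2 := hg2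
  calc (F2.card : ℝ) = ∑ m ∈ M, ((F2.filter fun q => co q = m).card : ℝ) := by
        rw [← Nat.cast_sum, ← Finset.card_eq_sum_card_image]
    _ ≤ ∑ m ∈ M, Cs * X * σ ^ k / L ^ 2 * (m : ℝ)⁻¹ := Finset.sum_le_sum hfib
    _ = Cs * X * σ ^ k / L ^ 2 * ∑ m ∈ M, (m : ℝ)⁻¹ := (Finset.mul_sum _ _ _).symm
    _ ≤ Cs * X * σ ^ k / L ^ 2 *
        (σ ^ 2 * Real.exp ((s : ℝ) + A - 3 * Real.sqrt σ / 16)) :=
        mul_le_mul_of_nonneg_left hsum (by positivity)
    _ = X * Real.exp (-(s : ℝ)) *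
        (Cs * Real.exp A * (σ ^ (k + 2) * a ^ 2) * Real.exp (-3 * Real.sqrt σ / 16)) := by
        rw [show (s : ℝ) + A - 3 * Real.sqrt σ / 16 =
          (s : ℝ) + A + -3 * Real.sqrt σ / 16 by ring, Real.exp_add, Real.exp_add,
          Real.exp_neg, hL, div_pow, pow_add]
        field_simp
    _ ≤ X * Real.exp (-(s : ℝ)) * (save s / 2) := by
        refine mul_le_mul_of_nonneg_left (le_trans ?_ hg2') (by positivity)
        gcongr
        calc σ ^ (k + 2) * a ^ 2 ≤ σ ^ (k + 2) * (σ ^ 4) ^ 2 := by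
              gcongr
              exact pow_le_pow_left₀ (by linarith) (by linarith) 4
          _ = σ ^ (k + 10) := by ring


lemma card_abnormal_le (hS : SieveStatement) (hC : CellStatement) (hR : SmoothStatement) :
    ∃ s0 : ℕ, ∀ s : ℕ, s0 ≤ s → ∀ X : ℝ, Real.log X ≤ Real.exp ((s : ℝ) + 3) →
      ∀ F : Finset ℕ, (∀ q ∈ F, q.Prime ∧ (q : ℝ) ≤ X ∧ cell q = s ∧ ¬ Normal q) →
      (F.card : ℝ) ≤ X * Real.exp (-(s : ℝ)) * save s ∨ F = ∅ := by
  obtain ⟨Cs, hCs, k, hsieve⟩ := hS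
  obtain ⟨Cr, hCr, hrankin⟩ := hR
  obtain ⟨A, hA⟩ := exists_deviation_bound hC
  obtain ⟨s1, hs1⟩ := eventually_atTop.1 (((eventually_growth (Cr * Real.exp 40) 0).and
    (eventually_growth (Cs * Real.exp A) (k + 10))).and ((eventually_ge_atTop 20).and
    ((eventually_growth 1 4).and (eventually_ge_atTop 1))))
  refine ⟨s1, fun s hs X hX F hF => ?_⟩
  rcases F.eq_empty_or_nonempty with hemp | ⟨q0, hq0⟩
  · exact Or.inr hemp
  left
  obtain ⟨⟨hg1, hg2⟩, hs20, hg3, hs1'⟩ := hs1 s hs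
  set σ : ℝ := (s : ℝ) + 4 with hσ
  have hsR : (20 : ℝ) ≤ s := by exact_mod_cast hs20
  obtain ⟨hq0p, hq0X, hq0c, -⟩ := hF q0 hq0
  have hq02 : (2 : ℝ) ≤ q0 := by exact_mod_cast hq0p.two_le
  have hXs : Real.exp (s : ℝ) ≤ Real.log X :=
    (exp_le_log_of_cell hq0p.two_le hq0c hs1').trans (Real.log_le_log (by linarith) hq0X)
  have hX1 : 2 ≤ X := by linarith
  set a : ℝ := ((s : ℝ) + 1) ^ 4 with ha
  have ha1 : 1 ≤ a := one_le_pow₀ (by linarith)
  set L : ℝ := Real.exp (s : ℝ) / a with hL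
  have hLs : L ≤ Real.exp (s : ℝ) := div_le_self (Real.exp_pos _).le ha1
  have hL2 : 2 ≤ L := by
    rw [hL, le_div_iff₀ (by positivity)]
    have hpos := Real.exp_pos (-3 * Real.sqrt σ / 16)
    have hle : Real.sqrt σ ≤ σ := Real.sqrt_le_iff.2 ⟨by positivity, by nlinarith⟩
    have hsav : save s ≤ 1 := Real.exp_le_one_iff.2 (by
      have := Real.sqrt_nonneg σ; rw [← hσ]; linarith)
    have h5 : σ ^ 4 ≤ Real.exp (3 * Real.sqrt σ / 16) / 2 := by
      have h6 := hg3.trans (by linarith : save s / 2 ≤ 1 / 2)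
      rw [one_mul, ← le_div_iff₀ hpos] at h6
      refine h6.trans (le_of_eq ?_)
      rw [show -3 * Real.sqrt σ / 16 = -(3 * Real.sqrt σ / 16) by ring, Real.exp_neg]
      field_simp
    have h7 : a ≤ σ ^ 4 := pow_le_pow_left₀ (by linarith) (by linarith) 4
    have h8 : Real.exp (3 * Real.sqrt σ / 16) ≤ 4 * Real.exp (s : ℝ) := by
      refine (Real.exp_le_exp.2 (show 3 * Real.sqrt σ / 16 ≤ (s : ℝ) by linarith)).trans ?_
      linarith [Real.exp_pos (s : ℝ)]
    have h9 : Real.exp (3 * Real.sqrt σ / 16) ≤ Real.exp (s : ℝ) :=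
      Real.exp_le_exp.2 (by linarith)
    linarith
  have htwo : ∀ q ∈ F, 2 ≤ q - 1 := by
    intro q hq
    obtain ⟨hp, -, hc, -⟩ := hF q hq
    have h2 := hp.two_le
    have : q ≠ 2 := by
      rintro rfl
      have h := exp_le_log_of_cell le_rfl hc hs1'
      have := Real.add_one_le_exp (s : ℝ)
      have := Real.log_two_lt_d9
      push_cast at h
      linarith
    omega
  have hcard : (F.card : ℝ) =
      ((F.filter fun q =>
        ((s : ℝ) + 1) ^ 4 * Real.log (maxPrime (q - 1)) < Real.exp (s : ℝ)).card : ℝ) +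
      ((F.filter fun q =>
        ¬ ((s : ℝ) + 1) ^ 4 * Real.log (maxPrime (q - 1)) < Real.exp (s : ℝ)).card : ℝ) := by
    rw [← Nat.cast_add, Finset.card_filter_add_card_filter_not]
  have hb1 := card_smooth_le hCr hrankin hsR hX1 hXs hX hL hL2 hg1
    (F.filter fun q => ((s : ℝ) + 1) ^ 4 * Real.log (maxPrime (q - 1)) < Real.exp (s : ℝ))
    (fun q hq => ⟨htwo q (Finset.mem_filter.1 hq).1, (hF q (Finset.mem_filter.1 hq).1).2.1,
      (Finset.mem_filter.1 hq).2⟩)
  have hb2 := card_deviation_le hCs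
    (fun X Y h1 h2 L hL a ha h => ((hsieve X Y h1 h2 L hL).1 a ha h).1)
    (hA s) hsR hX1 hX hL hL2 hg2
    (F.filter fun q => ¬ ((s : ℝ) + 1) ^ 4 * Real.log (maxPrime (q - 1)) < Real.exp (s : ℝ))
    (fun q hq => by
      obtain ⟨hqF, hbig⟩ := Finset.mem_filter.1 hq
      obtain ⟨h1, h2, h3, h4⟩ := hF q hqF
      exact ⟨h1, htwo q hqF, h2, h3, h4, not_lt.1 hbig⟩)
  linarith

lemma eventually_final :
    ∀ᶠ t : ℕ in atTop, 300 * save (t - 1) ≤ Real.exp (-(t : ℝ) ^ ((1 : ℝ) / 3)) := by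
  have ht6 : Tendsto (fun t : ℕ => (t : ℝ) ^ ((1 : ℝ) / 6)) atTop atTop :=
    (tendsto_rpow_atTop (by norm_num)).comp tendsto_natCast_atTop_atTop
  filter_upwards [ht6.eventually_ge_atTop 1000, eventually_ge_atTop 1] with t ht h1
  set r := (t : ℝ) ^ ((1 : ℝ) / 6) with hr
  have h2 : (t : ℝ) ^ ((1 : ℝ) / 3) = r ^ 2 := by
    rw [hr, ← Real.rpow_natCast, ← Real.rpow_mul (Nat.cast_nonneg t)]; norm_num
  have h3 : Real.sqrt t = r ^ 3 := by
    rw [hr, ← Real.rpow_natCast, ← Real.rpow_mul (Nat.cast_nonneg t), Real.sqrt_eq_rpow]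
    norm_num
  have h4 : r ^ 3 ≤ Real.sqrt (((t - 1 : ℕ) : ℝ) + 4) := by
    rw [← h3, Nat.cast_sub h1]
    exact Real.sqrt_le_sqrt (by push_cast; linarith)
  have h300 : (300 : ℝ) ≤ Real.exp 299 := by
    linarith [Real.add_one_le_exp (299 : ℝ)]
  calc 300 * save (t - 1) ≤ Real.exp 299 * save (t - 1) :=
        mul_le_mul_of_nonneg_right h300 (Real.exp_pos _).le
    _ ≤ _ := by
        rw [save, ← Real.exp_add, Real.exp_le_exp, h2]
        nlinarith [mul_le_mul_of_nonneg_right ht (sq_nonneg r)]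

lemma save_anti {a b : ℕ} (h : a ≤ b) : save b ≤ save a := by
  unfold save
  refine Real.exp_le_exp.2 ?_
  have : Real.sqrt ((a : ℝ) + 4) ≤ Real.sqrt ((b : ℝ) + 4) :=
    Real.sqrt_le_sqrt (by have : (a : ℝ) ≤ b := by exact_mod_cast h
                          linarith)
  linarith

end Abn

open Abn in
/-- Abnormal primes are rare. -/
theorem abnormal (hS : SieveStatement) (hC : CellStatement) (hR : SmoothStatement) :
    AbnormalStatement := by
  obtain ⟨s0, hmain⟩ := card_abnormal_le hS hC hR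
  obtain ⟨t1, ht1⟩ := eventually_atTop.1 eventually_final
  refine ⟨max t1 (s0 + 2), fun t ht F hF => ?_, fun t X ht hX F hF => ?_⟩
  · have hfin := ht1 t ((le_max_left _ _).trans ht)
    have hts : s0 ≤ t := by omega
    have ht1' : 1 ≤ t := by omega
    set bin : ℕ → ℕ := fun p => Nat.log 2 p with hbin
    set N : ℕ := ⌊2 * Real.exp ((t : ℝ) + 1)⌋₊ + 1 with hN
    have hjN : ∀ p ∈ F, bin p ∈ Finset.range N := by
      intro p hp
      obtain ⟨hpp, hpc⟩ := mem_cellPrimes.1 (hF p hp).1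
      have hlt := log_lt_of_cell hpp.two_le hpc
      have hpow : ((2 ^ bin p : ℕ) : ℝ) ≤ p := by
        exact_mod_cast Nat.pow_log_le_self 2 hpp.ne_zero
      push_cast at hpow
      have hlog := Real.log_le_log (by positivity) hpow
      rw [Real.log_pow] at hlog
      have h2 := Real.log_two_gt_d9
      refine Finset.mem_range.2 (Nat.lt_succ_of_le (Nat.le_floor ?_))
      nlinarith [Nat.cast_nonneg (α := ℝ) (bin p)]
    have hfib : ∀ j ∈ Finset.range N, ∑ p ∈ F.filter (fun p => bin p = j), (p : ℝ)⁻¹ ≤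
        2 * Real.exp (-(t : ℝ)) * save t := by
      intro j _
      rcases (F.filter fun p => bin p = j).eq_empty_or_nonempty with he | ⟨p0, hp0⟩
      · rw [he, Finset.sum_empty]
        exact mul_nonneg (by positivity) (Real.exp_pos _).le
      obtain ⟨hp0F, hp0j⟩ := Finset.mem_filter.1 hp0
      obtain ⟨hpp0, hpc0⟩ := mem_cellPrimes.1 (hF p0 hp0F).1
      have hXlog : Real.log ((2 : ℝ) ^ (j + 1)) ≤ Real.exp ((t : ℝ) + 3) := by
        rw [pow_succ, Real.log_mul (by positivity) (by norm_num)]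
        have hpow : ((2 ^ j : ℕ) : ℝ) ≤ p0 := by
          rw [← hp0j]
          exact_mod_cast Nat.pow_log_le_self 2 hpp0.ne_zero
        push_cast at hpow
        have h1 := Real.log_le_log (by positivity) hpow
        have h2 := log_lt_of_cell hpp0.two_le hpc0
        have h3 : Real.exp ((t : ℝ) + 3) = Real.exp ((t : ℝ) + 1) * Real.exp 2 := by
          rw [← Real.exp_add]; ring_nf
        have h4 := Real.add_one_le_exp ((t : ℝ) + 1)
        have h5 := Real.add_one_le_exp (2 : ℝ)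
        have h6 := Real.log_two_lt_d9
        have : (0 : ℝ) ≤ t := Nat.cast_nonneg t
        nlinarith
      have hcard := hmain t hts _ hXlog (F.filter fun p => bin p = j) (fun p hp => ?_)
      · have hne : (F.filter fun p => bin p = j) ≠ ∅ :=
          Finset.nonempty_iff_ne_empty.1 ⟨p0, hp0⟩
        replace hcard := hcard.resolve_right hne
        calc ∑ p ∈ F.filter (fun p => bin p = j), (p : ℝ)⁻¹
            ≤ ∑ _p ∈ F.filter (fun p => bin p = j), ((2 : ℝ) ^ j)⁻¹ := by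
              refine Finset.sum_le_sum fun p hp => ?_
              obtain ⟨hpF, hpj⟩ := Finset.mem_filter.1 hp
              have hpow : ((2 ^ j : ℕ) : ℝ) ≤ p := by
                rw [← hpj]
                exact_mod_cast Nat.pow_log_le_self 2 (mem_cellPrimes.1 (hF p hpF).1).1.ne_zero
              push_cast at hpow
              exact inv_anti₀ (by positivity) hpow
          _ = ((F.filter fun p => bin p = j).card : ℝ) * ((2 : ℝ) ^ j)⁻¹ := by
              rw [Finset.sum_const, nsmul_eq_mul]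
          _ ≤ (2 : ℝ) ^ (j + 1) * Real.exp (-(t : ℝ)) * save t * ((2 : ℝ) ^ j)⁻¹ :=
              mul_le_mul_of_nonneg_right hcard (by positivity)
          _ = 2 * Real.exp (-(t : ℝ)) * save t := by
              rw [pow_succ]; field_simp
      · obtain ⟨hpF, hpj⟩ := Finset.mem_filter.1 hp
        obtain ⟨hpp, hpc⟩ := mem_cellPrimes.1 (hF p hpF).1
        refine ⟨hpp, ?_, hpc, (hF p hpF).2⟩
        have := Nat.lt_pow_succ_log_self (b := 2) one_lt_two p
        rw [show Nat.log 2 p = j from hpj] at this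
        exact_mod_cast this.le
    rw [← Finset.sum_fiberwise_of_maps_to hjN]
    refine (Finset.sum_le_sum hfib).trans ?_
    rw [Finset.sum_const, Finset.card_range, nsmul_eq_mul]
    have hNb : (N : ℝ) ≤ 9 * Real.exp (t : ℝ) := by
      rw [hN]; push_cast
      have h1 := Nat.floor_le (show 0 ≤ 2 * Real.exp ((t : ℝ) + 1) by positivity)
      have h2 : Real.exp ((t : ℝ) + 1) = Real.exp (t : ℝ) * Real.exp 1 := Real.exp_add _ _
      have h3 := Real.exp_one_lt_d9
      have h4 : 1 ≤ Real.exp (t : ℝ) := Real.one_le_exp (Nat.cast_nonneg t)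
      nlinarith
    calc (N : ℝ) * (2 * Real.exp (-(t : ℝ)) * save t)
        ≤ 9 * Real.exp (t : ℝ) * (2 * Real.exp (-(t : ℝ)) * save t) :=
          mul_le_mul_of_nonneg_right hNb (mul_nonneg (by positivity) (Real.exp_pos _).le)
      _ = 18 * save t := by rw [Real.exp_neg]; field_simp; ring
      _ ≤ 300 * save (t - 1) := by
          have := save_anti (Nat.sub_le t 1)
          have : 0 < save (t - 1) := Real.exp_pos _
          linarith
      _ ≤ _ := hfin
  · have hfin := ht1 t ((le_max_left _ _).trans ht)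
    have hts : s0 + 2 ≤ t := (le_max_right _ _).trans ht
    obtain ⟨hX0, hX2⟩ := hX
    have hXpos : 0 < X := lt_of_lt_of_le (Real.exp_pos _) hX0
    have hlo : Real.exp (t : ℝ) ≤ Real.log X := (Real.le_log_iff_exp_le hXpos).2 hX0
    have hhi : Real.log X < Real.exp ((t : ℝ) + 2) := (Real.log_lt_iff_lt_exp hXpos).2 hX2
    have hmaps : ∀ p ∈ F, cell p ∈ Finset.Icc (t - 1) (t + 1) := by
      intro p hp
      obtain ⟨hpp, hsq, hpX, -⟩ := hF p hp
      have hp2 : (2 : ℝ) ≤ p := by exact_mod_cast hpp.two_le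
      have hl : Real.log X / 2 ≤ Real.log p := by
        rw [← Real.log_sqrt hXpos.le]
        exact Real.log_le_log (Real.sqrt_pos.2 hXpos) hsq
      have hl' : Real.log (p : ℝ) ≤ Real.log X := Real.log_le_log (by linarith) hpX
      refine Finset.mem_Icc.2 ⟨?_, ?_⟩
      · refine Nat.le_floor ?_
        rw [Real.le_log_iff_exp_le (Real.log_pos (by linarith)), Nat.cast_sub (by omega)]
        have : Real.exp ((t : ℝ) - 1) * 2 ≤ Real.exp (t : ℝ) := by
          have e : Real.exp (t : ℝ) = Real.exp ((t : ℝ) - 1) * Real.exp 1 := by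
            rw [← Real.exp_add]; ring_nf
          have := Real.add_one_le_exp (1 : ℝ)
          rw [e]
          exact mul_le_mul_of_nonneg_left (by linarith) (Real.exp_pos _).le
        push_cast
        linarith
      · refine Nat.le_of_lt_succ ((Nat.floor_lt' (by omega)).2 ?_)
        rw [Real.log_lt_iff_lt_exp (Real.log_pos (by linarith))]
        push_cast
        rw [add_assoc]
        norm_num
        linarith
    rw [Finset.card_eq_sum_card_fiberwise (f := cell) (t := Finset.Icc (t - 1) (t + 1))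
      (fun p hp => hmaps p hp), Nat.cast_sum]
    have hb : ∀ s ∈ Finset.Icc (t - 1) (t + 1), ((F.filter fun p => cell p = s).card : ℝ) ≤
        X / Real.log X * (27 * save (t - 1)) := by
      intro s hs
      obtain ⟨hs1, hs2⟩ := Finset.mem_Icc.1 hs
      have hlogpos : 0 < Real.log X := lt_of_lt_of_le (Real.exp_pos _) hlo
      have hsR : (t : ℝ) - 1 ≤ (s : ℝ) := by
        have : (t : ℝ) ≤ (s : ℝ) + 1 := by exact_mod_cast (by omega : t ≤ s + 1)
        linarith
      have hsub : ∀ p ∈ F.filter (fun p => cell p = s),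
          p.Prime ∧ (p : ℝ) ≤ X ∧ cell p = s ∧ ¬ Normal p := by
        intro p hp
        obtain ⟨hpF, hps⟩ := Finset.mem_filter.1 hp
        obtain ⟨hpp, -, hpX, hpn⟩ := hF p hpF
        exact ⟨hpp, hpX, hps, hpn⟩
      rcases hmain s (by omega) X
        (hhi.le.trans (Real.exp_le_exp.2 (by linarith)))
        (F.filter fun p => cell p = s) hsub with hc | hc
      · refine hc.trans ?_
        have h1 : Real.exp (-(s : ℝ)) * Real.log X ≤ 27 := by
          refine (mul_le_mul_of_nonneg_left hhi.le (Real.exp_pos _).le).trans ?_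
          rw [← Real.exp_add]
          refine (Real.exp_le_exp.2 (show -(s : ℝ) + ((t : ℝ) + 2) ≤ ((3 : ℕ) : ℝ) * 1 by
            push_cast; linarith)).trans ?_
          rw [Real.exp_nat_mul]
          have := Real.exp_one_lt_d9
          calc Real.exp 1 ^ 3 ≤ (3 : ℝ) ^ 3 :=
                pow_le_pow_left₀ (Real.exp_pos _).le (by linarith) 3
            _ = 27 := by norm_num
        have h2 : X * Real.exp (-(s : ℝ)) ≤ X / Real.log X * 27 := by
          rw [div_mul_eq_mul_div, le_div_iff₀ hlogpos, mul_assoc]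
          exact mul_le_mul_of_nonneg_left h1 hXpos.le
        rw [← mul_assoc]
        exact mul_le_mul h2 (save_anti hs1) (Real.exp_pos _).le (by positivity)
      · rw [hc, Finset.card_empty, Nat.cast_zero]
        exact mul_nonneg (by positivity) (mul_nonneg (by norm_num) (Real.exp_pos _).le)
    refine (Finset.sum_le_sum hb).trans ?_
    rw [Finset.sum_const, Nat.card_Icc, nsmul_eq_mul]
    have h3 : t + 1 + 1 - (t - 1) = 3 := by omega
    rw [h3]
    have hs0 : 0 < save (t - 1) := Real.exp_pos _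
    have hq : 0 ≤ X / Real.log X := div_nonneg hXpos.le (le_of_lt
      (lt_of_lt_of_le (Real.exp_pos _) hlo))
    calc ((3 : ℕ) : ℝ) * (X / Real.log X * (27 * save (t - 1)))
        = X / Real.log X * (81 * save (t - 1)) := by push_cast; ring
      _ ≤ X / Real.log X * (300 * save (t - 1)) :=
          mul_le_mul_of_nonneg_left (by linarith) hq
      _ ≤ _ := mul_le_mul_of_nonneg_left hfin hq

end P031
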