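import Vale.Agent.P031.Defs

/-! Shared elementary lemmas. -/

open Finset

noncomputable section

namespace P031

/-! ### Scales -/

theorem cell_mono {p q : ℕ} (hp : 2 ≤ p) (hpq : p ≤ q) : cell p ≤ cell q := by
  have h1 : (1 : ℝ) < p := by exact_mod_cast hp
  have h2 : (0 : ℝ) < Real.log p := Real.log_pos h1
  exact Nat.floor_mono
    (Real.log_le_log h2 (Real.log_le_log (by linarith) (by exact_mod_cast hpq)))

theorem lt_of_cell_le {p t : ℕ} (hp : 2 ≤ p) (h : cell p ≤ t) :
    (p : ℝ) < Real.exp (Real.exp ((t : ℝ) + 1)) := by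
  have h1 : (1 : ℝ) < p := by exact_mod_cast hp
  have h2 : (0 : ℝ) < Real.log p := Real.log_pos h1
  have h3 := Nat.lt_floor_add_one (Real.log (Real.log (p : ℝ)))
  have h4 : (cell p : ℝ) ≤ t := by exact_mod_cast h
  have h5 : Real.log (Real.log (p : ℝ)) < (t : ℝ) + 1 := by
    unfold cell at h4
    linarith
  exact (Real.log_lt_iff_lt_exp (by linarith)).1 ((Real.log_lt_iff_lt_exp h2).1 h5)

theorem log_lt_of_cell_le {p t : ℕ} (hp : 2 ≤ p) (h : cell p ≤ t) :
    Real.log p < Real.exp ((t : ℝ) + 1) :=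
  (Real.log_lt_iff_lt_exp (by positivity)).2 (lt_of_cell_le hp h)

theorem exp_le_log_of_le_cell {p t : ℕ} (hp : 2 ≤ p) (ht : 1 ≤ t) (h : t ≤ cell p) :
    Real.exp (t : ℝ) ≤ Real.log p := by
  have h1 : (1 : ℝ) < p := by exact_mod_cast hp
  have h2 : (0 : ℝ) < Real.log p := Real.log_pos h1
  have h3 : (t : ℝ) ≤ Real.log (Real.log (p : ℝ)) :=
    (Nat.le_floor_iff' (by omega)).1 h
  exact (Real.le_log_iff_exp_le h2).1 h3

theorem le_of_le_cell {p t : ℕ} (hp : 2 ≤ p) (ht : 1 ≤ t) (h : t ≤ cell p) :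
    Real.exp (Real.exp (t : ℝ)) ≤ p :=
  (Real.le_log_iff_exp_le (by positivity)).1 (exp_le_log_of_le_cell hp ht h)

theorem mem_cellPrimes {p t : ℕ} : p ∈ cellPrimes t ↔ p.Prime ∧ cell p = t := by
  refine ⟨fun h => (Finset.mem_filter.1 h).2, fun h => Finset.mem_filter.2 ⟨?_, h⟩⟩
  have h1 := (lt_of_cell_le h.1.two_le h.2.le).le.trans (Nat.le_ceil _)
  rw [Finset.mem_range]
  have : p ≤ ⌈Real.exp (Real.exp ((t : ℝ) + 1))⌉₊ := by exact_mod_cast h1
  omega

theorem cellPrimes_disjoint {s t : ℕ} (h : s ≠ t) : Disjoint (cellPrimes s) (cellPrimes t) := by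
  rw [Finset.disjoint_left]
  intro p hp hp'
  exact h ((mem_cellPrimes.1 hp).2.symm.trans (mem_cellPrimes.1 hp').2)

/-! ### Euler products -/

/-- The Euler product bound for a completely multiplicative nonnegative function. -/
theorem euler_bound (g : ℕ → ℝ) (P : Finset ℕ) (_hP : ∀ p ∈ P, p.Prime)
    (hg : ∀ p ∈ P, 0 ≤ g p ∧ g p < 1) (F : Finset ℕ)
    (hF : ∀ n ∈ F, n ≠ 0 ∧ n.primeFactors ⊆ P) :
    ∑ n ∈ F, ∏ p ∈ P, g p ^ n.factorization p ≤ ∏ p ∈ P, (1 - g p)⁻¹ := by
  classical
  set E := P.sup fun p => F.sup fun n => n.factorization p with hE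
  have hle : ∀ n ∈ F, ∀ p ∈ P, n.factorization p < E + 1 := fun n hn p hp => by
    have h1 : n.factorization p ≤ F.sup fun m => m.factorization p :=
      Finset.le_sup (f := fun m => m.factorization p) hn
    have h2 : (F.sup fun m => m.factorization p) ≤ E :=
      Finset.le_sup (f := fun p => F.sup fun m => m.factorization p) hp
    omega
  have inj : Set.InjOn (fun n : ℕ => fun p (_ : p ∈ P) => n.factorization p) F := by
    intro m hm n hn h
    apply Nat.eq_of_factorization_eq (hF m hm).1 (hF n hn).1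
    intro p
    by_cases hp : p ∈ P
    · exact congrFun (congrFun h p) hp
    · have h1 : p ∉ m.primeFactors := fun h' => hp ((hF m hm).2 h')
      have h2 : p ∉ n.primeFactors := fun h' => hp ((hF n hn).2 h')
      rw [← Nat.support_factorization, Finsupp.notMem_support_iff] at h1 h2
      rw [h1, h2]
  calc ∑ n ∈ F, ∏ p ∈ P, g p ^ n.factorization p
      = ∑ k ∈ F.image (fun n : ℕ => fun p (_ : p ∈ P) => n.factorization p),
          ∏ p ∈ P.attach, g p ^ k p.1 p.2 := by
        rw [Finset.sum_image inj]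
        refine Finset.sum_congr rfl fun n _ => ?_
        exact (Finset.prod_attach P fun p => g p ^ n.factorization p).symm
    _ ≤ ∑ k ∈ P.pi (fun _ => Finset.range (E + 1)), ∏ p ∈ P.attach, g p ^ k p.1 p.2 := by
        refine Finset.sum_le_sum_of_subset_of_nonneg ?_ ?_
        · intro k hk
          obtain ⟨n, hn, rfl⟩ := Finset.mem_image.1 hk
          rw [Finset.mem_pi]
          intro p hp
          exact Finset.mem_range.2 (hle n hn p hp)
        · intro k _ _
          exact Finset.prod_nonneg fun p _ => pow_nonneg (hg p.1 p.2).1 _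
    _ = ∏ p ∈ P, ∑ e ∈ Finset.range (E + 1), g p ^ e :=
        (Finset.prod_sum P (fun _ => Finset.range (E + 1)) fun p e => g p ^ e).symm
    _ ≤ ∏ p ∈ P, (1 - g p)⁻¹ := by
        refine Finset.prod_le_prod
          (fun p hp => Finset.sum_nonneg fun e _ => pow_nonneg (hg p hp).1 e) fun p hp => ?_
        have h1 : (∑ e ∈ Finset.range (E + 1), g p ^ e) * (1 - g p) = 1 - g p ^ (E + 1) := by
          have := geom_sum_mul (g p) (E + 1)
          linarith
        have h2 : 0 < 1 - g p := by linarith [(hg p hp).2]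
        rw [← one_div, le_div_iff₀ h2, h1]
        linarith [pow_nonneg (hg p hp).1 (E + 1)]

/-- The weight `∏ (y p / p) ^ e` written as `f n / n`. -/
theorem weight_div_eq (y : ℕ → ℝ) (P : Finset ℕ) {n : ℕ} (hn : n ≠ 0)
    (hs : n.primeFactors ⊆ P) :
    ∏ p ∈ P, (y p / p) ^ n.factorization p =
      (∏ p ∈ n.primeFactors, y p ^ n.factorization p) / n := by
  classical
  have h1 : ∏ p ∈ n.primeFactors, (y p / p) ^ n.factorization p =
      ∏ p ∈ P, (y p / p) ^ n.factorization p := by
    refine Finset.prod_subset hs fun p _ hp => ?_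
    rw [← Nat.support_factorization, Finsupp.notMem_support_iff] at hp
    rw [hp, pow_zero]
  rw [← h1]
  simp only [div_pow, Finset.prod_div_distrib]
  congr 1
  have h2 := Nat.prod_factorization_pow_eq_self hn
  rw [Finsupp.prod, Nat.support_factorization] at h2
  exact_mod_cast h2

theorem inv_one_sub_le_exp {x : ℝ} (h1 : x < 1) : (1 - x)⁻¹ ≤ Real.exp (x / (1 - x)) := by
  have hp : 0 < 1 - x := by linarith
  have h := Real.add_one_le_exp (x / (1 - x))
  have h2 : x / (1 - x) + 1 = (1 - x)⁻¹ := by field_simp; ring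
  linarith

theorem prod_inv_one_sub_le_exp (g : ℕ → ℝ) (P : Finset ℕ) (hg : ∀ p ∈ P, g p < 1) :
    ∏ p ∈ P, (1 - g p)⁻¹ ≤ Real.exp (∑ p ∈ P, g p / (1 - g p)) := by
  rw [Real.exp_sum]
  exact Finset.prod_le_prod (fun p hp => inv_nonneg.2 (by linarith [hg p hp]))
    fun p hp => inv_one_sub_le_exp (hg p hp)

/-! ### Splitting totients -/

theorem lowPart_ne_zero (n S : ℕ) : lowPart n S ≠ 0 :=
  Finset.prod_ne_zero_iff.2 fun _ hp =>
    pow_ne_zero _ (Nat.prime_of_mem_primeFactors (Finset.mem_filter.1 hp).1).ne_zero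

theorem lowPart_dvd {n : ℕ} (hn : n ≠ 0) (S : ℕ) : lowPart n S ∣ n := by
  have h := Nat.prod_factorization_pow_eq_self hn
  rw [Finsupp.prod, Nat.support_factorization] at h
  conv_rhs => rw [← h]
  exact Finset.prod_dvd_prod_of_subset _ _ _ (Finset.filter_subset _ _)

theorem primeFactors_lowPart {n : ℕ} (hn : n ≠ 0) (S : ℕ) :
    (lowPart n S).primeFactors = n.primeFactors.filter fun p => cell p < S := by
  ext p
  constructor
  · intro hp
    have hpp := Nat.prime_of_mem_primeFactors hp
    obtain ⟨q, hq, hpq⟩ :=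
      (hpp.prime.dvd_finset_prod_iff _).1 (Nat.dvd_of_mem_primeFactors hp)
    have hqp := Nat.prime_of_mem_primeFactors (Finset.mem_filter.1 hq).1
    have := (Nat.prime_dvd_prime_iff_eq hpp hqp).1 (hpp.dvd_of_dvd_pow hpq)
    exact this ▸ hq
  · intro hp
    obtain ⟨h1, h2⟩ := Finset.mem_filter.1 hp
    have hpp := Nat.prime_of_mem_primeFactors h1
    refine Nat.mem_primeFactors.2 ⟨hpp, ?_, lowPart_ne_zero n S⟩
    refine (dvd_pow_self p ?_).trans (Finset.dvd_prod_of_mem _ hp)
    exact (hpp.factorization_pos_of_dvd hn (Nat.dvd_of_mem_primeFactors h1)).ne'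

/-- When the large primes divide `n` once, `φ n` splits as expected. -/
theorem totient_split {n : ℕ} (hn : n ≠ 0) (S : ℕ) (hsq : ∀ p ∈ high n S, ¬ p ^ 2 ∣ n) :
    Nat.totient n = (∏ p ∈ high n S, (p - 1)) * Nat.totient (lowPart n S) := by
  classical
  rw [Nat.totient_eq_prod_factorization hn,
    Nat.totient_eq_prod_factorization (lowPart_ne_zero n S), Finsupp.prod, Finsupp.prod,
    Nat.support_factorization, Nat.support_factorization, primeFactors_lowPart hn]
  rw [← Finset.prod_filter_mul_prod_filter_not n.primeFactors (fun p => S ≤ cell p)]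
  congr 1
  · refine Finset.prod_congr rfl fun p hp => ?_
    have h1 := (Finset.mem_filter.1 hp).1
    have hpp := Nat.prime_of_mem_primeFactors h1
    have he : n.factorization p = 1 := by
      have hpos := hpp.factorization_pos_of_dvd hn (Nat.dvd_of_mem_primeFactors h1)
      have h2 : ¬ 2 ≤ n.factorization p := fun h =>
        hsq p hp ((hpp.pow_dvd_iff_le_factorization hn).2 h)
      omega
    simp [he]
  · rw [show n.primeFactors.filter (fun p => ¬ S ≤ cell p) =
      n.primeFactors.filter fun p => cell p < S from by simp only [not_le]]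
    refine Finset.prod_congr rfl fun p hp => ?_
    have h1 := (Finset.mem_filter.1 hp).1
    have hpp := Nat.prime_of_mem_primeFactors h1
    have hmem : p ∈ (lowPart n S).primeFactors := by rw [primeFactors_lowPart hn]; exact hp
    have hfac : (lowPart n S).factorization p = n.factorization p := by
      apply le_antisymm
      · exact (Nat.factorization_le_iff_dvd (lowPart_ne_zero n S) hn).2 (lowPart_dvd hn S) p
      · exact (hpp.pow_dvd_iff_le_factorization (lowPart_ne_zero n S)).1
          (Finset.dvd_prod_of_mem (fun q => q ^ n.factorization q) hp)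
    rw [hfac]

/-! ### Costs -/

theorem gfun_succ (r : ℕ) : gfun (r + 1) = ∑ i ∈ Finset.range r, aCoef (i + 1) := by
  induction r with
  | zero => simp [gfun]
  | succ r ih =>
    rw [Finset.sum_range_succ]
    rw [← ih]
    rcases Nat.eq_zero_or_pos r with rfl | hr
    · norm_num [gfun, aCoef]; ring
    · simp only [gfun, aCoef, if_neg (by omega : ¬ r + 1 ≤ 1), if_neg (by omega : ¬ r + 1 + 1 ≤ 1)]
      push_cast
      ring

theorem gfun_nonneg (r : ℕ) : 0 ≤ gfun r := by
  unfold gfun
  split_ifs with h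
  · exact le_rfl
  · push Not at h
    have hr : (1 : ℝ) < r := by exact_mod_cast h
    have hl := Real.one_sub_inv_le_log_of_pos (by linarith : (0 : ℝ) < r)
    have h2 : (r : ℝ) * (1 - (r : ℝ)⁻¹) = r - 1 := by field_simp
    nlinarith

theorem aCoef_nonneg {i : ℕ} (hi : 1 ≤ i) : 0 ≤ aCoef i := by
  have h1 : (1 : ℝ) ≤ i := by exact_mod_cast hi
  rcases eq_or_lt_of_le hi with rfl | h2
  · norm_num [aCoef]
    have := Real.log_two_gt_d9
    linarith
  · have h2' : (2 : ℝ) ≤ i := by exact_mod_cast h2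
    have hl1 : Real.log 2 ≤ Real.log i := Real.log_le_log (by norm_num) h2'
    have hl2 : Real.log (i : ℝ) ≤ Real.log ((i : ℝ) + 1) :=
      Real.log_le_log (by linarith) (by linarith)
    have h3 := Real.log_two_gt_d9
    have hl3 := Real.one_sub_inv_le_log_of_pos (by positivity : (0 : ℝ) < ((i : ℝ) + 1) / i)
    rw [Real.log_div (by linarith) (by linarith)] at hl3
    have h4 : ((i : ℝ) + 1) * (1 - (((i : ℝ) + 1) / i)⁻¹) = 1 := by field_simp; ring
    have h5 : ((i : ℝ) + 1) * (1 - (((i : ℝ) + 1) / i)⁻¹) ≤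
        ((i : ℝ) + 1) * (Real.log ((i : ℝ) + 1) - Real.log i) :=
      mul_le_mul_of_nonneg_left hl3 (by linarith)
    unfold aCoef
    nlinarith

theorem gfun_mono : Monotone gfun := by
  refine monotone_nat_of_le_succ fun r => ?_
  rcases Nat.eq_zero_or_pos r with rfl | hr
  · simp [gfun]
  · obtain ⟨m, rfl⟩ := Nat.exists_eq_succ_of_ne_zero hr.ne'
    have h1 := gfun_succ m
    have h2 := gfun_succ (m + 1)
    rw [Finset.sum_range_succ] at h2
    have := aCoef_nonneg (i := m + 1) (by omega)
    linarith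

theorem gsum_mono {R R' : Multiset ℕ} (h : R ≤ R') (S T : ℕ) : gsum R S T ≤ gsum R' S T :=
  Finset.sum_le_sum fun _ _ => gfun_mono (Multiset.countP_le_of_le _ h)

/-! ### Reciprocal sums -/

theorem invSum_nonneg (F : Finset ℕ) : 0 ≤ invSum F :=
  Finset.sum_nonneg fun _ _ => inv_nonneg.2 (Nat.cast_nonneg _)

theorem invSum_mono {F G : Finset ℕ} (h : F ⊆ G) : invSum F ≤ invSum G :=
  Finset.sum_le_sum_of_subset_of_nonneg h fun _ _ _ => inv_nonneg.2 (Nat.cast_nonneg _)

theorem invSum_union_le (F G : Finset ℕ) : invSum (F ∪ G) ≤ invSum F + invSum G := by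
  classical
  unfold invSum
  rw [← Finset.sum_union_inter]
  exact le_add_of_nonneg_right (Finset.sum_nonneg fun _ _ => inv_nonneg.2 (Nat.cast_nonneg _))

/-- Values that are products have reciprocal sum at most the product of the sums. -/
theorem invSum_le_mul {F A B : Finset ℕ} (h : ∀ v ∈ F, ∃ a ∈ A, ∃ b ∈ B, a * b = v) :
    invSum F ≤ invSum A * invSum B := by
  classical
  have h1 : F ⊆ (A ×ˢ B).image fun x => x.1 * x.2 := by
    intro v hv
    obtain ⟨a, ha, b, hb, rfl⟩ := h v hv
    exact Finset.mem_image.2 ⟨(a, b), Finset.mem_product.2 ⟨ha, hb⟩, rfl⟩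
  refine (invSum_mono h1).trans ((Finset.sum_image_le_of_nonneg ?_).trans ?_)
  · intro u _
    exact inv_nonneg.2 (Nat.cast_nonneg _)
  · unfold invSum
    rw [Finset.sum_mul_sum, ← Finset.sum_product']
    exact le_of_eq (Finset.sum_congr rfl fun x _ => by push_cast; exact mul_inv _ _)

end P031
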