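import Mathlib

/-!
Definitions for the proof that the number of distinct totients is regularly varying of index one.
Scales are measured by the integer part of `log log`.
-/

open Finset MeasureTheory

noncomputable section

namespace P031

/-- The number of totient values up to `x`. -/
def V (x : ℝ) : ℕ := Set.ncard {v : ℕ | (v : ℝ) ≤ x ∧ ∃ n : ℕ, 1 ≤ n ∧ Nat.totient n = v}

/-- The scale of a prime: the integer part of `log log p`. -/
def cell (p : ℕ) : ℕ := ⌊Real.log (Real.log (p : ℝ))⌋₊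

/-- The primes of scale `t`. -/
def cellPrimes (t : ℕ) : Finset ℕ :=
  (Finset.range (⌈Real.exp (Real.exp ((t : ℝ) + 1))⌉₊ + 1)).filter
    fun p => p.Prime ∧ cell p = t

/-- Prime factors of `n` of scale in `[u, w)`, with multiplicity. -/
def omegaSeg (n u w : ℕ) : ℕ :=
  ∑ p ∈ n.primeFactors.filter (fun p => u ≤ cell p ∧ cell p < w), n.factorization p

/-- The largest prime factor, zero when there is none. -/
def maxPrime (n : ℕ) : ℕ := n.primeFactors.sup id

/-- The permitted deviation at scale `t`. -/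
def dev (t : ℕ) : ℝ := ((t : ℝ) + 4) ^ ((3 : ℝ) / 4)

/-- A prime `q` such that `q - 1` has the expected number of prime factors in every range of
scales below that of `q`, and has a large prime factor. -/
def Normal (q : ℕ) : Prop :=
  (∀ u w : ℕ, u < w → w ≤ cell q + 1 →
      |(omegaSeg (q - 1) u w : ℝ) - ((w : ℝ) - u)| ≤ dev (cell q)) ∧
    Real.exp (cell q) ≤ ((cell q : ℝ) + 1) ^ 4 * Real.log (maxPrime (q - 1))

/-- The scale separating the small part at level `T`. -/
def cutoff (T : ℕ) : ℕ := Nat.sqrt T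

/-- The permitted number of large prime factors at level `T`. -/
def Kmax (T : ℕ) : ℕ := ⌈1000 * (Real.log ((T : ℝ) + 3)) ^ 2⌉₊

/-- The prime factors of scale at least `S`. -/
def high (n S : ℕ) : Finset ℕ := n.primeFactors.filter fun p => S ≤ cell p

/-- The part of `n` made of primes of scale below `S`. -/
def lowPart (n S : ℕ) : ℕ :=
  ∏ p ∈ n.primeFactors.filter (fun p => cell p < S), p ^ n.factorization p

/-- All prime factors have scale at most `T`. -/
def CellsLe (n T : ℕ) : Prop := ∀ p ∈ n.primeFactors, cell p ≤ T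

/-- The rare numbers at level `T`. -/
def Exceptional (T n : ℕ) : Prop :=
  (∃ p ∈ high n (cutoff T), p ^ 2 ∣ n ∨ ¬ Normal p) ∨
    Kmax T < (high n (cutoff T)).card ∨
    Real.exp (2 * (cutoff T : ℝ)) < Real.log (lowPart n (cutoff T))

/-- Number of rows of scale at least `j`. -/
def rows (R : Multiset ℕ) (j : ℕ) : ℕ := R.countP fun t => j ≤ t

/-- The entropy cost `r log r - r + 1` of `r` rows, zero for at most one row. -/
def gfun (r : ℕ) : ℝ := if r ≤ 1 then 0 else (r : ℝ) * Real.log r - r + 1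

/-- The entropy cost of the profile `R` on the scales in `[S, T)`. -/
def gsum (R : Multiset ℕ) (S T : ℕ) : ℝ := ∑ j ∈ Finset.Ico S T, gfun (rows R j)

/-- The scales of the prime factors of scale at least `S`. -/
def profile (n S : ℕ) : Multiset ℕ := (high n S).val.map cell

/-- The cost of `n` as the cofactor of a prime of scale `T`. -/
def topG (T n : ℕ) : ℝ := gsum (T ::ₘ profile n (cutoff T)) (cutoff T) T

/-- The cost of `n` at its own top scale `s`. -/
def levG (s n : ℕ) : ℝ := gsum (profile n (cutoff s)) (cutoff s) s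

/-- The relative slack at scale `T`. -/
def eps (T : ℕ) : ℝ := ((T : ℝ) + 1) ^ (-(1 : ℝ) / 8)

/-- The largest scale of a prime factor of `n` is `s`. -/
def TopCell (n s : ℕ) : Prop := CellsLe n s ∧ ∃ p ∈ n.primeFactors, cell p = s

/-- Numbers with top scale `s` that are rare or too costly. -/
def Bad (s n : ℕ) : Prop :=
  TopCell n s ∧ (Exceptional s n ∨ (1 + eps s) * s < levG s n)

/-- The good cofactors at level `T`. -/
def Good (T n : ℕ) : Prop :=
  0 < n ∧ ¬ Exceptional T n ∧ topG T n ≤ (1 - eps T) * T ∧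
    ∀ p ∈ n.primeFactors, (cell p : ℝ) ≤ (1 - eps T) * T

/-- The boundary cofactors at level `T`. -/
def Mid (T n : ℕ) : Prop :=
  0 < n ∧ CellsLe n (T + 2) ∧ ¬ Exceptional T n ∧ topG T n ≤ (1 + eps T) * T ∧
    ((1 - eps T) * T < topG T n ∨ ∃ p ∈ n.primeFactors, (1 - eps T) * T < (cell p : ℝ))

/-- Every member of `F` is `φ n` for some `n` with `P n`. -/
def ValuesOf (P : ℕ → Prop) (F : Finset ℕ) : Prop :=
  ∀ v ∈ F, ∃ n : ℕ, P n ∧ Nat.totient n = v

/-- The sum of reciprocals. -/
def invSum (F : Finset ℕ) : ℝ := ∑ v ∈ F, (v : ℝ)⁻¹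

/-- The range of `y` that belongs to level `T`. -/
def InRange (T : ℕ) (y : ℝ) : Prop :=
  Real.exp (Real.exp (T : ℝ)) ≤ y ∧ y < Real.exp (Real.exp ((T : ℝ) + 2))

/-- A doubly logarithmic factor. -/
def llg (z : ℝ) : ℝ := Real.log (Real.log (z + 16))

/-- The coefficient `(i+1) log (i+1) - i log i - 1`. -/
def aCoef (i : ℕ) : ℝ :=
  ((i : ℝ) + 1) * Real.log ((i : ℝ) + 1) - (i : ℝ) * Real.log i - 1

/-- The weighted sum of the coordinates after the `i`th. -/
def tailSum {k : ℕ} (z : Fin k → ℝ) (i : Fin k) : ℝ :=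
  ∑ j ∈ Finset.univ.filter (fun j => i < j), aCoef ((j : ℕ) - (i : ℕ)) * z j

/-- The weighted sum of all coordinates. -/
def topSum {k : ℕ} (z : Fin k → ℝ) : ℝ := ∑ j : Fin k, aCoef ((j : ℕ) + 1) * z j

/-- The loose profile polytope. -/
def PolyPlus (k : ℕ) (s0 X : ℝ) : Set (Fin k → ℝ) :=
  {z | (∀ i, s0 ≤ z i) ∧ (∀ i, z i ≤ X) ∧ (∀ i j, i ≤ j → z j ≤ z i) ∧
    (∀ i, tailSum z i ≤ (1 + 4 * z i ^ (-(1 : ℝ) / 8)) * z i) ∧ topSum z ≤ X}

/-- The strict profile polytope. -/
def PolyMinus (k : ℕ) (s0 X : ℝ) : Set (Fin k → ℝ) :=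
  {z | (∀ i, s0 ≤ z i) ∧ (∀ i, z i ≤ X) ∧
    (∀ i j, i < j → z j ≤ (1 - 3 * z i ^ (-(1 : ℝ) / 8)) * z i) ∧
    (∀ i, tailSum z i ≤ (1 - 4 * z i ^ (-(1 : ℝ) / 8)) * z i) ∧ topSum z ≤ X}

/-- Total volume of the loose polytopes of dimension at most `K`. -/
def MPlus (K : ℕ) (s0 X : ℝ) : ℝ :=
  ∑ k ∈ Finset.range (K + 1), (volume (PolyPlus k s0 X)).toReal

/-- Total volume of the strict polytopes of dimension at most `K`. -/
def MMinus (K : ℕ) (s0 X : ℝ) : ℝ :=
  ∑ k ∈ Finset.range (K + 1), (volume (PolyMinus k s0 X)).toReal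

/-- The dimension bound used at level `T`. -/
def Kvol (T : ℕ) : ℕ := 5 * Kmax T

end P031
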