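import Vale.Agent.P031.LowerAdm

/-!
M10: the good values are bounded below by the strict polytopes, and the boundary values are
negligible against the good ones.

The cofactors are products of normal primes, one from each scale of a set of scales met by a
strict polytope.  The distinct values are counted by Cauchy–Schwarz; two representations are
compared at the largest scale where they differ.
-/

open Finset Filter MeasureTheory
open scoped Topology

noncomputable section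

namespace P031

namespace LowerM

open scoped Classical

/-- The value `∏ (q - 1)` of a set of primes. -/
def pval (P : Finset ℕ) : ℕ := ∏ q ∈ P, (q - 1)

/-- The weight of a set of primes. -/
def wt (P : Finset ℕ) : ℝ := ((pval P : ℕ) : ℝ)⁻¹

/-- The normal primes of scale `c`. -/
def nPrimes (c : ℕ) : Finset ℕ := (cellPrimes c).filter Normal

/-- The choices of one normal prime from each scale of `C`. -/
def sel (C : Finset ℕ) : Finset (Finset ℕ) :=
  (C.biUnion nPrimes).powerset.filter fun P => Set.InjOn cell ↑P ∧ P.image cell = C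

theorem mem_sel {C P : Finset ℕ} :
    P ∈ sel C ↔ (∀ q ∈ P, q.Prime ∧ Normal q) ∧ Set.InjOn cell ↑P ∧ P.image cell = C := by
  constructor
  · intro h
    obtain ⟨h1, h2⟩ := Finset.mem_filter.1 h
    refine ⟨fun q hq => ?_, h2⟩
    obtain ⟨c, -, hc⟩ := Finset.mem_biUnion.1 (Finset.mem_powerset.1 h1 hq)
    obtain ⟨hc1, hc2⟩ := Finset.mem_filter.1 hc
    exact ⟨(mem_cellPrimes.1 hc1).1, hc2⟩
  · rintro ⟨h1, h2, rfl⟩
    refine Finset.mem_filter.2 ⟨Finset.mem_powerset.2 fun q hq => ?_, h2, rfl⟩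
    exact Finset.mem_biUnion.2 ⟨cell q, Finset.mem_image_of_mem _ hq,
      Finset.mem_filter.2 ⟨mem_cellPrimes.2 ⟨(h1 q hq).1, rfl⟩, (h1 q hq).2⟩⟩

theorem cell_of_mem_nPrimes {c q : ℕ} (h : q ∈ nPrimes c) : cell q = c :=
  (mem_cellPrimes.1 (Finset.mem_filter.1 h).1).2

theorem sum_wt_sel (C : Finset ℕ) :
    ∑ P ∈ sel C, wt P = ∏ c ∈ C, ∑ q ∈ nPrimes c, ((q - 1 : ℕ) : ℝ)⁻¹ := by
  rw [Finset.prod_sum C nPrimes fun _ q => ((q - 1 : ℕ) : ℝ)⁻¹]
  symm
  refine Finset.sum_bij (fun p _ => C.attach.image fun x => p x.1 x.2) ?_ ?_ ?_ ?_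
  · intro p hp
    rw [Finset.mem_pi] at hp
    refine mem_sel.2 ⟨?_, ?_, ?_⟩
    · intro q hq
      obtain ⟨x, -, rfl⟩ := Finset.mem_image.1 hq
      obtain ⟨h1, h2⟩ := Finset.mem_filter.1 (hp x.1 x.2)
      exact ⟨(mem_cellPrimes.1 h1).1, h2⟩
    · intro u hu v hv huv
      obtain ⟨x, -, rfl⟩ := Finset.mem_image.1 hu
      obtain ⟨y, -, rfl⟩ := Finset.mem_image.1 hv
      rw [cell_of_mem_nPrimes (hp x.1 x.2), cell_of_mem_nPrimes (hp y.1 y.2)] at huv
      rw [Subtype.ext huv]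
    · rw [Finset.image_image]
      refine Eq.trans (Finset.image_congr fun x _ => ?_) C.attach_image_val
      exact cell_of_mem_nPrimes (hp x.1 x.2)
  · intro p hp p' hp' h
    rw [Finset.mem_pi] at hp hp'
    funext c hc
    have hm : p c hc ∈ C.attach.image fun x => p' x.1 x.2 :=
      h ▸ Finset.mem_image.2 ⟨⟨c, hc⟩, Finset.mem_attach _ _, rfl⟩
    obtain ⟨y, -, hy⟩ := Finset.mem_image.1 hm
    have hc' := congrArg cell hy
    rw [cell_of_mem_nPrimes (hp' y.1 y.2), cell_of_mem_nPrimes (hp c hc)] at hc'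
    obtain ⟨y1, y2⟩ := y
    subst hc'
    exact hy.symm
  · intro P hP
    obtain ⟨h1, h2, h3⟩ := mem_sel.1 hP
    have hex : ∀ c ∈ C, ∃ q ∈ P, cell q = c := fun c hc => Finset.mem_image.1 (h3.symm ▸ hc)
    choose f hf hfc using hex
    refine ⟨f, Finset.mem_pi.2 fun c hc => ?_, ?_⟩
    · exact Finset.mem_filter.2 ⟨mem_cellPrimes.2 ⟨(h1 _ (hf c hc)).1, hfc c hc⟩,
        (h1 _ (hf c hc)).2⟩
    · ext q
      constructor
      · intro hq
        obtain ⟨x, -, rfl⟩ := Finset.mem_image.1 hq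
        exact hf x.1 x.2
      · intro hq
        have hc : cell q ∈ C := h3 ▸ Finset.mem_image_of_mem cell hq
        exact Finset.mem_image.2 ⟨⟨cell q, hc⟩, Finset.mem_attach _ _,
          h2 (hf _ hc) hq (hfc _ hc)⟩
  · intro p hp
    rw [Finset.mem_pi] at hp
    have hinj : Set.InjOn (fun x : {x // x ∈ C} => p x.1 x.2) ↑C.attach := fun x _ y _ hxy =>
      Subtype.ext (by
        have := congrArg cell hxy
        rwa [cell_of_mem_nPrimes (hp x.1 x.2), cell_of_mem_nPrimes (hp y.1 y.2)] at this)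
    unfold wt pval
    rw [Finset.prod_image hinj, Nat.cast_prod, ← Finset.prod_inv_distrib]

theorem sum_inv_sq_le (F : Finset ℕ) : ∑ t ∈ F, (1 : ℝ) / ((t : ℝ) + 1) ^ 2 ≤ 2 := by
  have key : ∀ M : ℕ, ∑ t ∈ Finset.range M, (1 : ℝ) / ((t : ℝ) + 1) ^ 2 ≤
      2 - 2 / ((M : ℝ) + 1) := by
    intro M
    induction M with
    | zero => norm_num
    | succ M ih =>
      rw [Finset.sum_range_succ]
      push_cast
      have hM : (0 : ℝ) ≤ M := Nat.cast_nonneg M
      have h1 : (1 : ℝ) / ((M : ℝ) + 1) ^ 2 ≤ 2 / ((M : ℝ) + 1) - 2 / ((M : ℝ) + 1 + 1) := by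
        have h2 : (2 : ℝ) / ((M : ℝ) + 1) - 2 / ((M : ℝ) + 1 + 1) =
            2 / (((M : ℝ) + 1) * ((M : ℝ) + 1 + 1)) := by
          field_simp
          ring
        rw [h2, div_le_div_iff₀ (by positivity) (by positivity)]
        nlinarith
      linarith
  obtain ⟨M, hM⟩ : ∃ M, F ⊆ Finset.range M :=
    ⟨F.sup id + 1, fun t ht => Finset.mem_range.2 (Nat.lt_succ_of_le (Finset.le_sup (f := id) ht))⟩
  refine (Finset.sum_le_sum_of_subset_of_nonneg hM fun t _ _ => by positivity).trans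
    ((key M).trans ?_)
  have : (0 : ℝ) ≤ 2 / ((M : ℝ) + 1) := by positivity
  linarith

theorem cell_sums (hC : CellStatement) (hA : AbnormalStatement) :
    ∃ N : ℕ, ∀ t : ℕ, N ≤ t → (1 : ℝ) / ((t : ℝ) + 1) ^ 2 ≤ 1 / 2 ∧
      1 - 1 / ((t : ℝ) + 1) ^ 2 ≤ ∑ q ∈ nPrimes t, ((q - 1 : ℕ) : ℝ)⁻¹ ∧
      ∑ q ∈ nPrimes t, ((q - 1 : ℕ) : ℝ)⁻¹ ≤ 1 + 1 / ((t : ℝ) + 1) ^ 2 := by
  obtain ⟨tC, hC⟩ := hC
  obtain ⟨tA, hA, -⟩ := hA
  have ht : Tendsto (fun x : ℝ => (x ^ ((1 : ℝ) / 3)) ^ (6 : ℝ) *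
      Real.exp (-1 * x ^ ((1 : ℝ) / 3))) atTop (𝓝 0) :=
    (tendsto_rpow_mul_exp_neg_mul_atTop_nhds_zero 6 1 one_pos).comp
      (tendsto_rpow_atTop (by norm_num))
  obtain ⟨X0, hX0⟩ := Filter.eventually_atTop.1
    (ht.eventually (eventually_le_nhds (show (0 : ℝ) < 1 / 28 by norm_num)))
  refine ⟨tC + tA + 8 + ⌈X0⌉₊, fun t ht => ?_⟩
  have htX : X0 ≤ t := (Nat.le_ceil X0).trans (by exact_mod_cast (by omega : ⌈X0⌉₊ ≤ t))
  have ht8 : (8 : ℝ) ≤ t := by exact_mod_cast (by omega : 8 ≤ t)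
  have ht0 : (0 : ℝ) ≤ t := Nat.cast_nonneg t
  set E := Real.exp (-(t : ℝ) ^ ((1 : ℝ) / 3)) with hE
  have hE0 : 0 ≤ E := (Real.exp_pos _).le
  have hsix : ((t : ℝ) ^ ((1 : ℝ) / 3)) ^ (6 : ℝ) = (t : ℝ) ^ (2 : ℕ) := by
    rw [← Real.rpow_mul ht0, show (1 : ℝ) / 3 * 6 = ((2 : ℕ) : ℝ) by norm_num,
      Real.rpow_natCast]
  have hmain := hX0 t htX
  rw [hsix, neg_one_mul, ← hE] at hmain
  have hsq : (1 : ℝ) / ((t : ℝ) + 1) ^ 2 ≤ 1 / 2 :=
    one_div_le_one_div_of_le (by norm_num) (by nlinarith)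
  have h7 : 7 * E ≤ 1 / ((t : ℝ) + 1) ^ 2 := by
    rw [le_div_iff₀ (by positivity)]
    nlinarith
  have hcube : (2 : ℝ) * (t : ℝ) ^ ((1 : ℝ) / 3) ≤ t := by
    have h1 : (2 : ℝ) ≤ (t : ℝ) ^ ((2 : ℝ) / 3) := by
      have := Real.rpow_le_rpow (by norm_num) ht8 (show (0 : ℝ) ≤ 2 / 3 by norm_num)
      have h8 : (2 : ℝ) ≤ (8 : ℝ) ^ ((2 : ℝ) / 3) := by
        rw [show (8 : ℝ) = (2 : ℝ) ^ (3 : ℝ) by norm_num, ← Real.rpow_mul (by norm_num)]
        norm_num
      linarith
    calc (2 : ℝ) * (t : ℝ) ^ ((1 : ℝ) / 3) ≤ (t : ℝ) ^ ((2 : ℝ) / 3) * (t : ℝ) ^ ((1 : ℝ) / 3) :=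
          mul_le_mul_of_nonneg_right h1 (by positivity)
      _ = t := by rw [← Real.rpow_add (by linarith)]; norm_num
  have he1 : Real.exp (-(t : ℝ) / 2) ≤ E := Real.exp_le_exp.2 (by linarith)
  have he2 : Real.exp (-(t : ℝ)) ≤ E := Real.exp_le_exp.2 (by linarith)
  have hC' := abs_le.1 (hC t (by omega))
  have hA' := hA t (by omega) ((cellPrimes t).filter fun p => ¬ Normal p)
    (fun p hp => Finset.mem_filter.1 hp)
  have hsplit := Finset.sum_filter_add_sum_filter_not (cellPrimes t) Normal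
    fun p => ((p : ℕ) : ℝ)⁻¹
  have hbig : ∀ q ∈ nPrimes t, Real.exp (t : ℝ) + 1 ≤ (q : ℝ) ∧ (2 : ℝ) ≤ q := by
    intro q hq
    obtain ⟨hq1, -⟩ := Finset.mem_filter.1 hq
    obtain ⟨hqp, hqc⟩ := mem_cellPrimes.1 hq1
    refine ⟨(Real.add_one_le_exp _).trans (le_of_le_cell hqp.two_le (by omega) hqc.ge), ?_⟩
    exact_mod_cast hqp.two_le
  refine ⟨hsq, ?_, ?_⟩
  · have hlow : ∑ q ∈ nPrimes t, (q : ℝ)⁻¹ ≤ ∑ q ∈ nPrimes t, ((q - 1 : ℕ) : ℝ)⁻¹ := by
      refine Finset.sum_le_sum fun q hq => ?_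
      obtain ⟨-, h2⟩ := hbig q hq
      rw [Nat.cast_sub (by exact_mod_cast (by linarith : (1 : ℝ) ≤ q)), Nat.cast_one]
      exact inv_anti₀ (by linarith) (by linarith)
    unfold nPrimes at hlow ⊢
    linarith [hC'.1, hA']
  · have hup : ∑ q ∈ nPrimes t, ((q - 1 : ℕ) : ℝ)⁻¹ ≤
        ∑ q ∈ nPrimes t, (q : ℝ)⁻¹ * (1 + 2 * Real.exp (-(t : ℝ))) := by
      refine Finset.sum_le_sum fun q hq => ?_
      obtain ⟨h1, h2⟩ := hbig q hq
      rw [Nat.cast_sub (by exact_mod_cast (by linarith : (1 : ℝ) ≤ q)), Nat.cast_one,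
        Real.exp_neg, inv_mul_eq_div, inv_le_iff_one_le_mul₀ (by linarith),
        div_mul_eq_mul_div, one_le_div (by linarith)]
      have hepos := Real.exp_pos (t : ℝ)
      rw [show (1 + 2 * (Real.exp (t : ℝ))⁻¹) * ((q : ℝ) - 1) =
        ((Real.exp (t : ℝ) + 2) * ((q : ℝ) - 1)) / Real.exp (t : ℝ) by field_simp,
        le_div_iff₀ hepos]
      nlinarith
    rw [← Finset.sum_mul] at hup
    have hnn : 0 ≤ ∑ q ∈ (cellPrimes t).filter (fun p => ¬ Normal p), (q : ℝ)⁻¹ :=
      Finset.sum_nonneg fun q _ => by positivity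
    have hle : ∑ q ∈ nPrimes t, (q : ℝ)⁻¹ ≤ 1 + E := by
      unfold nPrimes
      linarith [hC'.2]
    have hE1 : E ≤ 1 := by
      rw [hE, Real.exp_le_one_iff, neg_nonpos]
      positivity
    have hmul := mul_le_mul_of_nonneg_right hle
      (show (0 : ℝ) ≤ 1 + 2 * Real.exp (-(t : ℝ)) by positivity)
    nlinarith [Real.exp_pos (-(t : ℝ))]

theorem eventually_count_small :
    ∃ N : ℕ, ∀ s : ℕ, N ≤ s →
      ((Lb s : ℝ) + 1) * ((s : ℝ) + 1) ^ Lb s * Real.exp (-Real.sqrt s) ≤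
        1 / ((s : ℝ) + 1) ^ 2 := by
  have h := (isLittleO_log_rpow_rpow_atTop (2 : ℝ) (show (0 : ℝ) < 1 / 2 by norm_num)).def
    (show (0 : ℝ) < 1 / 80 by norm_num)
  obtain ⟨X0, hX0⟩ := Filter.eventually_atTop.1 h
  refine ⟨⌈X0⌉₊ + 1, fun s hs => ?_⟩
  have hsX : X0 ≤ (s : ℝ) + 2 := by
    have h1 : (⌈X0⌉₊ : ℝ) ≤ s := by exact_mod_cast (by omega : ⌈X0⌉₊ ≤ s)
    linarith [Nat.le_ceil X0]
  have hs1 : (1 : ℝ) ≤ s := by exact_mod_cast (by omega : 1 ≤ s)
  have hb := hX0 _ hsX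
  set L := Real.log ((s : ℝ) + 2) with hL
  have hL1 : 1 ≤ L := by
    rw [hL, Real.le_log_iff_exp_le (by linarith)]
    linarith [Real.exp_one_lt_d9]
  rw [Real.norm_eq_abs, Real.norm_eq_abs, Real.rpow_two, abs_of_nonneg (sq_nonneg _),
    abs_of_nonneg (Real.rpow_nonneg (by linarith) _), ← Real.sqrt_eq_rpow] at hb
  have hsq : Real.sqrt ((s : ℝ) + 2) ≤ 2 * Real.sqrt s := by
    rw [show 2 * Real.sqrt (s : ℝ) = Real.sqrt (4 * s) by
      rw [Real.sqrt_mul (by norm_num), show (4 : ℝ) = 2 ^ 2 by norm_num,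
        Real.sqrt_sq (by norm_num)]]
    exact Real.sqrt_le_sqrt (by linarith)
  have hLb : ((Lb s : ℕ) : ℝ) ≤ 10 * L + 3 := by
    unfold Lb
    push_cast
    linarith [Nat.ceil_lt_add_one (show (0 : ℝ) ≤ 10 * Real.log ((s : ℝ) + 2) by
      rw [← hL]; linarith)]
  have hlogle : Real.log ((s : ℝ) + 1) ≤ L := Real.log_le_log (by linarith) (by linarith)
  have hpow : (Lb s : ℝ) + 1 ≤ ((s : ℝ) + 1) ^ Lb s := by
    have h1 : (((Lb s + 1 : ℕ)) : ℝ) ≤ ((2 ^ Lb s : ℕ) : ℝ) := by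
      exact_mod_cast (Lb s).lt_two_pow_self
    push_cast at h1
    exact h1.trans (pow_le_pow_left₀ (by norm_num) (by linarith) _)
  have hexp : ((s : ℝ) + 1) ^ (2 * Lb s + 2) ≤ Real.exp (Real.sqrt s) := by
    rw [← Real.log_le_iff_le_exp (by positivity), Real.log_pow]
    push_cast
    calc (2 * (Lb s : ℝ) + 2) * Real.log ((s : ℝ) + 1) ≤ (20 * L + 8) * L :=
          mul_le_mul (by linarith) hlogle (Real.log_nonneg (by linarith)) (by linarith)
      _ ≤ Real.sqrt s := by nlinarith [Real.sqrt_nonneg (s : ℝ)]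
  rw [Real.exp_neg, le_div_iff₀ (by positivity), mul_assoc, mul_assoc,
    ← le_div_iff₀' (by positivity)]
  rw [← mul_assoc, mul_comm (((s : ℝ) + 1) ^ Lb s) _, mul_assoc,
    inv_mul_le_iff₀ (Real.exp_pos _), ← mul_div_assoc, le_div_iff₀ (by positivity), mul_one]
  refine le_trans ?_ hexp
  rw [show 2 * Lb s + 2 = (Lb s + 2) + Lb s by ring, pow_add, pow_add]
  exact mul_le_mul_of_nonneg_left hpow (by positivity)

/-- `(P, P')` differ first at the scale `s`, in the part of `P`. -/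
def Lead (P P' : Finset ℕ) (s : ℕ) : Prop :=
  (∃ q ∈ P \ P', cell q = s) ∧
    (∀ q ∈ P \ P', cell q ≤ s) ∧ ∀ q ∈ P' \ P, cell q ≤ s

theorem pval_pos {P : Finset ℕ} (h : ∀ q ∈ P, q.Prime) : 0 < pval P :=
  Finset.prod_pos fun q hq => by have := (h q hq).two_le; omega

theorem wt_union {A B : Finset ℕ} (h : Disjoint A B) : wt (A ∪ B) = wt A * wt B := by
  unfold wt pval
  rw [Finset.prod_union h, Nat.cast_mul, mul_inv]

theorem good_of_sel {a X : ℝ} {T : ℕ} {C P : Finset ℕ} (ha : 1 ≤ a) (hT : 2 ≤ cutoff T)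
    (hX : X ≤ (1 - eps T) * T) (hXT : X ≤ T) (hC : Adm a X C) (hP : P ∈ sel C) :
    Good T (∏ q ∈ P, q) ∧ Nat.totient (∏ q ∈ P, q) = pval P := by
  obtain ⟨hP1, hinj, him⟩ := mem_sel.1 hP
  set n := ∏ q ∈ P, q with hn
  have hn0 : 0 < n := Finset.prod_pos fun q hq => (hP1 q hq).1.pos
  have hpf : n.primeFactors = P := Nat.primeFactors_prod fun q hq => (hP1 q hq).1
  have hcell : ∀ q ∈ P, cell q ∈ C := fun q hq => him ▸ Finset.mem_image_of_mem cell hq
  have hcX : ∀ q ∈ P, (cell q : ℝ) ≤ X := fun q hq => (hC.mem (hcell q hq)).2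
  have hsq : ∀ p ∈ P, ¬ p ^ 2 ∣ n := by
    intro p hp hdvd
    rw [hn, ← Finset.mul_prod_erase P _ hp, sq] at hdvd
    have hpp := (hP1 p hp).1
    have h1 : p ∣ ∏ q ∈ P.erase p, q := Nat.dvd_of_mul_dvd_mul_left hpp.pos hdvd
    obtain ⟨q, hq, hpq⟩ := (hpp.prime.dvd_finsetProd_iff _).1 h1
    obtain ⟨hne, hq'⟩ := Finset.mem_erase.1 hq
    exact hne ((Nat.prime_dvd_prime_iff_eq hpp (hP1 q hq').1).1 hpq).symm
  have hhigh : high n (cutoff T) ⊆ P := by
    unfold high
    rw [hpf]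
    exact Finset.filter_subset _ _
  have htot : Nat.totient n = pval P := by
    rw [Nat.totient_eq_div_primeFactors_mul, hpf, ← hn, Nat.div_self hn0, one_mul]
    rfl
  refine ⟨⟨hn0, ?_, ?_, ?_⟩, htot⟩
  · rintro (⟨p, hp, hp' | hp'⟩ | hcard | hlow)
    · exact hsq p (hhigh hp) hp'
    · exact hp' (hP1 p (hhigh hp)).2
    · have h1 : (high n (cutoff T)).card ≤ (C.filter fun c => c ≤ T).card := by
        rw [← Finset.card_image_of_injOn (hinj.mono (Finset.coe_subset.2 hhigh))]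
        refine Finset.card_le_card fun c hc => ?_
        obtain ⟨q, hq, rfl⟩ := Finset.mem_image.1 hc
        refine Finset.mem_filter.2 ⟨hcell q (hhigh hq), ?_⟩
        exact_mod_cast (hcX q (hhigh hq)).trans hXT
      have := hC.count ha T
      have := Lb_le_Kmax T
      omega
    · have hle : (lowPart n (cutoff T) : ℝ) ≤
          ∏ q ∈ P.filter (fun q => cell q < cutoff T), (q : ℝ) := by
        rw [← Nat.cast_prod]
        refine Nat.cast_le.2 (le_of_eq ?_)
        unfold lowPart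
        rw [hpf]
        refine Finset.prod_congr rfl fun q hq => ?_
        have hq' := (Finset.mem_filter.1 hq).1
        have hqp := (hP1 q hq').1
        have hpos := hqp.factorization_pos_of_dvd hn0.ne' (Finset.dvd_prod_of_mem _ hq')
        have h2 : ¬ 2 ≤ n.factorization q := fun h =>
          hsq q hq' ((hqp.pow_dvd_iff_le_factorization hn0.ne').2 h)
        rw [show n.factorization q = 1 by omega, pow_one]
      have hpos : (0 : ℝ) < lowPart n (cutoff T) := by
        exact_mod_cast Nat.pos_of_ne_zero (lowPart_ne_zero _ _)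
      have h1 : Real.log (lowPart n (cutoff T)) ≤
          ∑ q ∈ P.filter (fun q => cell q < cutoff T), Real.exp (cutoff T : ℝ) := by
        refine (Real.log_le_log hpos hle).trans ?_
        rw [Real.log_prod (fun q hq => by
          exact_mod_cast (hP1 q (Finset.mem_filter.1 hq).1).1.ne_zero)]
        refine Finset.sum_le_sum fun q hq => ?_
        obtain ⟨hq', hlt⟩ := Finset.mem_filter.1 hq
        refine (log_lt_of_cell_le (hP1 q hq').1.two_le (Nat.le_sub_one_of_lt hlt)).le.trans ?_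
        rw [Nat.cast_sub (by omega), Nat.cast_one, sub_add_cancel]
      have h2 : (P.filter fun q => cell q < cutoff T).card ≤ cutoff T := by
        rw [← Finset.card_image_of_injOn
          (hinj.mono (Finset.coe_subset.2 (Finset.filter_subset _ _)))]
        refine (Finset.card_le_card fun c hc => ?_).trans_eq (Finset.card_range _)
        obtain ⟨q, hq, rfl⟩ := Finset.mem_image.1 hc
        exact Finset.mem_range.2 (Finset.mem_filter.1 hq).2
      rw [Finset.sum_const, nsmul_eq_mul] at h1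
      have h3 : ((P.filter fun q => cell q < cutoff T).card : ℝ) ≤ Real.exp (cutoff T : ℝ) := by
        have h4 : ((P.filter fun q => cell q < cutoff T).card : ℝ) ≤ (cutoff T : ℝ) := by
          exact_mod_cast h2
        linarith [Real.add_one_le_exp (cutoff T : ℝ)]
      have h5 := mul_le_mul_of_nonneg_right h3 (Real.exp_pos (cutoff T : ℝ)).le
      rw [two_mul, Real.exp_add] at hlow
      linarith
  · refine le_trans ?_ hX
    exact hC.top_cost ha (high n (cutoff T)) (hinj.mono (Finset.coe_subset.2 hhigh))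
      (fun q hq => hcell q (hhigh hq)) (by omega) T
  · intro p hp
    rw [hpf] at hp
    exact (hcX p hp).trans hX

end LowerM

open LowerM in
open scoped Classical in
/-- The good values are bounded below by the strict polytopes. -/
theorem lower (hC : CellStatement) (hA : AbnormalStatement) (hP : PairWeightStatement) :
    LowerStatement := by
  obtain ⟨N1, hN1⟩ := cell_sums hC hA
  obtain ⟨N2, hN2⟩ := eventually_count_small
  obtain ⟨N3, hN3⟩ := hP
  obtain ⟨N, hNdef⟩ : ∃ N : ℕ, N = N1 + N2 + N3 + 4 := ⟨_, rfl⟩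
  set B : ℝ := Real.exp 2 with hB
  set D : ℝ := 1 + 4 * B with hD
  refine ⟨2 * ((N : ℝ) + 1), fun s0 hs0 => ⟨Real.exp (-4) / D, by positivity, 4, fun T hT => ?_⟩⟩
  set a := s0 / 2 with ha'
  have haN : (N : ℝ) + 1 ≤ a := by rw [ha']; linarith
  have hN0 : (0 : ℝ) ≤ N := Nat.cast_nonneg N
  have ha : 1 ≤ a := by linarith
  have hcut : 2 ≤ cutoff T := by
    unfold cutoff
    rw [Nat.le_sqrt]
    omega
  set X := (1 - 6 * eps T) * (T : ℝ) with hXdef
  have he0 : 0 ≤ eps T := Real.rpow_nonneg (by positivity) _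
  have hX : X ≤ (1 - eps T) * T :=
    mul_le_mul_of_nonneg_right (by linarith) (Nat.cast_nonneg T)
  have hXT : X ≤ T := hX.trans (mul_le_of_le_one_left (Nat.cast_nonneg T) (by linarith))
  set 𝒯 := (Finset.range (T + 1)).powerset.filter (Adm a X) with h𝒯
  set 𝒩 := 𝒯.biUnion sel with h𝒩
  have hbig : ∀ {C c}, C ∈ 𝒯 → c ∈ C → N ≤ c := by
    intro C c hC' hc
    have h1 := ((Finset.mem_filter.1 hC').2.mem hc).1
    have h2 : (N : ℝ) < c := by linarith
    exact_mod_cast h2.le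
  have h𝒩mem : ∀ P ∈ 𝒩, (∀ q ∈ P, q.Prime ∧ Normal q) ∧ Set.InjOn cell ↑P ∧
      P.image cell ∈ 𝒯 := by
    intro P hP'
    obtain ⟨C, hC', hPC⟩ := Finset.mem_biUnion.1 hP'
    obtain ⟨h1, h2, h3⟩ := mem_sel.1 hPC
    exact ⟨h1, h2, h3.symm ▸ hC'⟩
  set R := ∑ P ∈ 𝒩, wt P with hR
  have hwt0 : ∀ P, 0 ≤ wt P := fun P => inv_nonneg.2 (Nat.cast_nonneg _)
  have hR0 : 0 ≤ R := Finset.sum_nonneg fun P _ => hwt0 P
  -- the sum of the weights is at least a constant times the number of boxes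
  have hlowR : Real.exp (-4) * (𝒯.card : ℝ) ≤ R := by
    rw [hR, h𝒩, Finset.sum_biUnion (fun C _ C' _ hne => Finset.disjoint_left.2 fun P h1 h2 =>
      hne ((mem_sel.1 h1).2.2.symm.trans (mem_sel.1 h2).2.2))]
    rw [mul_comm, ← nsmul_eq_mul, ← Finset.sum_const]
    refine Finset.sum_le_sum fun C hC' => ?_
    rw [sum_wt_sel]
    calc Real.exp (-4) ≤ Real.exp (∑ c ∈ C, (-2) * (1 / ((c : ℝ) + 1) ^ 2)) := by
          refine Real.exp_le_exp.2 ?_
          rw [← Finset.mul_sum]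
          linarith [sum_inv_sq_le C]
      _ = ∏ c ∈ C, Real.exp ((-2) * (1 / ((c : ℝ) + 1) ^ 2)) := Real.exp_sum _ _
      _ ≤ _ := by
          refine Finset.prod_le_prod (fun c _ => (Real.exp_pos _).le) fun c hc => ?_
          obtain ⟨h1, h2, -⟩ := hN1 c (by have := hbig hC' hc; omega)
          refine le_trans ?_ h2
          set d : ℝ := 1 / ((c : ℝ) + 1) ^ 2 with hd
          have hd0 : 0 ≤ d := by positivity
          rw [show (-2) * d = -(2 * d) by ring, Real.exp_neg]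
          refine (inv_anti₀ (by positivity) (Real.add_one_le_exp (2 * d))).trans ?_
          rw [inv_le_iff_one_le_mul₀ (by positivity)]
          nlinarith
  -- the good values
  set G := 𝒩.image pval with hG
  refine ⟨G, ?_, ?_⟩
  · intro v hv
    obtain ⟨P, hP', rfl⟩ := Finset.mem_image.1 hv
    obtain ⟨C, hC', hPC⟩ := Finset.mem_biUnion.1 hP'
    exact ⟨_, good_of_sel ha hcut hX hXT (Finset.mem_filter.1 hC').2 hPC⟩
  -- collisions
  set E := (𝒩 ×ˢ 𝒩).filter (fun x => pval x.1 = pval x.2) with hE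
  have hweq : ∀ x ∈ E, wt x.1 = wt x.2 := fun x hx => by
    unfold wt
    rw [(Finset.mem_filter.1 hx).2]
  set S := (Finset.range (T + 1)).filter (fun s => N ≤ s) with hS
  have hlevel : ∀ s ∈ S, ∑ x ∈ E.filter (fun x => Lead x.1 x.2 s), wt x.1 ≤
      R * B * (1 / ((s : ℝ) + 1) ^ 2) := by
    intro s hs
    obtain ⟨hsT, hsN⟩ := Finset.mem_filter.1 hs
    set 𝒞 := ((Finset.range (Lb s + 1)).biUnion fun i =>
      (Finset.range s).powersetCard i).filter (fun C => ∀ c ∈ C, N ≤ c) with h𝒞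
    set ℒ := 𝒞.biUnion sel with hℒ
    set F := E.filter (fun x => Lead x.1 x.2 s) with hF
    set Q := F.image (fun x => (x.1 \ x.2, x.2 \ x.1)) with hQ
    have hcut' : 1 ≤ cutoff s := by
      unfold cutoff
      rw [Nat.le_sqrt]
      omega
    have hQsum : ∑ y ∈ Q, wt y.1 ≤ Real.exp (-Real.sqrt s) := by
      refine hN3 s (by omega) Q fun y hy => ?_
      obtain ⟨x, hx, rfl⟩ := Finset.mem_image.1 hy
      obtain ⟨hxE, hlead, hl1, hl2⟩ := Finset.mem_filter.1 hx
      obtain ⟨hxN, heq⟩ := Finset.mem_filter.1 hxE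
      obtain ⟨hx1, hx2⟩ := Finset.mem_product.1 hxN
      obtain ⟨p1, i1, c1⟩ := h𝒩mem _ hx1
      obtain ⟨p2, i2, c2⟩ := h𝒩mem _ hx2
      have hcard : ∀ (U W : Finset ℕ), Set.InjOn cell ↑U → U.image cell ∈ 𝒯 → W ⊆ U →
          (∀ q ∈ W, cell q ≤ s) → W.card ≤ Kmax s := by
        intro U W hi hc hsub hle
        rw [← Finset.card_image_of_injOn (hi.mono (Finset.coe_subset.2 hsub))]
        refine ((Finset.card_le_card fun c hc' => ?_).trans
          ((Finset.mem_filter.1 hc).2.count ha s)).trans (Lb_le_Kmax s)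
        obtain ⟨q, hq, rfl⟩ := Finset.mem_image.1 hc'
        exact Finset.mem_filter.2 ⟨Finset.mem_image_of_mem _ (hsub hq), hle q hq⟩
      refine ⟨disjoint_sdiff_sdiff, ?_, hcard _ _ i1 c1 Finset.sdiff_subset hl1,
        hcard _ _ i2 c2 Finset.sdiff_subset hl2, hlead, ?_, ?_⟩
      · intro q hq
        rcases Finset.mem_union.1 hq with h | h
        · exact ⟨(p1 q (Finset.mem_sdiff.1 h).1).1, (p1 q (Finset.mem_sdiff.1 h).1).2, hl1 q h⟩
        · exact ⟨(p2 q (Finset.mem_sdiff.1 h).1).1, (p2 q (Finset.mem_sdiff.1 h).1).2, hl2 q h⟩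
      · have hsub : (x.1 \ x.2).filter (fun q => cutoff s ≤ cell q) ⊆ x.1 :=
          (Finset.filter_subset _ _).trans Finset.sdiff_subset
        refine (Finset.mem_filter.1 c1).2.lev_cost ha _ (i1.mono (Finset.coe_subset.2 hsub))
          (fun q hq => Finset.mem_image_of_mem _ (hsub hq))
          (fun q hq => hl1 q (Finset.mem_filter.1 hq).1) ?_ hcut'
        obtain ⟨q, hq, hqs⟩ := hlead
        exact hqs ▸ Finset.mem_image_of_mem _ (Finset.mem_sdiff.1 hq).1
      · unfold pval at heq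
        have e1 := Finset.prod_inter_mul_prod_sdiff x.1 x.2 fun q => q - 1
        have e2 := Finset.prod_inter_mul_prod_sdiff x.2 x.1 fun q => q - 1
        rw [Finset.inter_comm x.2 x.1, ← heq, ← e1] at e2
        refine (Nat.eq_of_mul_eq_mul_left ?_ e2).symm
        exact pval_pos fun q hq => (p1 q (Finset.mem_inter.1 hq).1).1
    have hℒsum : ∑ P ∈ ℒ, wt P ≤ B * (((Lb s : ℝ) + 1) * ((s : ℝ) + 1) ^ Lb s) := by
      rw [hℒ, Finset.sum_biUnion (fun C _ C' _ hne => Finset.disjoint_left.2 fun P h1 h2 =>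
        hne ((mem_sel.1 h1).2.2.symm.trans (mem_sel.1 h2).2.2))]
      have h1 : ∀ C ∈ 𝒞, ∑ P ∈ sel C, wt P ≤ B := by
        intro C hC'
        rw [sum_wt_sel, hB]
        refine le_trans ?_ (Real.exp_le_exp.2 (sum_inv_sq_le C))
        rw [Real.exp_sum]
        refine Finset.prod_le_prod (fun c _ => Finset.sum_nonneg fun q _ => by positivity)
          fun c hc => ?_
        obtain ⟨-, -, h3⟩ := hN1 c (by have := (Finset.mem_filter.1 hC').2 c hc; omega)
        linarith [Real.add_one_le_exp (1 / ((c : ℝ) + 1) ^ 2)]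
      refine (Finset.sum_le_card_nsmul _ _ _ h1).trans ?_
      rw [nsmul_eq_mul, mul_comm]
      refine mul_le_mul_of_nonneg_left ?_ (Real.exp_pos 2).le
      have h2 : 𝒞.card ≤ ∑ i ∈ Finset.range (Lb s + 1), (s + 1) ^ Lb s := by
        refine (Finset.card_filter_le _ _).trans (Finset.card_biUnion_le.trans ?_)
        refine Finset.sum_le_sum fun i hi => ?_
        rw [Finset.card_powersetCard, Finset.card_range]
        exact (Nat.choose_le_pow s i).trans ((Nat.pow_le_pow_left (Nat.le_succ s) i).trans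
          (Nat.pow_le_pow_right (Nat.succ_pos s)
            (Nat.lt_succ_iff.1 (Finset.mem_range.1 hi))))
      rw [Finset.sum_const, Finset.card_range, smul_eq_mul] at h2
      exact_mod_cast h2
    -- the decomposition
    set Φ := fun x : Finset ℕ × Finset ℕ =>
      ((x.1.filter fun q => s < cell q, x.1.filter fun q => cell q < s ∧ q ∈ x.2),
        (x.1 \ x.2, x.2 \ x.1)) with hΦ
    have hsplit : ∀ x ∈ F,
        x.1 = (x.1.filter fun q => s < cell q) ∪ (x.1.filter fun q => cell q < s ∧ q ∈ x.2) ∪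
          (x.1 \ x.2) ∧
        x.2 = (x.1.filter fun q => s < cell q) ∪ (x.1.filter fun q => cell q < s ∧ q ∈ x.2) ∪
          (x.2 \ x.1) ∧
        Disjoint (x.1.filter fun q => s < cell q)
          (x.1.filter fun q => cell q < s ∧ q ∈ x.2) ∧
        Disjoint ((x.1.filter fun q => s < cell q) ∪
          (x.1.filter fun q => cell q < s ∧ q ∈ x.2)) (x.1 \ x.2) := by
      intro x hx
      obtain ⟨hxE, ⟨q0, hq0, hq0s⟩, hl1, hl2⟩ := Finset.mem_filter.1 hx
      obtain ⟨hx1, -⟩ := Finset.mem_product.1 (Finset.mem_filter.1 hxE).1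
      obtain ⟨-, i1, -⟩ := h𝒩mem _ hx1
      have hne : ∀ q ∈ x.1, q ∈ x.2 → cell q ≠ s := by
        intro q hq hq2 hqs
        have := i1 hq (Finset.mem_sdiff.1 hq0).1 (hqs.trans hq0s.symm)
        exact (Finset.mem_sdiff.1 hq0).2 (this ▸ hq2)
      have hhi : ∀ q ∈ x.1, s < cell q → q ∈ x.2 := by
        intro q hq hlt
        by_contra h
        have := hl1 q (Finset.mem_sdiff.2 ⟨hq, h⟩)
        omega
      refine ⟨?_, ?_, ?_, ?_⟩
      · ext q
        simp only [Finset.mem_union, Finset.mem_filter, Finset.mem_sdiff]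
        constructor
        · intro hq
          by_cases h2 : q ∈ x.2
          · rcases lt_or_gt_of_ne (hne q hq h2) with h | h
            · exact Or.inl (Or.inr ⟨hq, h, h2⟩)
            · exact Or.inl (Or.inl ⟨hq, h⟩)
          · exact Or.inr ⟨hq, h2⟩
        · rintro ((⟨h, -⟩ | ⟨h, -⟩) | ⟨h, -⟩) <;> exact h
      · ext q
        simp only [Finset.mem_union, Finset.mem_filter, Finset.mem_sdiff]
        constructor
        · intro hq2
          by_cases hq : q ∈ x.1
          · rcases lt_or_gt_of_ne (hne q hq hq2) with h | h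
            · exact Or.inl (Or.inr ⟨hq, h, hq2⟩)
            · exact Or.inl (Or.inl ⟨hq, h⟩)
          · exact Or.inr ⟨hq2, hq⟩
        · rintro ((⟨h, hlt⟩ | ⟨-, -, h⟩) | ⟨h, -⟩)
          · exact hhi q h hlt
          · exact h
          · exact h
      · rw [Finset.disjoint_left]
        intro q h1 h2
        have := (Finset.mem_filter.1 h1).2
        have := (Finset.mem_filter.1 h2).2.1
        omega
      · rw [Finset.disjoint_left]
        intro q h1 h2
        rcases Finset.mem_union.1 h1 with h | h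
        · obtain ⟨hq, hlt⟩ := Finset.mem_filter.1 h
          exact (Finset.mem_sdiff.1 h2).2 (hhi q hq hlt)
        · exact (Finset.mem_sdiff.1 h2).2 (Finset.mem_filter.1 h).2.2
    have hinjΦ : Set.InjOn Φ ↑F := by
      intro x hx y hy hxy
      simp only [hΦ, Prod.mk.injEq] at hxy
      obtain ⟨a1, a2, -, -⟩ := hsplit x hx
      obtain ⟨b1, b2, -, -⟩ := hsplit y hy
      refine Prod.ext ?_ ?_
      · rw [a1, b1, hxy.1.1, hxy.1.2, hxy.2.1]
      · rw [a2, b2, hxy.1.1, hxy.1.2, hxy.2.2]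
    have hmap : F.image Φ ⊆ (𝒩 ×ˢ ℒ) ×ˢ Q := by
      intro y hy
      obtain ⟨x, hx, rfl⟩ := Finset.mem_image.1 hy
      obtain ⟨hx1, -⟩ :=
        Finset.mem_product.1 (Finset.mem_filter.1 (Finset.mem_filter.1 hx).1).1
      obtain ⟨p1, i1, c1⟩ := h𝒩mem _ hx1
      obtain ⟨hc1, hc1'⟩ := Finset.mem_filter.1 c1
      simp only [hΦ, Finset.mem_product]
      refine ⟨⟨?_, ?_⟩, Finset.mem_image_of_mem _ hx⟩
      · refine Finset.mem_biUnion.2 ⟨(x.1.image cell).filter fun c => s < c, ?_,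
          mem_sel.2 ⟨fun q hq => p1 q (Finset.mem_filter.1 hq).1,
            i1.mono (Finset.coe_subset.2 (Finset.filter_subset _ _)), ?_⟩⟩
        · exact Finset.mem_filter.2 ⟨Finset.mem_powerset.2 ((Finset.filter_subset _ _).trans
            (Finset.mem_powerset.1 hc1)), hc1'.trunc ha s⟩
        · rw [Finset.filter_image]
      · refine Finset.mem_biUnion.2
          ⟨(x.1.filter fun q => cell q < s ∧ q ∈ x.2).image cell, ?_,
            mem_sel.2 ⟨fun q hq => p1 q (Finset.mem_filter.1 hq).1,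
              i1.mono (Finset.coe_subset.2 (Finset.filter_subset _ _)), rfl⟩⟩
        refine Finset.mem_filter.2 ⟨Finset.mem_biUnion.2
          ⟨_, Finset.mem_range.2 (Nat.lt_succ_of_le ?_),
            Finset.mem_powersetCard.2 ⟨?_, rfl⟩⟩, ?_⟩
        · refine (Finset.card_le_card fun c hc => ?_).trans (hc1'.count ha s)
          obtain ⟨q, hq, rfl⟩ := Finset.mem_image.1 hc
          obtain ⟨hq1, hq2, -⟩ := Finset.mem_filter.1 hq
          exact Finset.mem_filter.2 ⟨Finset.mem_image_of_mem _ hq1, hq2.le⟩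
        · intro c hc
          obtain ⟨q, hq, rfl⟩ := Finset.mem_image.1 hc
          exact Finset.mem_range.2 (Finset.mem_filter.1 hq).2.1
        · intro c hc
          obtain ⟨q, hq, rfl⟩ := Finset.mem_image.1 hc
          exact hbig c1 (Finset.mem_image_of_mem _ (Finset.mem_filter.1 hq).1)
    calc ∑ x ∈ F, wt x.1 = ∑ y ∈ F.image Φ, wt y.1.1 * wt y.1.2 * wt y.2.1 := by
          rw [Finset.sum_image hinjΦ]
          refine Finset.sum_congr rfl fun x hx => ?_
          obtain ⟨a1, -, d1, d2⟩ := hsplit x hx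
          conv_lhs => rw [a1, wt_union d2, wt_union d1]
      _ ≤ ∑ y ∈ (𝒩 ×ˢ ℒ) ×ˢ Q, wt y.1.1 * wt y.1.2 * wt y.2.1 :=
          Finset.sum_le_sum_of_subset_of_nonneg hmap fun y _ _ =>
            mul_nonneg (mul_nonneg (hwt0 _) (hwt0 _)) (hwt0 _)
      _ = R * (∑ P ∈ ℒ, wt P) * ∑ y ∈ Q, wt y.1 := by
          rw [hR, Finset.sum_mul_sum, ← Finset.sum_product' 𝒩 ℒ fun P L => wt P * wt L,
            Finset.sum_mul_sum, ← Finset.sum_product']
      _ ≤ R * (B * (((Lb s : ℝ) + 1) * ((s : ℝ) + 1) ^ Lb s)) * Real.exp (-Real.sqrt s) :=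
          mul_le_mul (mul_le_mul_of_nonneg_left hℒsum hR0) hQsum
            (Finset.sum_nonneg fun y _ => hwt0 _) (by positivity)
      _ = R * B * (((Lb s : ℝ) + 1) * ((s : ℝ) + 1) ^ Lb s * Real.exp (-Real.sqrt s)) := by
          ring
      _ ≤ _ := mul_le_mul_of_nonneg_left (hN2 s (by omega)) (by positivity)
  have hcover : ∀ x ∈ E, x.1 ≠ x.2 →
      (∃ s ∈ S, Lead x.1 x.2 s) ∨ ∃ s ∈ S, Lead x.2 x.1 s := by
    intro x hx hne
    obtain ⟨hx1, hx2⟩ := Finset.mem_product.1 (Finset.mem_filter.1 hx).1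
    set Δ := (x.1 \ x.2) ∪ (x.2 \ x.1) with hΔ
    have hΔne : Δ.Nonempty := by
      rw [hΔ, Finset.nonempty_iff_ne_empty]
      intro h
      rw [Finset.union_eq_empty, Finset.sdiff_eq_empty_iff_subset,
        Finset.sdiff_eq_empty_iff_subset] at h
      exact hne (Finset.Subset.antisymm h.1 h.2)
    obtain ⟨q0, hq0, hmax⟩ := Finset.exists_max_image Δ cell hΔne
    have hmem : ∀ P ∈ 𝒩, q0 ∈ P → cell q0 ∈ S := by
      intro P hP' hq
      obtain ⟨-, -, hc⟩ := h𝒩mem P hP'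
      have hcc := Finset.mem_image_of_mem cell hq
      exact Finset.mem_filter.2
        ⟨Finset.mem_powerset.1 (Finset.mem_filter.1 hc).1 hcc, hbig hc hcc⟩
    rcases Finset.mem_union.1 hq0 with h | h
    · exact Or.inl ⟨cell q0, hmem _ hx1 (Finset.mem_sdiff.1 h).1, ⟨q0, h, rfl⟩,
        fun q hq => hmax q (Finset.mem_union_left _ hq),
        fun q hq => hmax q (Finset.mem_union_right _ hq)⟩
    · exact Or.inr ⟨cell q0, hmem _ hx2 (Finset.mem_sdiff.1 h).1, ⟨q0, h, rfl⟩,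
        fun q hq => hmax q (Finset.mem_union_right _ hq),
        fun q hq => hmax q (Finset.mem_union_left _ hq)⟩
  have hoff : ∑ x ∈ E.filter (fun x => x.1 ≠ x.2), wt x.1 ≤ 4 * B * R := by
    have hind : ∀ x ∈ E.filter (fun x => x.1 ≠ x.2), wt x.1 ≤
        ∑ s ∈ S, (if Lead x.1 x.2 s then wt x.1 else 0) +
          ∑ s ∈ S, (if Lead x.2 x.1 s then wt x.2 else 0) := by
      intro x hx
      obtain ⟨hxE, hne⟩ := Finset.mem_filter.1 hx
      have hnn : ∀ (P P' : Finset ℕ) (s : ℕ), s ∈ S → 0 ≤ (if Lead P P' s then wt P else 0) :=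
        fun P P' s _ => ite_nonneg (hwt0 P) le_rfl
      rcases hcover x hxE hne with ⟨s, hs, hl⟩ | ⟨s, hs, hl⟩
      · refine le_trans ?_ (le_add_of_nonneg_right (Finset.sum_nonneg (hnn _ _)))
        exact le_trans (by rw [if_pos hl]) (Finset.single_le_sum (hnn x.1 x.2) hs)
      · refine le_trans ?_ (le_add_of_nonneg_left (Finset.sum_nonneg (hnn _ _)))
        exact le_trans (by rw [if_pos hl, hweq x hxE]) (Finset.single_le_sum (hnn x.2 x.1) hs)
    refine (Finset.sum_le_sum hind).trans ?_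
    rw [Finset.sum_add_distrib]
    have hswap : ∀ x ∈ E, x.swap ∈ E := by
      intro x hx
      obtain ⟨h1, h2⟩ := Finset.mem_filter.1 hx
      obtain ⟨h3, h4⟩ := Finset.mem_product.1 h1
      exact Finset.mem_filter.2 ⟨Finset.mem_product.2 ⟨h4, h3⟩, h2.symm⟩
    have hone : ∑ x ∈ E, ∑ s ∈ S, (if Lead x.1 x.2 s then wt x.1 else 0) ≤ 2 * B * R := by
      rw [Finset.sum_comm]
      refine (Finset.sum_le_sum fun s hs => ?_).trans ?_ (b := ∑ s ∈ S,
        R * B * (1 / ((s : ℝ) + 1) ^ 2))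
      · rw [← Finset.sum_filter]
        exact hlevel s hs
      · rw [← Finset.mul_sum]
        nlinarith [mul_le_mul_of_nonneg_left (sum_inv_sq_le S)
          (mul_nonneg hR0 (Real.exp_pos 2).le)]
    have htwo : ∑ x ∈ E, ∑ s ∈ S, (if Lead x.2 x.1 s then wt x.2 else 0) ≤ 2 * B * R := by
      refine le_trans (le_of_eq ?_) hone
      exact Finset.sum_nbij' Prod.swap Prod.swap hswap hswap (fun x _ => x.swap_swap)
        (fun x _ => x.swap_swap) (fun x _ => rfl)
    have hnn1 : ∀ (P P' : Finset ℕ), 0 ≤ ∑ s ∈ S, (if Lead P P' s then wt P else 0) :=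
      fun P P' => Finset.sum_nonneg fun s _ => ite_nonneg (hwt0 P) le_rfl
    have m1 := (Finset.sum_le_sum_of_subset_of_nonneg (Finset.filter_subset
      (fun x : Finset ℕ × Finset ℕ => x.1 ≠ x.2) E) fun x _ _ => hnn1 x.1 x.2).trans hone
    have m2 := (Finset.sum_le_sum_of_subset_of_nonneg (Finset.filter_subset
      (fun x : Finset ℕ × Finset ℕ => x.1 ≠ x.2) E) fun x _ _ => hnn1 x.2 x.1).trans htwo
    linarith
  -- Cauchy–Schwarz
  have hDsum : ∑ x ∈ E, wt x.1 ≤ D * R := by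
    rw [← Finset.sum_filter_add_sum_filter_not E (fun x => x.1 ≠ x.2)]
    have hdiag : ∑ x ∈ E.filter (fun x => ¬ x.1 ≠ x.2), wt x.1 ≤ R := by
      rw [hR, ← Finset.sum_image (f := wt) (g := Prod.fst) fun x hx y hy hxy => ?_]
      · refine Finset.sum_le_sum_of_subset_of_nonneg ?_ fun P _ _ => hwt0 P
        intro P hP'
        obtain ⟨x, hx, rfl⟩ := Finset.mem_image.1 hP'
        exact (Finset.mem_product.1 (Finset.mem_filter.1 (Finset.mem_filter.1 hx).1).1).1
      · have h1 := not_not.1 (Finset.mem_filter.1 hx).2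
        have h2 := not_not.1 (Finset.mem_filter.1 hy).2
        exact Prod.ext hxy (h1 ▸ h2 ▸ hxy)
    rw [hD]
    linarith
  set m : Finset ℕ → ℝ := fun P => ((𝒩.filter fun P' => pval P' = pval P).card : ℝ) with hm
  have hm1 : ∀ P ∈ 𝒩, 1 ≤ m P := fun P hP' => by
    rw [hm, Nat.one_le_cast, Nat.one_le_iff_ne_zero]
    exact Finset.card_ne_zero_of_mem (Finset.mem_filter.2 ⟨hP', rfl⟩)
  have hwpos : ∀ P ∈ 𝒩, 0 < wt P := fun P hP' =>
    inv_pos.2 (Nat.cast_pos.2 (pval_pos fun q hq => ((h𝒩mem P hP').1 q hq).1))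
  have hmsum : ∑ P ∈ 𝒩, wt P * m P = ∑ x ∈ E, wt x.1 := by
    rw [hE, Finset.sum_filter, Finset.sum_product]
    refine Finset.sum_congr rfl fun P _ => ?_
    simp only [hm]
    rw [← Finset.sum_filter, Finset.sum_const, nsmul_eq_mul, mul_comm]
    simp only [eq_comm]
  have hinv : ∑ P ∈ 𝒩, wt P / m P = invSum G := by
    unfold invSum
    rw [hG, ← Finset.sum_fiberwise_of_maps_to (g := pval) (t := 𝒩.image pval)
      fun P hP' => Finset.mem_image_of_mem _ hP']
    refine Finset.sum_congr rfl fun v hv => ?_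
    obtain ⟨P0, hP0, rfl⟩ := Finset.mem_image.1 hv
    have : ∀ P ∈ 𝒩.filter (fun P => pval P = pval P0),
        wt P / m P = ((pval P0 : ℕ) : ℝ)⁻¹ / m P0 := by
      intro P hP'
      simp only [hm]
      unfold wt
      rw [(Finset.mem_filter.1 hP').2]
    rw [Finset.sum_congr rfl this, Finset.sum_const, nsmul_eq_mul]
    change m P0 * (_ / m P0) = _
    exact mul_div_cancel₀ _ (by linarith [hm1 P0 hP0])
  have hCS := Finset.sq_sum_div_le_sum_sq_div 𝒩 wt (g := fun P => wt P * m P)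
    fun P hP' => mul_pos (hwpos P hP') (by linarith [hm1 P hP'])
  have heq : ∑ P ∈ 𝒩, wt P ^ 2 / (wt P * m P) = invSum G := by
    rw [← hinv]
    refine Finset.sum_congr rfl fun P hP' => ?_
    rw [sq, mul_div_mul_left _ _ (hwpos P hP').ne']
  rw [heq, hmsum, ← hR] at hCS
  have hvol : MMinus (Kvol T) a X ≤ (𝒯.card : ℝ) :=
    mMinus_le_card ha (Kvol T) (T + 1) (by push_cast; linarith)
  have hDpos : 0 < D := by positivity
  have hRG : R ≤ D * invSum G := by
    rcases hR0.eq_or_lt with h0 | h0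
    · rw [← h0]
      exact mul_nonneg hDpos.le (invSum_nonneg G)
    · have hE0 : 0 < ∑ x ∈ E, wt x.1 := by
        rw [← hmsum]
        refine lt_of_lt_of_le h0 (Finset.sum_le_sum fun P hP' => ?_)
        exact le_mul_of_one_le_right (hwt0 P) (hm1 P hP')
      rw [div_le_iff₀ hE0] at hCS
      have := hCS.trans (mul_le_mul_of_nonneg_left hDsum (invSum_nonneg G))
      rw [sq, ← mul_assoc, mul_le_mul_iff_left₀ h0] at this
      linarith
  rw [div_mul_eq_mul_div, div_le_iff₀ hDpos]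
  have := mul_le_mul_of_nonneg_left hvol (Real.exp_pos (-4 : ℝ)).le
  linarith

/-- The boundary values are negligible against the good values. -/
theorem regularity (hV : VolumeStatement) (hU : UpperStatement) (hL : LowerStatement) :
    RegularityStatement := by
  intro η hη
  obtain ⟨SV, hV⟩ := hV
  obtain ⟨SU, hU⟩ := hU
  obtain ⟨SL, hL⟩ := hL
  set s0 := max SV (max SU SL) with hs0
  obtain ⟨C, hC, TU, hU⟩ := hU s0 ((le_max_left SU SL).trans (le_max_right SV _))
  obtain ⟨c, hc, TL, hL⟩ := hL s0 ((le_max_right SU SL).trans (le_max_right SV _))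
  obtain ⟨X0, hV⟩ := hV s0 (le_max_left _ _) (η * c / (2 * C)) (by positivity)
  have he : Tendsto (fun T : ℕ => eps T) atTop (𝓝 0) := by
    have h := (tendsto_rpow_neg_atTop (show (0 : ℝ) < 1 / 8 by norm_num)).comp
      (tendsto_atTop_add_const_right atTop (1 : ℝ) tendsto_natCast_atTop_atTop)
    refine h.congr fun T => ?_
    simp only [Function.comp_apply, eps, neg_div]
  have hx : Tendsto (fun T : ℕ => Real.exp (-(T : ℝ) ^ ((1 : ℝ) / 64))) atTop (𝓝 0) :=
    Real.tendsto_exp_neg_atTop_nhds_zero.comp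
      ((tendsto_rpow_atTop (by norm_num)).comp tendsto_natCast_atTop_atTop)
  obtain ⟨T1, hT1⟩ := Filter.eventually_atTop.1
    (((he.eventually (eventually_le_nhds (show (0 : ℝ) < 1 / 100 by norm_num))).and
      (hx.eventually (eventually_le_nhds (show 0 < η / (2 * C) by positivity)))))
  refine ⟨TU + TL + T1 + 2 * ⌈X0⌉₊ + 18, fun T hT F hF => ?_⟩
  obtain ⟨G, hG, hGb⟩ := hL T (by omega)
  obtain ⟨heT, hxT⟩ := hT1 T (by omega)
  refine ⟨insert 1 G, ?_, ?_⟩
  · intro v hv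
    rcases Finset.mem_insert.1 hv with rfl | hv
    · refine ⟨1, ⟨one_pos, ?_, ?_, ?_⟩, Nat.totient_one⟩
      · simp [Exceptional, high, lowPart, Real.exp_pos, le_of_lt]
      · have h0 : ∀ j, rows (T ::ₘ profile 1 (cutoff T)) j ≤ 1 := fun j => by
          simp only [rows, profile, high, Nat.primeFactors_one, Finset.filter_empty,
            Finset.empty_val, Multiset.map_zero]
          exact (Multiset.countP_le_card _ _).trans (by simp)
        have h1 : topG T 1 = 0 := by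
          unfold topG gsum
          exact Finset.sum_eq_zero fun j _ => if_pos (h0 j)
        rw [h1]
        exact mul_nonneg (by linarith) (Nat.cast_nonneg T)
      · simp
    · exact hG v hv
  set e := eps T with hee
  have he0 : 0 ≤ e := Real.rpow_nonneg (by positivity) _
  set X := (1 - 6 * e) * (T : ℝ) with hXdef
  set X' := (1 + 6 * e) * (T : ℝ) with hX'def
  have hT18 : (18 : ℝ) ≤ T := by exact_mod_cast (by omega : 18 ≤ T)
  have hTX : (T : ℝ) / 2 ≤ X := by rw [hXdef]; nlinarith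
  have hX0 : X0 ≤ X := by
    have h1 : ((2 * ⌈X0⌉₊ : ℕ) : ℝ) ≤ T := by exact_mod_cast (by omega : 2 * ⌈X0⌉₊ ≤ T)
    push_cast at h1
    linarith [Nat.le_ceil X0]
  have hXpos : 0 < X := by linarith
  have hXT : X ≤ T := by rw [hXdef]; nlinarith
  have hXX' : X ≤ X' := by rw [hXdef, hX'def]; nlinarith
  have heX : e ≤ X ^ (-(1 : ℝ) / 8) :=
    (Real.rpow_le_rpow_of_nonpos (by linarith) (le_add_of_nonneg_right zero_le_one)
      (by norm_num)).trans (Real.rpow_le_rpow_of_nonpos hXpos hXT (by norm_num))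
  have hX' : X' ≤ X * (1 + 32 * X ^ (-(1 : ℝ) / 8)) := by
    refine le_trans ?_ (mul_le_mul_of_nonneg_left (show 1 + 32 * e ≤ _ by linarith) hXpos.le)
    rw [hXdef, hX'def, mul_right_comm]
    refine mul_le_mul_of_nonneg_right ?_ (Nat.cast_nonneg T)
    nlinarith
  have hlogX : 1 ≤ Real.log X := by
    rw [Real.le_log_iff_exp_le hXpos]
    linarith [Real.exp_one_lt_d9]
  have hK : ((Kvol T : ℕ) : ℝ) ≤ 20000 * Real.log X ^ 2 := by
    set L := Real.log ((T : ℝ) + 3) with hLdef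
    have hL0 : 0 ≤ L := Real.log_nonneg (by linarith)
    have h3 : 2 * L ≤ 3 * Real.log X := by
      have h1 : L ≤ Real.log (3 * X) := Real.log_le_log (by linarith) (by linarith)
      have h2 : Real.log (3 : ℝ) * 2 ≤ Real.log X := by
        have := Real.log_le_log (by norm_num : (0 : ℝ) < 3 ^ 2) (show (3 : ℝ) ^ 2 ≤ X by linarith)
        rw [Real.log_pow] at this
        push_cast at this
        linarith
      rw [Real.log_mul (by norm_num) hXpos.ne'] at h1
      linarith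
    have hceil := Nat.ceil_lt_add_one (show (0 : ℝ) ≤ 1000 * L ^ 2 by positivity)
    unfold Kvol Kmax
    push_cast
    rw [← hLdef]
    nlinarith
  have hvol := hV X X' hX0 hXX' hX' (Kvol T) hK
  refine (hU T (by omega) F hF).trans ?_
  have hone : 1 ≤ invSum (insert 1 G) := by
    refine le_trans (le_of_eq ?_) (invSum_mono (show ({1} : Finset ℕ) ⊆ insert 1 G by simp))
    simp [invSum]
  have hmono := invSum_mono (Finset.subset_insert 1 G)
  have h1 : C * (η * c / (2 * C) * MMinus (Kvol T) (s0 / 2) X) ≤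
      η / 2 * invSum (insert 1 G) := by
    calc C * (η * c / (2 * C) * MMinus (Kvol T) (s0 / 2) X)
        = η / 2 * (c * MMinus (Kvol T) (s0 / 2) X) := by field_simp
      _ ≤ η / 2 * invSum (insert 1 G) :=
          mul_le_mul_of_nonneg_left (hGb.trans hmono) (by linarith)
  have h2 := mul_le_mul_of_nonneg_left hvol hC.le
  have h3 : C * Real.exp (-(T : ℝ) ^ ((1 : ℝ) / 64)) ≤ η / 2 * 1 := by
    refine (mul_le_mul_of_nonneg_left hxT hC.le).trans (le_of_eq ?_)
    field_simp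
  have h4 := mul_le_mul_of_nonneg_left hone (show 0 ≤ η / 2 by linarith)
  linarith

end P031
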