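import Vale.Agent.P031.Statements
import Vale.Agent.P031.Tools

/-!
Sets of scales met by the strict polytopes: elementary properties and the cost bounds used in the
lower bound for the good values.
-/

open Finset MeasureTheory

noncomputable section

namespace P031.LowerM

open scoped Classical

/-- `C` is the set of unit boxes containing the coordinates of a point of a strict polytope. -/
def Adm (a X : ℝ) (C : Finset ℕ) : Prop :=
  ∃ (k : ℕ) (t : Fin k → ℕ) (z : Fin k → ℝ), z ∈ PolyMinus k a X ∧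
    (∀ i, (t i : ℝ) ≤ z i ∧ z i < (t i : ℝ) + 1) ∧ C = Finset.univ.image t

/-- The bound for the number of scales below `s + 1` in a set met by a strict polytope. -/
def Lb (s : ℕ) : ℕ := ⌈10 * Real.log ((s : ℝ) + 2)⌉₊ + 2

theorem one_le_log_add_three (s : ℕ) : (1 : ℝ) ≤ Real.log ((s : ℝ) + 3) := by
  have h0 : (0 : ℝ) ≤ s := Nat.cast_nonneg s
  rw [Real.le_log_iff_exp_le (by linarith)]
  linarith [Real.exp_one_lt_d9]

theorem Lb_le_Kmax (s : ℕ) : Lb s ≤ Kmax s := by
  have h0 : (0 : ℝ) ≤ s := Nat.cast_nonneg s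
  have hL := one_le_log_add_three s
  have h1 : Real.log ((s : ℝ) + 2) ≤ Real.log ((s : ℝ) + 3) :=
    Real.log_le_log (by linarith) (by linarith)
  have h2 : 0 ≤ 10 * Real.log ((s : ℝ) + 2) :=
    mul_nonneg (by norm_num) (Real.log_nonneg (by linarith))
  unfold Lb Kmax
  rw [← Nat.ceil_add_natCast h2]
  refine Nat.ceil_mono ?_
  push_cast
  nlinarith

theorem Lb_mono : Monotone Lb := by
  intro s t h
  have h0 : (0 : ℝ) ≤ s := Nat.cast_nonneg s
  have h1 : (s : ℝ) ≤ t := by exact_mod_cast h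
  unfold Lb
  gcongr

theorem aCoef_pair : (5 / 4 : ℝ) ≤ aCoef 1 + aCoef 2 := by
  have h : (13 / 12 : ℝ) ≤ Real.log 3 := by
    rw [Real.le_log_iff_exp_le (by norm_num)]
    have h1 : Real.exp (1 / 12 : ℝ) ≤ 12 / 11 :=
      (Real.exp_bound_div_one_sub_of_interval (by norm_num) (by norm_num)).trans (by norm_num)
    have h2 : Real.exp (13 / 12 : ℝ) = Real.exp 1 * Real.exp (1 / 12) := by
      rw [← Real.exp_add]; norm_num
    rw [h2]
    exact (mul_le_mul Real.exp_one_lt_d9.le h1 (Real.exp_pos _).le (by norm_num)).trans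
      (by norm_num)
  unfold aCoef
  norm_num
  linarith

theorem one_le_rpow_mul_self {z : ℝ} (hz : 1 ≤ z) : 1 ≤ z ^ (-(1 : ℝ) / 8) * z := by
  have h1 : z ^ (-1 : ℝ) ≤ z ^ (-(1 : ℝ) / 8) :=
    Real.rpow_le_rpow_of_exponent_le hz (by norm_num)
  rw [Real.rpow_neg_one] at h1
  calc (1 : ℝ) = z⁻¹ * z := (inv_mul_cancel₀ (by linarith)).symm
    _ ≤ z ^ (-(1 : ℝ) / 8) * z := mul_le_mul_of_nonneg_right h1 (by linarith)

section Basic

variable {k : ℕ} {a X : ℝ} {z : Fin k → ℝ} {t : Fin k → ℕ}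

theorem gap (ha : 1 ≤ a) (hz : z ∈ PolyMinus k a X) {i j : Fin k} (h : i < j) :
    z j ≤ z i - 3 := by
  obtain ⟨hlo, -, hgap, -, -⟩ := hz
  have h1 := one_le_rpow_mul_self (ha.trans (hlo i))
  nlinarith [hgap i j h]

theorem box_strictAnti (ha : 1 ≤ a) (hz : z ∈ PolyMinus k a X)
    (ht : ∀ i, (t i : ℝ) ≤ z i ∧ z i < (t i : ℝ) + 1) : StrictAnti t := by
  intro i j h
  have h1 := gap ha hz h
  have h2 : (t j : ℝ) < (t i : ℝ) := by linarith [(ht i).2, (ht j).1]
  exact_mod_cast h2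

theorem growth (ha : 1 ≤ a) (hz : z ∈ PolyMinus k a X) :
    ∀ n : ℕ, ∀ i : Fin k, (i : ℕ) + 2 * n < k → (5 / 4 : ℝ) ^ n ≤ z i := by
  intro n
  induction n with
  | zero =>
    intro i _
    rw [pow_zero]
    exact ha.trans (hz.1 i)
  | succ n ih =>
    intro i hi
    obtain ⟨i1, hi1⟩ : ∃ i1 : Fin k, (i1 : ℕ) = (i : ℕ) + 1 := ⟨⟨_, by omega⟩, rfl⟩
    obtain ⟨i2, hi2⟩ : ∃ i2 : Fin k, (i2 : ℕ) = (i : ℕ) + 2 := ⟨⟨_, by omega⟩, rfl⟩
    have hpos : ∀ j, 0 < z j := fun j => lt_of_lt_of_le one_pos (ha.trans (hz.1 j))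
    have hne : i1 ≠ i2 := by
      intro h; have := congrArg Fin.val h; omega
    have hsub : ({i1, i2} : Finset (Fin k)) ⊆ Finset.univ.filter (fun j => i < j) := by
      intro j hj
      simp only [Finset.mem_insert, Finset.mem_singleton] at hj
      simp only [Finset.mem_filter, Finset.mem_univ, true_and, Fin.lt_def]
      rcases hj with rfl | rfl <;> omega
    have htwo : aCoef 1 * z i1 + aCoef 2 * z i2 ≤ tailSum z i := by
      refine le_trans (le_of_eq ?_) (Finset.sum_le_sum_of_subset_of_nonneg hsub fun j hj _ =>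
        mul_nonneg (aCoef_nonneg ?_) (hpos j).le)
      · rw [Finset.sum_pair hne, hi1, hi2]
        simp
      · have := Fin.lt_def.1 (Finset.mem_filter.1 hj).2
        omega
    have h12 : z i2 ≤ z i1 := by
      have := gap ha hz (i := i1) (j := i2) (Fin.lt_def.2 (by omega))
      linarith
    have h3 := hz.2.2.2.1 i
    have hge : 1 ≤ z i ^ (-(1 : ℝ) / 8) * z i := one_le_rpow_mul_self (ha.trans (hz.1 i))
    have h4 := mul_le_mul_of_nonneg_left h12 (aCoef_nonneg (le_refl 1))
    have h5 := mul_le_mul_of_nonneg_right aCoef_pair (hpos i2).le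
    have h6 := ih i2 (by omega)
    rw [pow_succ]
    nlinarith

theorem num_after (ha : 1 ≤ a) (hz : z ∈ PolyMinus k a X) (i : Fin k) {s : ℕ}
    (h : z i < (s : ℝ) + 1) : k - (i : ℕ) ≤ Lb s := by
  set n := (k - 1 - (i : ℕ)) / 2 with hn
  have hi := i.isLt
  have h1 := growth ha hz n i (by omega)
  have h0 : (0 : ℝ) ≤ s := Nat.cast_nonneg s
  have h2 : (5 / 4 : ℝ) ^ n ≤ (s : ℝ) + 2 := by linarith
  have h3 := Real.log_le_log (by positivity) h2
  rw [Real.log_pow] at h3
  have h4 : (1 / 5 : ℝ) ≤ Real.log (5 / 4) := by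
    have := Real.one_sub_inv_le_log_of_pos (show (0 : ℝ) < 5 / 4 by norm_num)
    linarith [show 1 - (5 / 4 : ℝ)⁻¹ = 1 / 5 by norm_num]
  have h5 := mul_le_mul_of_nonneg_left h4 (Nat.cast_nonneg (α := ℝ) n)
  have h6 : ((2 * n : ℕ) : ℝ) ≤ (⌈10 * Real.log ((s : ℝ) + 2)⌉₊ : ℝ) := by
    have := Nat.le_ceil (10 * Real.log ((s : ℝ) + 2))
    push_cast
    linarith
  have h7 : 2 * n ≤ ⌈10 * Real.log ((s : ℝ) + 2)⌉₊ := by exact_mod_cast h6
  unfold Lb
  omega

end Basic

theorem Adm.mem {a X : ℝ} {C : Finset ℕ} (h : Adm a X C) {c : ℕ} (hc : c ∈ C) :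
    a < (c : ℝ) + 1 ∧ (c : ℝ) ≤ X := by
  obtain ⟨k, t, z, hz, ht, rfl⟩ := h
  obtain ⟨i, -, rfl⟩ := Finset.mem_image.1 hc
  exact ⟨lt_of_le_of_lt (hz.1 i) (ht i).2, (ht i).1.trans (hz.2.1 i)⟩

theorem Adm.count {a X : ℝ} {C : Finset ℕ} (ha : 1 ≤ a) (h : Adm a X C) (s : ℕ) :
    (C.filter fun c => c ≤ s).card ≤ Lb s := by
  obtain ⟨k, t, z, hz, ht, rfl⟩ := h
  set F : Finset (Fin k) := Finset.univ.filter fun i => t i ≤ s with hF
  have hle : ((Finset.univ.image t).filter fun c => c ≤ s).card ≤ F.card := by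
    rw [Finset.filter_image]
    exact Finset.card_image_le
  refine hle.trans ?_
  rcases F.eq_empty_or_nonempty with h0 | h0
  · simp [h0]
  · have hi : t (F.min' h0) ≤ s := (Finset.mem_filter.1 (F.min'_mem h0)).2
    have h1 : F ⊆ Finset.Ici (F.min' h0) := fun j hj => Finset.mem_Ici.2 (F.min'_le j hj)
    refine (Finset.card_le_card h1).trans ?_
    rw [Fin.card_Ici]
    refine num_after ha hz _ ?_
    have h2 : (t (F.min' h0) : ℝ) ≤ s := by exact_mod_cast hi
    linarith [(ht (F.min' h0)).2]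

theorem Adm.trunc {a X : ℝ} {C : Finset ℕ} (ha : 1 ≤ a) (h : Adm a X C) (s : ℕ) :
    Adm a X (C.filter fun c => s < c) := by
  obtain ⟨k, t, z, hz, ht, rfl⟩ := h
  have hanti := box_strictAnti ha hz ht
  set F : Finset (Fin k) := Finset.univ.filter fun i => s < t i with hF
  have hk : F.card ≤ k := (Finset.card_le_univ F).trans_eq (Fintype.card_fin k)
  have hiff : ∀ i : Fin k, s < t i ↔ (i : ℕ) < F.card := by
    intro i
    constructor
    · intro hi
      have hsub : Finset.Iic i ⊆ F := fun j hj => Finset.mem_filter.2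
        ⟨Finset.mem_univ _, lt_of_lt_of_le hi (hanti.antitone (Finset.mem_Iic.1 hj))⟩
      have := Finset.card_le_card hsub
      rw [Fin.card_Iic] at this
      omega
    · intro hi
      by_contra hcon
      have hsub : F ⊆ Finset.Iio i := by
        intro j hj
        rw [Finset.mem_Iio]
        by_contra hji
        exact hcon (lt_of_lt_of_le (Finset.mem_filter.1 hj).2 (hanti.antitone (not_lt.1 hji)))
      have := Finset.card_le_card hsub
      rw [Fin.card_Iio] at this
      omega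
  refine ⟨F.card, fun i => t (Fin.castLE hk i), fun i => z (Fin.castLE hk i), ?_,
    fun i => ht _, ?_⟩
  · obtain ⟨hlo, hhi, hgap, htail, htop⟩ := hz
    have hnn : ∀ j, 0 ≤ z j := fun j => le_trans (by linarith) (hlo j)
    refine ⟨fun i => hlo _, fun i => hhi _, fun i j hij => hgap _ _ hij, fun i => ?_, ?_⟩
    · refine le_trans ?_ (htail (Fin.castLE hk i))
      unfold tailSum
      calc _ = ∑ j ∈ (Finset.univ.filter fun j : Fin F.card => i < j).map (Fin.castLEEmb hk),
            aCoef ((j : ℕ) - (i : ℕ)) * z j := by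
            rw [Finset.sum_map]
            rfl
        _ ≤ _ := by
            refine Finset.sum_le_sum_of_subset_of_nonneg ?_ fun j hj _ =>
              mul_nonneg (aCoef_nonneg ?_) (hnn j)
            · intro j hj
              obtain ⟨j', hj', rfl⟩ := Finset.mem_map.1 hj
              exact Finset.mem_filter.2 ⟨Finset.mem_univ _, (Finset.mem_filter.1 hj').2⟩
            · have := Fin.lt_def.1 (Finset.mem_filter.1 hj).2
              simp only [Fin.val_castLE] at this
              omega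
    · refine le_trans ?_ htop
      unfold topSum
      calc _ = ∑ j ∈ (Finset.univ : Finset (Fin F.card)).map (Fin.castLEEmb hk),
            aCoef ((j : ℕ) + 1) * z j := by
            rw [Finset.sum_map]
            rfl
        _ ≤ _ := Finset.sum_le_sum_of_subset_of_nonneg (Finset.subset_univ _) fun j _ _ =>
              mul_nonneg (aCoef_nonneg (by omega)) (hnn j)
  · ext c
    simp only [Finset.mem_filter, Finset.mem_image, Finset.mem_univ, true_and]
    constructor
    · rintro ⟨⟨i, rfl⟩, hc⟩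
      exact ⟨⟨i, (hiff i).1 hc⟩, rfl⟩
    · rintro ⟨i, rfl⟩
      exact ⟨⟨_, rfl⟩, (hiff _).2 i.isLt⟩

/-! ### Costs -/

theorem gfun_downclosed (M : Finset ℕ) (h : ∀ m ∈ M, ∀ m' ≤ m, m' ∈ M) :
    gfun (M.card + 1) = ∑ m ∈ M, aCoef (m + 1) := by
  rw [gfun_succ]
  refine (Finset.sum_congr ?_ fun _ _ => rfl).symm
  refine Finset.eq_of_subset_of_card_le ?_ (by simp)
  intro m hm
  rw [Finset.mem_range]
  have hsub : Finset.range (m + 1) ⊆ M := fun m' hm' =>
    h m hm m' (by rw [Finset.mem_range] at hm'; omega)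
  have := Finset.card_le_card hsub
  rw [Finset.card_range] at this
  omega

theorem gsum_le_weighted {k : ℕ} (t : Fin k → ℕ) (z : Fin k → ℝ) (hanti : Antitone t)
    (htz : ∀ i, (t i : ℝ) ≤ z i) (R : Multiset ℕ) (S T n0 : ℕ) (hS : 1 ≤ S)
    (hR : ∀ j ∈ Finset.Ico S T,
      rows R j ≤ (Finset.univ.filter fun i : Fin k => n0 ≤ (i : ℕ) ∧ j ≤ t i).card + 1) :
    gsum R S T ≤ ∑ i ∈ Finset.univ.filter (fun i : Fin k => n0 ≤ (i : ℕ)),
      aCoef ((i : ℕ) - n0 + 1) * z i := by
  have key : ∀ j, gfun ((Finset.univ.filter fun i : Fin k => n0 ≤ (i : ℕ) ∧ j ≤ t i).card + 1) =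
      ∑ i ∈ Finset.univ.filter (fun i : Fin k => n0 ≤ (i : ℕ) ∧ j ≤ t i),
        aCoef ((i : ℕ) - n0 + 1) := by
    intro j
    set E := Finset.univ.filter fun i : Fin k => n0 ≤ (i : ℕ) ∧ j ≤ t i with hE
    have hinj : Set.InjOn (fun i : Fin k => (i : ℕ) - n0) ↑E := by
      intro x hx y hy hxy
      have h1 := (Finset.mem_filter.1 hx).2.1
      have h2 := (Finset.mem_filter.1 hy).2.1
      simp only at hxy
      exact Fin.ext (by omega)
    rw [← Finset.card_image_of_injOn hinj, gfun_downclosed _ ?_, Finset.sum_image hinj]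
    intro m hm m' hm'
    obtain ⟨i, hi, rfl⟩ := Finset.mem_image.1 hm
    obtain ⟨h1, h2⟩ := (Finset.mem_filter.1 hi).2
    have hlt := i.isLt
    refine Finset.mem_image.2 ⟨⟨n0 + m', by omega⟩, Finset.mem_filter.2 ⟨Finset.mem_univ _,
      Nat.le_add_right _ _, h2.trans (hanti (Fin.le_def.2 ?_))⟩, ?_⟩
    · simp only
      omega
    · simp
  calc gsum R S T
      ≤ ∑ j ∈ Finset.Ico S T, ∑ i ∈ Finset.univ.filter (fun i : Fin k => n0 ≤ (i : ℕ)),
          if j ≤ t i then aCoef ((i : ℕ) - n0 + 1) else 0 := by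
        refine Finset.sum_le_sum fun j hj => ?_
        refine (gfun_mono (hR j hj)).trans (le_of_eq ?_)
        rw [key j, ← Finset.sum_filter, Finset.filter_filter]
    _ = ∑ i ∈ Finset.univ.filter (fun i : Fin k => n0 ≤ (i : ℕ)),
          (((Finset.Ico S T).filter fun j => j ≤ t i).card : ℝ) * aCoef ((i : ℕ) - n0 + 1) := by
        rw [Finset.sum_comm]
        refine Finset.sum_congr rfl fun i _ => ?_
        rw [← Finset.sum_filter, Finset.sum_const, nsmul_eq_mul]
    _ ≤ _ := by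
        refine Finset.sum_le_sum fun i _ => ?_
        rw [mul_comm]
        refine mul_le_mul_of_nonneg_left ?_ (aCoef_nonneg (by omega))
        refine le_trans ?_ (htz i)
        have hsub : (Finset.Ico S T).filter (fun j => j ≤ t i) ⊆ Finset.Icc 1 (t i) := by
          intro j hj
          simp only [Finset.mem_filter, Finset.mem_Ico] at hj
          simp only [Finset.mem_Icc]
          omega
        have := Finset.card_le_card hsub
        rw [Nat.card_Icc] at this
        exact_mod_cast (by omega : ((Finset.Ico S T).filter fun j => j ≤ t i).card ≤ t i)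

theorem Adm.top_cost {a X : ℝ} {C : Finset ℕ} (ha : 1 ≤ a) (h : Adm a X C)
    (A : Finset ℕ) (hinj : Set.InjOn cell ↑A) (hA : ∀ q ∈ A, cell q ∈ C) {S : ℕ} (hS : 1 ≤ S)
    (T : ℕ) : gsum (T ::ₘ A.val.map cell) S T ≤ X := by
  obtain ⟨k, t, z, hz, ht, rfl⟩ := h
  have hanti := (box_strictAnti ha hz ht).antitone
  refine (gsum_le_weighted t z hanti (fun i => (ht i).1) _ S T 0 hS ?_).trans ?_
  · intro j hj
    have hjT : j ≤ T := (Finset.mem_Ico.1 hj).2.le
    simp only [rows, Multiset.countP_cons_of_pos (p := fun t => j ≤ t) _ hjT]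
    rw [add_le_add_iff_right, Multiset.countP_map]
    change (A.filter fun q => j ≤ cell q).card ≤ _
    rw [← Finset.card_image_of_injOn (hinj.mono (Finset.coe_subset.2 (Finset.filter_subset _ _)))]
    refine le_trans (Finset.card_le_card ?_)
      (Finset.card_image_le (f := t))
    intro c hc
    obtain ⟨q, hq, rfl⟩ := Finset.mem_image.1 hc
    obtain ⟨hqA, hjq⟩ := Finset.mem_filter.1 hq
    obtain ⟨i, -, hi⟩ := Finset.mem_image.1 (hA q hqA)
    exact Finset.mem_image.2 ⟨i, Finset.mem_filter.2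
      ⟨Finset.mem_univ _, Nat.zero_le _, hi ▸ hjq⟩, hi⟩
  · refine le_trans (le_of_eq ?_) hz.2.2.2.2
    unfold topSum
    simp

theorem Adm.lev_cost {a X : ℝ} {C : Finset ℕ} (ha : 1 ≤ a) (h : Adm a X C)
    (A : Finset ℕ) (hinj : Set.InjOn cell ↑A) (hA : ∀ q ∈ A, cell q ∈ C) {s : ℕ}
    (hle : ∀ q ∈ A, cell q ≤ s) (hs : s ∈ C) {S : ℕ} (hS : 1 ≤ S) :
    gsum (A.val.map cell) S s ≤ (1 - eps s) * s := by
  obtain ⟨k, t, z, hz, ht, rfl⟩ := h
  obtain ⟨i0, -, hi0⟩ := Finset.mem_image.1 hs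
  have hsanti := box_strictAnti ha hz ht
  refine (gsum_le_weighted t z hsanti.antitone (fun i => (ht i).1) _ S s ((i0 : ℕ) + 1) hS
    ?_).trans ?_
  · intro j hj
    simp only [rows, Multiset.countP_map]
    change (A.filter fun q => j ≤ cell q).card ≤ _
    rw [← Finset.card_image_of_injOn (hinj.mono (Finset.coe_subset.2 (Finset.filter_subset _ _)))]
    refine le_trans (Finset.card_le_card (t := (insert i0 (Finset.univ.filter
      fun i : Fin k => (i0 : ℕ) + 1 ≤ (i : ℕ) ∧ j ≤ t i)).image t) ?_)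
      (Finset.card_image_le.trans (Finset.card_insert_le _ _))
    intro c hc
    obtain ⟨q, hq, rfl⟩ := Finset.mem_image.1 hc
    obtain ⟨hqA, hjq⟩ := Finset.mem_filter.1 hq
    obtain ⟨i, -, hi⟩ := Finset.mem_image.1 (hA q hqA)
    refine Finset.mem_image.2 ⟨i, Finset.mem_insert.2 ?_, hi⟩
    rcases eq_or_ne i i0 with h' | h'
    · exact Or.inl h'
    · refine Or.inr (Finset.mem_filter.2 ⟨Finset.mem_univ _, ?_, hi ▸ hjq⟩)
      by_contra hlt
      have hlt' : i < i0 := lt_of_le_of_ne (Fin.le_def.2 (by omega)) h'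
      have := hsanti hlt'
      have := hle q hqA
      omega
  · have hz1 : 1 ≤ z i0 := ha.trans (hz.1 i0)
    have hzs : (s : ℝ) ≤ z i0 ∧ z i0 < (s : ℝ) + 1 := hi0 ▸ ht i0
    have he : eps s ≤ z i0 ^ (-(1 : ℝ) / 8) :=
      Real.rpow_le_rpow_of_nonpos (by linarith) hzs.2.le (by norm_num)
    have hes : eps s * s ≤ z i0 ^ (-(1 : ℝ) / 8) * z i0 :=
      mul_le_mul he hzs.1 (Nat.cast_nonneg s) (Real.rpow_nonneg (by linarith) _)
    have h1 := one_le_rpow_mul_self hz1
    have htail := hz.2.2.2.1 i0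
    have heq : ∑ i ∈ Finset.univ.filter (fun i : Fin k => (i0 : ℕ) + 1 ≤ (i : ℕ)),
        aCoef ((i : ℕ) - ((i0 : ℕ) + 1) + 1) * z i = tailSum z i0 := by
      unfold tailSum
      refine Finset.sum_congr ?_ fun i hi => ?_
      · ext i
        simp only [Finset.mem_filter, Finset.mem_univ, true_and, Fin.lt_def]
        omega
      · have := Fin.lt_def.1 (Finset.mem_filter.1 hi).2
        rw [show (i : ℕ) - ((i0 : ℕ) + 1) + 1 = (i : ℕ) - (i0 : ℕ) by omega]
    rw [heq]
    nlinarith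

/-! ### Volume -/

theorem mMinus_le_card {a X : ℝ} (ha : 1 ≤ a) (K M : ℕ) (hM : X < M) :
    MMinus K a X ≤ (((Finset.range M).powerset.filter (Adm a X)).card : ℝ) := by
  let box : ∀ k : ℕ, (Fin k → ℕ) → Set (Fin k → ℝ) := fun k t =>
    Set.univ.pi fun i => Set.Ico (t i : ℝ) ((t i : ℝ) + 1)
  let W : ∀ k : ℕ, Finset (Fin k → ℕ) := fun k =>
    (Fintype.piFinset fun _ : Fin k => Finset.range M).filter fun t =>
      ∃ z ∈ PolyMinus k a X, ∀ i, (t i : ℝ) ≤ z i ∧ z i < (t i : ℝ) + 1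
  have hvol : ∀ k, (volume (PolyMinus k a X)).toReal ≤ ((W k).card : ℝ) := by
    intro k
    have hsub : PolyMinus k a X ⊆ ⋃ t ∈ W k, box k t := by
      intro z hz
      have hnn : ∀ i, 0 ≤ z i := fun i => le_trans (by linarith) (hz.1 i)
      have hbox : ∀ i, (⌊z i⌋₊ : ℝ) ≤ z i ∧ z i < (⌊z i⌋₊ : ℝ) + 1 := fun i =>
        ⟨Nat.floor_le (hnn i), Nat.lt_floor_add_one _⟩
      refine Set.mem_iUnion₂.2 ⟨fun i => ⌊z i⌋₊, ?_, fun i _ => hbox i⟩
      refine Finset.mem_filter.2 ⟨Fintype.mem_piFinset.2 fun i => Finset.mem_range.2 ?_,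
        z, hz, hbox⟩
      exact (Nat.floor_lt (hnn i)).2 (lt_of_le_of_lt (hz.2.1 i) hM)
    have h1 : volume (PolyMinus k a X) ≤ ((W k).card : ENNReal) := by
      refine ((measure_mono hsub).trans (measure_biUnion_finset_le _ _)).trans (le_of_eq ?_)
      have : ∀ t ∈ W k, volume (box k t) = 1 := fun t _ => by
        simp [box, Real.volume_pi_Ico]
      rw [Finset.sum_congr rfl this, Finset.sum_const, nsmul_eq_mul, mul_one]
    have h2 := ENNReal.toReal_mono (ENNReal.natCast_ne_top _) h1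
    rwa [ENNReal.toReal_natCast] at h2
  refine (Finset.sum_le_sum fun k _ => hvol k).trans ?_
  rw [← Nat.cast_sum, ← Finset.card_sigma, Nat.cast_le]
  refine Finset.card_le_card_of_injOn (fun x => Finset.univ.image x.2) ?_ ?_
  · rintro ⟨k, t⟩ hx
    obtain ⟨-, hx⟩ := Finset.mem_sigma.1 hx
    obtain ⟨hr, z, hz, ht⟩ := Finset.mem_filter.1 hx
    refine Finset.mem_filter.2 ⟨Finset.mem_powerset.2 ?_, k, t, z, hz, ht, rfl⟩
    intro c hc
    obtain ⟨i, -, rfl⟩ := Finset.mem_image.1 hc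
    exact Fintype.mem_piFinset.1 hr i
  · rintro ⟨k, t⟩ hx ⟨k', t'⟩ hx' heq
    obtain ⟨-, z, hz, ht⟩ := Finset.mem_filter.1 (Finset.mem_sigma.1 hx).2
    obtain ⟨-, z', hz', ht'⟩ := Finset.mem_filter.1 (Finset.mem_sigma.1 hx').2
    have hs := box_strictAnti ha hz ht
    have hs' := box_strictAnti ha hz' ht'
    have heq' : Finset.univ.image t = Finset.univ.image t' := heq
    have hk : k = k' := by
      have := congrArg Finset.card heq'
      simpa [Finset.card_image_of_injective _ hs.injective,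
        Finset.card_image_of_injective _ hs'.injective] using this
    subst hk
    have hcard : (Finset.univ.image t).card = k := by
      simp [Finset.card_image_of_injective _ hs.injective]
    have e1 := Finset.orderEmbOfFin_unique hcard
      (f := fun i => t i.rev) (fun i => by simp)
      (fun i j hij => hs (Fin.rev_lt_rev.2 hij))
    have e2 := Finset.orderEmbOfFin_unique hcard
      (f := fun i => t' i.rev) (fun i => by rw [heq']; simp)
      (fun i j hij => hs' (Fin.rev_lt_rev.2 hij))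
    have e3 : t = t' := by
      funext i
      simpa using congrFun (e1.trans e2.symm) i.rev
    rw [e3]

end P031.LowerM
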