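import Vale.Agent.P031.PairsCore

/-!
Two representations of one number by shifted primes with an admissible profile are rare: the
weighted form and the counting form.
-/

open Finset Filter

noncomputable section

namespace P031.PairCnt

open P031.Pairs

/-! ### Lines coming from primes -/

lemma dev_mono {s t : ℕ} (h : s ≤ t) : dev s ≤ dev t := by
  unfold dev
  exact Real.rpow_le_rpow (by positivity) (by exact_mod_cast Nat.add_le_add_right h 4)
    (by norm_num)

lemma dev_nonneg (t : ℕ) : 0 ≤ dev t := by unfold dev; positivity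

lemma cellsLe_pred {q : ℕ} (hq : q.Prime) : CellsLe (q - 1) (cell q) := by
  intro p hp
  have h1 := Nat.le_of_mem_primeFactors hp
  exact cell_mono (Nat.prime_of_mem_primeFactors hp).two_le (by omega)

lemma pend_of_normal {q : ℕ} (hq : q.Prime) (hn : Normal q) : Pend (cell q) (q - 1) := by
  have h1 := hq.one_lt
  refine ⟨by rwa [Nat.sub_add_cancel hq.one_le], hn.2, ?_⟩
  exact le_trans (by exact_mod_cast Nat.sub_le q 1) (lt_of_cell_le hq.two_le le_rfl).le

lemma ne_two_of_normal {q : ℕ} (hn : Normal q) : q ≠ 2 := by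
  rintro rfl
  have h := hn.2
  have e : maxPrime (2 - 1) = 0 := by simp [maxPrime]
  rw [e, Nat.cast_zero, Real.log_zero, mul_zero] at h
  linarith [Real.exp_pos (cell 2 : ℝ)]

lemma omegaSeg_eq_zero {n t S J : ℕ} (h : CellsLe n t) (ht : t < S) : omegaSeg n S J = 0 := by
  unfold omegaSeg
  refine sum_eq_zero fun p hp => ?_
  obtain ⟨h1, h2⟩ := mem_filter.1 hp
  have := h p h1
  omega

lemma omega_line {q : ℕ} (hq : q.Prime) (hn : Normal q) {top : ℕ} (ht : cell q ≤ top) (S J : ℕ) :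
    (omegaSeg (q - 1) S J : ℝ) ≤
      ((((Ico S J).filter fun j => j ≤ cell q).card : ℕ) : ℝ) + dev top := by
  set w := min J (cell q + 1) with hw
  have e1 : omegaSeg (q - 1) S J = omegaSeg (q - 1) S w := by
    unfold omegaSeg
    refine sum_congr (filter_congr fun p hp => ?_) fun _ _ => rfl
    have := cellsLe_pred hq p hp
    omega
  have e2 : (Ico S J).filter (fun j => j ≤ cell q) = Ico S w := by
    ext j
    simp only [mem_filter, mem_Ico]
    omega
  rw [e1, e2, Nat.card_Ico]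
  rcases lt_or_ge S w with h | h
  · have h2 := (abs_le.1 (hn.1 S w h (by omega))).2
    rw [Nat.cast_sub h.le]
    linarith [dev_mono ht]
  · have : omegaSeg (q - 1) S w = 0 := by
      unfold omegaSeg
      refine sum_eq_zero fun p hp => ?_
      obtain ⟨-, h2⟩ := mem_filter.1 hp
      omega
    rw [this, Nat.cast_zero]
    linarith [dev_nonneg top, Nat.cast_nonneg (α := ℝ) (w - S)]

lemma omega_lines {A : Finset ℕ} {top : ℕ} (hA : ∀ q ∈ A, q.Prime ∧ Normal q ∧ cell q ≤ top)
    (S J : ℕ) : (omegaSeg (∏ q ∈ A, (q - 1)) S J : ℝ) ≤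
      ∑ j ∈ Ico S J, (((A.filter fun q => j ≤ cell q).card : ℕ) : ℝ) + A.card * dev top := by
  rw [omegaSeg_prod A _ (fun q hq => by have := (hA q hq).1.one_lt; omega), Nat.cast_sum]
  refine (sum_le_sum fun q hq => omega_line (hA q hq).1 (hA q hq).2.1 (hA q hq).2.2 S J).trans ?_
  rw [sum_add_distrib, sum_const, nsmul_eq_mul]
  refine add_le_add (le_of_eq ?_) le_rfl
  simp only [card_filter, Nat.cast_sum]
  rw [sum_comm]

lemma cellsLe_totient_lowPart {n S : ℕ} (hn : n ≠ 0) :
    CellsLe (Nat.totient (lowPart n S)) (S - 1) := by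
  intro r hr
  have hrp := Nat.prime_of_mem_primeFactors hr
  have hd := Nat.dvd_of_mem_primeFactors hr
  rw [Nat.totient_eq_prod_factorization (lowPart_ne_zero n S), Finsupp.prod,
    Nat.support_factorization, primeFactors_lowPart hn] at hd
  obtain ⟨p, hp, hpd⟩ := (hrp.prime.dvd_finsetProd_iff _).1 hd
  obtain ⟨h1, h2⟩ := mem_filter.1 hp
  have hpp := Nat.prime_of_mem_primeFactors h1
  have hle : r ≤ p := by
    rcases (Nat.Prime.dvd_mul hrp).1 hpd with h | h
    · exact Nat.le_of_dvd hpp.pos (hrp.dvd_of_dvd_pow h)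
    · exact le_trans (Nat.le_of_dvd (by have := hpp.one_lt; omega) h) (Nat.sub_le p 1)
  have := cell_mono hrp.two_le hle
  omega

/-! ### Absorbing the error -/

lemma err_le {C M0 : ℝ} (hC : 0 < C) (hM0 : 2 ≤ M0) (k N H S : ℕ) {E0 Z c : ℝ} (hZ : 1 ≤ Z)
    (hc : 1 ≤ c) (hN : (N : ℝ) ≤ c * Z ^ 2) (hE : E0 ≤ c * Z ^ 77) (hE0 : 0 ≤ E0)
    (hS : (S : ℝ) ≤ Z ^ 75) (hl : Real.log ((H : ℝ) + 5) ≤ 100 * Z + 2) :
    err C M0 k N H S E0 ≤ c ^ 2 * (4 * M0 + 6 * C + 14 + 102 * ((k : ℝ) + 12)) * Z ^ 80 := by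
  have hN0 : (0 : ℝ) ≤ N := Nat.cast_nonneg N
  have hp : ∀ a : ℕ, a ≤ 80 → Z ^ a ≤ Z ^ 80 := fun a ha => pow_le_pow_right₀ hZ ha
  have hc2 : c ≤ c ^ 2 := by nlinarith
  have hcc : (0 : ℝ) ≤ c ^ 2 := sq_nonneg c
  have h1 : (N : ℝ) * E0 ≤ c ^ 2 * Z ^ 80 := by
    calc (N : ℝ) * E0 ≤ (c * Z ^ 2) * (c * Z ^ 77) := mul_le_mul hN hE hE0 (by positivity)
      _ = c ^ 2 * Z ^ 79 := by ring
      _ ≤ _ := mul_le_mul_of_nonneg_left (hp 79 (by norm_num)) hcc
  have hN2 : (N : ℝ) ^ 2 ≤ c ^ 2 * Z ^ 4 := by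
    calc (N : ℝ) ^ 2 ≤ (c * Z ^ 2) ^ 2 := pow_le_pow_left₀ hN0 hN 2
      _ = _ := by ring
  have h75 : (1 : ℝ) ≤ Z ^ 75 := one_le_pow₀ hZ
  have h2 : (N : ℝ) ^ 2 * (M0 * ((S : ℝ) + 3) + 2) ≤ c ^ 2 * (4 * M0 + 2) * Z ^ 80 := by
    calc (N : ℝ) ^ 2 * (M0 * ((S : ℝ) + 3) + 2)
        ≤ (c ^ 2 * Z ^ 4) * ((4 * M0 + 2) * Z ^ 75) :=
          mul_le_mul hN2 (by nlinarith) (by positivity) (by positivity)
      _ = c ^ 2 * (4 * M0 + 2) * Z ^ 79 := by ring
      _ ≤ _ := mul_le_mul_of_nonneg_left (hp 79 (by norm_num)) (by positivity)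
  have hN80 : (N : ℝ) ≤ c ^ 2 * Z ^ 80 :=
    hN.trans (mul_le_mul hc2 (hp 2 (by norm_num)) (by positivity) hcc)
  have hN80' : (N : ℝ) ^ 2 ≤ c ^ 2 * Z ^ 80 :=
    hN2.trans (mul_le_mul_of_nonneg_left (hp 4 (by norm_num)) hcc)
  have h3 : (N : ℝ) * (((k : ℝ) + 12) * Real.log ((H : ℝ) + 5)) ≤
      c ^ 2 * (102 * ((k : ℝ) + 12)) * Z ^ 80 := by
    calc (N : ℝ) * (((k : ℝ) + 12) * Real.log ((H : ℝ) + 5))
        ≤ (c * Z ^ 2) * (((k : ℝ) + 12) * (102 * Z)) :=
          mul_le_mul hN (mul_le_mul_of_nonneg_left (by linarith) (by positivity))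
            (mul_nonneg (by positivity)
              (Real.log_nonneg (by linarith [(Nat.cast_nonneg H : (0 : ℝ) ≤ H)]))) (by positivity)
      _ = c * (102 * ((k : ℝ) + 12)) * Z ^ 3 := by ring
      _ ≤ _ := mul_le_mul (mul_le_mul_of_nonneg_right hc2 (by positivity)) (hp 3 (by norm_num))
            (by positivity) (by positivity)
  unfold err
  nlinarith [mul_le_mul_of_nonneg_left hN80 hC.le]

lemma card_keys_le (K H : ℕ) :
    (((Fintype.piFinset fun _ : Fin K => range (H + 1)).card : ℕ) : ℝ) ≤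
      Real.exp ((K : ℝ) * Real.log ((H : ℝ) + 5)) := by
  rw [Fintype.card_piFinset, prod_const, card_univ, Fintype.card_fin, card_range,
    Real.exp_nat_mul, Real.exp_log (by positivity)]
  push_cast
  exact pow_le_pow_left₀ (by positivity) (by linarith) K

/-! ### The weighted form -/

theorem pairWeight (hs : SieveStatement) (hcell : CellStatement) : PairWeightStatement := by
  obtain ⟨C, hC, k, hSv⟩ := hs
  obtain ⟨M0, t0, hM0, hM⟩ := exists_mass hcell
  obtain ⟨t1, ht1, hlarge⟩ := exists_large_scale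
  set c0 : ℝ := (50000000 : ℝ) ^ 2 * (4 * M0 + 6 * C + 14 + 102 * ((k : ℝ) + 12)) +
    2 * 20000000 * 102 + 2 with hc0
  obtain ⟨T1, hT1⟩ := eventually_atTop.1 (eventually_slack c0)
  refine ⟨max T1 ((max t0 t1) ^ 2), fun s hs Q hQ => ?_⟩
  have hslack := hT1 s (le_trans (le_max_left _ _) hs)
  have hS : max t0 t1 ≤ cutoff s := Nat.le_sqrt'.2 (le_trans (le_max_right _ _) hs)
  set S := cutoff s with hSdef
  set K := Kmax s with hKdef
  have hS1 : 1 ≤ S := le_trans (le_trans ht1 (le_max_right _ _)) hS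
  have hSs : S ≤ s := Nat.sqrt_le_self s
  have hTS : s ≤ (S + 1) ^ 2 := (Nat.lt_succ_sqrt' s).le
  obtain ⟨hZ, hK, hdev, hcut, hsqrt, hlog⟩ := basic_bounds s
  set Z : ℝ := ((s : ℝ) + 6) ^ ((1 : ℝ) / 100) with hZdef
  -- lines
  set mk : Finset ℕ → Fin K → ℕ := fun A i => (slot A K i).elim 1 fun q => q - 1 with hmk
  set tk : Finset ℕ → Fin K → ℕ := fun A i => (slot A K i).elim 0 cell with htk
  set key : Finset ℕ × Finset ℕ → (Fin K → ℕ) × (Fin K → ℕ) := fun a => (tk a.1, tk a.2) with hkey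
  set Keys := (Fintype.piFinset fun _ : Fin K => range (s + 1)) ×ˢ
    (Fintype.piFinset fun _ : Fin K => range (s + 1)) with hKeys
  have hqs : ∀ a ∈ Q, ∀ q ∈ a.1 ∪ a.2, q.Prime ∧ Normal q ∧ cell q ≤ s :=
    fun a ha => (hQ a ha).2.1
  have htk_le : ∀ A : Finset ℕ, (∀ q ∈ A, cell q ≤ s) → ∀ i, tk A i ≤ s := by
    intro A hA i
    simp only [htk]
    cases h : slot A K i with
    | none => exact Nat.zero_le _
    | some q => exact hA q (slot_mem h)
  have hmaps : ∀ a ∈ Q, key a ∈ Keys := by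
    intro a ha
    simp only [hKeys, hkey, mem_product, Fintype.mem_piFinset, mem_range, Nat.lt_succ_iff]
    exact ⟨htk_le _ fun q hq => (hqs a ha q (mem_union_left _ hq)).2.2,
      htk_le _ fun q hq => (hqs a ha q (mem_union_right _ hq)).2.2⟩
  set E0 : ℝ := (K : ℝ) * dev s with hE0
  set B1 : ℝ := Real.exp (-eps s * s + S + err C M0 k (2 * K + 1) s S E0) with hB1
  have hfib : ∀ ky ∈ Keys,
      ∑ a ∈ Q with key a = ky, (((∏ q ∈ a.1, (q - 1) : ℕ) : ℝ))⁻¹ ≤ B1 := by
    intro ky _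
    set Qk := Q.filter fun a => key a = ky with hQk
    rcases Qk.eq_empty_or_nonempty with he | ⟨a0, ha0⟩
    · rw [he, sum_empty]; exact (Real.exp_pos _).le
    obtain ⟨ha0Q, ha0k⟩ := mem_filter.1 ha0
    have hrec : ∀ A : Finset ℕ, A.card ≤ K → (∀ q ∈ A, q.Prime ∧ Normal q) →
        ∀ q, q ∈ A ↔ q ≠ 2 ∧ ∃ i, mk A i + 1 = q := by
      intro A hA hAp q
      constructor
      · intro hq
        obtain ⟨i, hi⟩ := slot_surj hA hq
        exact ⟨ne_two_of_normal (hAp q hq).2, i,
          by simp only [hmk, hi, Option.elim_some]; have := (hAp q hq).1.one_lt; omega⟩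
      · rintro ⟨hq2, i, hi⟩
        cases h : slot A K i with
        | none => simp only [hmk, h, Option.elim_none] at hi; omega
        | some q' =>
          simp only [hmk, h, Option.elim_some] at hi
          have := (hAp q' (slot_mem h)).1.one_lt
          have e : q' = q := by omega
          exact e ▸ slot_mem h
    have hinj : Set.InjOn (fun a : Finset ℕ × Finset ℕ => (mk a.1, mk a.2)) Qk := by
      intro a ha b hb h
      simp only [Prod.mk.injEq] at h
      have ha' := (mem_filter.1 ha).1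
      have hb' := (mem_filter.1 hb).1
      refine Prod.ext (Finset.ext fun q => ?_) (Finset.ext fun q => ?_)
      · rw [hrec a.1 (hQ a ha').2.2.1 (fun q hq => ⟨(hqs a ha' q (mem_union_left _ hq)).1,
            (hqs a ha' q (mem_union_left _ hq)).2.1⟩) q,
          hrec b.1 (hQ b hb').2.2.1 (fun q hq => ⟨(hqs b hb' q (mem_union_left _ hq)).1,
            (hqs b hb' q (mem_union_left _ hq)).2.1⟩) q, h.1]
      · rw [hrec a.2 (hQ a ha').2.2.2.1 (fun q hq => ⟨(hqs a ha' q (mem_union_right _ hq)).1,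
            (hqs a ha' q (mem_union_right _ hq)).2.1⟩) q,
          hrec b.2 (hQ b hb').2.2.2.1 (fun q hq => ⟨(hqs b hb' q (mem_union_right _ hq)).1,
            (hqs b hb' q (mem_union_right _ hq)).2.1⟩) q, h.2]
    obtain ⟨-, hqs0, hc1, hc2, ⟨qs, hqs1, hqs2⟩, hgs, -⟩ := hQ a0 ha0Q
    have hky1 : ky.1 = tk a0.1 := by rw [← ha0k]
    have hky2 : ky.2 = tk a0.2 := by rw [← ha0k]
    have hr : ∀ j, S ≤ j → lines ky.1 j = (a0.1.filter fun q => j ≤ cell q).card := by
      intro j hj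
      rw [hky1]
      exact card_slot a0.1 hc1 cell (by omega)
    set PA := univ.filter (fun i => S ≤ ky.1 i) with hPA
    set PB := univ.filter (fun i => S ≤ ky.2 i) with hPB
    have hrpos : ∀ j, S ≤ j → j < s → 1 ≤ lines ky.1 j := by
      intro j h1 h2
      rw [hr j h1]
      exact card_pos.2 ⟨qs, mem_filter.2 ⟨hqs1, by omega⟩⟩
    have hval : ∀ a ∈ Qk, ∏ i, mk a.1 i = ∏ q ∈ a.1, (q - 1) := fun a ha =>
      prod_slot _ (hQ a (mem_filter.1 ha).1).2.2.1 _
    have hcore := core hSv hC hM0 hM hlarge (le_trans (le_max_left _ _) hS)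
      (le_trans (le_max_right _ _) hS) hSs le_rfl (Nat.le_add_right s 2) hTS ky.1 ky.2
      (fun i => by rw [hky1]; exact htk_le _ (fun q hq => (hqs0 q (mem_union_left _ hq)).2.2) i)
      (fun i => by rw [hky2]; exact htk_le _ (fun q hq => (hqs0 q (mem_union_right _ hq)).2.2) i)
      (N := 2 * K + 1) (by simp only [Fintype.card_fin]; omega) (by omega) hrpos PA PB
      (fun i hi => (mem_filter.1 hi).2) (fun i hi => (mem_filter.1 hi).2)
      (E0 := E0) (mul_nonneg (Nat.cast_nonneg _) (dev_nonneg _))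
      (Qk.image fun a => (mk a.1, mk a.2)) (by
        intro m hm
        obtain ⟨a, ha, rfl⟩ := mem_image.1 hm
        obtain ⟨haQ, hak⟩ := mem_filter.1 ha
        obtain ⟨hdisj, hq', hd1, hd2, -, -, heq⟩ := hQ a haQ
        have k1 : ky.1 = tk a.1 := by rw [← hak]
        have k2 : ky.2 = tk a.2 := by rw [← hak]
        have hline : ∀ A : Finset ℕ, (∀ q ∈ A, q.Prime ∧ Normal q) → ∀ i,
            (1 ≤ mk A i ∧ CellsLe (mk A i) (tk A i)) ∧
              (S ≤ tk A i → Pend (tk A i) (mk A i) ∧ ∃ q ∈ A, mk A i = q - 1) := by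
          intro A hA i
          simp only [hmk, htk]
          cases h : slot A K i with
          | none =>
            simp only [Option.elim_none]
            exact ⟨⟨le_rfl, by simp [CellsLe]⟩, fun h => absurd h (by omega)⟩
          | some q =>
            simp only [Option.elim_some]
            obtain ⟨hq, hn⟩ := hA q (slot_mem h)
            have := hq.one_lt
            exact ⟨⟨by omega, cellsLe_pred hq⟩,
              fun _ => ⟨pend_of_normal hq hn, q, slot_mem h, rfl⟩⟩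
        have hA := hline a.1 fun q hq => ⟨(hq' q (mem_union_left _ hq)).1,
          (hq' q (mem_union_left _ hq)).2.1⟩
        have hB := hline a.2 fun q hq => ⟨(hq' q (mem_union_right _ hq)).1,
          (hq' q (mem_union_right _ hq)).2.1⟩
        refine ⟨⟨fun i => ?_, fun i => ?_, ?_, fun i hi => ?_, fun i hi => ?_,
          fun i hi i' hi' => ?_⟩, fun J _ _ => ?_⟩
        · rw [k1]; exact (hA i).1
        · rw [k2]; exact (hB i).1
        · simp only [hmk]
          rw [prod_slot _ hd1, prod_slot _ hd2, heq]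
        · rw [k1]; exact ((hA i).2 (k1 ▸ (mem_filter.1 hi).2)).1
        · rw [k2]; exact ((hB i).2 (k2 ▸ (mem_filter.1 hi).2)).1
        · obtain ⟨q, hq, e⟩ := ((hA i).2 (k1 ▸ (mem_filter.1 hi).2)).2
          obtain ⟨q', hq'', e'⟩ := ((hB i').2 (k2 ▸ (mem_filter.1 hi').2)).2
          intro h
          simp only at h
          rw [e, e'] at h
          have := (hq' q (mem_union_left _ hq)).1.one_lt
          have := (hq' q' (mem_union_right _ hq'')).1.one_lt
          exact Finset.disjoint_left.1 hdisj hq ((show q = q' by omega) ▸ hq'')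
        · simp only
          rw [hval a ha]
          refine (omega_lines (fun q hq => hq' q (mem_union_left _ hq)) S J).trans ?_
          refine add_le_add (le_of_eq (sum_congr rfl fun j hj => ?_)) ?_
          · rw [k1]
            exact congrArg _ (card_slot a.1 hd1 cell (by simp at hj; omega)).symm
          · exact mul_le_mul_of_nonneg_right (by exact_mod_cast hd1) (dev_nonneg _))
    rw [sum_image hinj] at hcore
    refine le_trans (le_of_eq (sum_congr rfl fun a ha => ?_)) (hcore.trans ?_)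
    · rw [hval a ha]
    apply Real.exp_le_exp.2
    have hA' := sum_lines_le ky.1 hS1 hSs PA ∅
      (fun i hi _ => by simpa [hPA] using hi)
    have hB' := sum_lines_le ky.2 hS1 hSs PB ∅
      (fun i hi _ => by simpa [hPB] using hi)
    have hsum := sum_rlog_sub hSs (lines ky.1) hrpos
    rw [sum_sub_distrib] at hsum
    have hgeq : ∑ j ∈ Ico S s, gfun (lines ky.1 j) ≤ (1 - eps s) * s := by
      refine le_trans (le_of_eq ?_) hgs
      unfold gsum
      refine sum_congr rfl fun j hj => ?_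
      have hj' := (mem_Ico.1 hj).1
      congr 1
      rw [hr j hj', rows, Multiset.countP_map, ← Finset.filter_val, Finset.card_def,
        Finset.filter_filter]
      congr 2
      refine filter_congr fun q _ => ⟨fun h => ⟨le_trans hj' h, h⟩, fun h => h.2⟩
    simp only [card_empty, Nat.cast_zero, zero_mul, add_zero] at hA' hB'
    linarith
  rw [← sum_fiberwise_of_maps_to hmaps]
  refine (sum_le_sum hfib).trans ?_
  rw [sum_const, nsmul_eq_mul, hKeys, card_product, Nat.cast_mul]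
  refine (mul_le_mul_of_nonneg_right (mul_le_mul (card_keys_le K s) (card_keys_le K s)
    (Nat.cast_nonneg _) (Real.exp_pos _).le) (Real.exp_pos _).le).trans ?_
  rw [← Real.exp_add, ← Real.exp_add]
  apply Real.exp_le_exp.2
  have hls : Real.log ((s : ℝ) + 5) ≤ 100 * Z + 2 := by
    refine le_trans ?_ hlog
    push_cast
    exact Real.log_le_log (by positivity) (by linarith)
  have hZ2 : (1 : ℝ) ≤ Z ^ 2 := one_le_pow₀ hZ
  have herr := err_le hC hM0 k (2 * K + 1) s S (E0 := E0) hZ (c := 50000000) (by norm_num)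
    (by push_cast; linarith) (by
      rw [hE0]
      calc (K : ℝ) * dev s ≤ (20000000 * Z ^ 2) * Z ^ 75 :=
            mul_le_mul hK ((dev_mono (Nat.le_add_right s 2)).trans hdev) (dev_nonneg _)
              (by positivity)
        _ = 20000000 * Z ^ 77 := by ring
        _ ≤ _ := mul_le_mul_of_nonneg_right (by norm_num) (by positivity))
    (mul_nonneg (Nat.cast_nonneg _) (dev_nonneg _)) hcut hls
  have hk2 : (K : ℝ) * Real.log ((s : ℝ) + 5) ≤ 20000000 * 102 * Z ^ 80 := by
    calc (K : ℝ) * Real.log ((s : ℝ) + 5) ≤ (20000000 * Z ^ 2) * (102 * Z) :=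
          mul_le_mul hK (by linarith)
            (Real.log_nonneg (by linarith [(Nat.cast_nonneg s : (0 : ℝ) ≤ s)])) (by positivity)
      _ = 20000000 * 102 * Z ^ 3 := by ring
      _ ≤ _ := mul_le_mul_of_nonneg_left (pow_le_pow_right₀ hZ (by norm_num)) (by norm_num)
  have h75 : Z ^ 75 ≤ Z ^ 80 := pow_le_pow_right₀ hZ (by norm_num)
  rw [hc0] at hslack
  nlinarith

/-! ### The counting form -/

/-- Lines of the cofactor together with the line of the large prime. -/
def bigT {K : ℕ} (H low : ℕ) (a : Fin K → ℕ) : Option (Option (Fin K)) → ℕ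
  | none => H
  | some none => low
  | some (some i) => a i

/-- The values of the lines of a representation `(p - 1) * φ n`. -/
def bigM {K : ℕ} (p low : ℕ) (A : Finset ℕ) : Option (Option (Fin K)) → ℕ
  | none => p - 1
  | some none => low
  | some (some i) => (slot A K i).elim 1 fun q => q - 1

lemma lines_bigT {K : ℕ} {H low j : ℕ} (a : Fin K → ℕ) (hH : j ≤ H) (hlow : low < j) :
    lines (bigT H low a) j = 1 + lines a j := by
  rw [lines, lines, card_filter, card_filter, Fintype.sum_option, Fintype.sum_option]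
  rw [if_pos (show j ≤ bigT H low a none from hH),
    if_neg (show ¬ j ≤ bigT H low a (some none) from not_le.2 hlow), zero_add]
  rfl

lemma prod_bigM {K p low : ℕ} {A : Finset ℕ} (hA : A.card ≤ K) :
    ∏ x, bigM (K := K) p low A x = (p - 1) * (low * ∏ q ∈ A, (q - 1)) := by
  simp only [Fintype.prod_option, bigM, prod_slot A hA]

/-- The scales that carry pending lines after the first step. -/
def bigP {K : ℕ} (H low S : ℕ) (a : Fin K → ℕ) : Finset (Option (Option (Fin K))) :=
  univ.filter fun x => x ≠ none ∧ S ≤ bigT H low a x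

/-- What is known about the configuration of a pair at level `T`. -/
structure CountConf {α β : Type} [Fintype α] [Fintype β] (tA : Option α → ℕ) (tB : Option β → ℕ)
    (PA : Finset (Option α)) (PB : Finset (Option β)) (S T : ℕ) (E0 Y U : ℝ)
    (m : (Option α → ℕ) × (Option β → ℕ)) : Prop where
  conf : Conf tA tB PA PB m
  bound : ((∏ x, m.1 x : ℕ) : ℝ) ≤ Y
  primeA : (m.1 none + 1).Prime
  primeB : (m.2 none + 1).Prime
  ne : m.1 none ≠ m.2 none
  same : maxPrime (m.1 none) = maxPrime (m.2 none)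
  large : U ≤ Real.log (maxPrime (m.1 none))
  omega : ∀ J, S ≤ J → J ≤ T →
    (omegaSeg (∏ x, m.1 x) S J : ℝ) ≤ ∑ j ∈ Ico S J, (lines tA j : ℝ) + E0

/-- The number of configurations of given scales, by removing the largest prime first. -/
lemma count_key {α β : Type} [Fintype α] [Fintype β] [DecidableEq α] [DecidableEq β]
    {C : ℝ} {k : ℕ} (hSv : SieveBound C k) (hC : 0 < C) {S T H : ℕ}
    (tA : Option α → ℕ) (tB : Option β → ℕ) (PA : Finset (Option α)) (PB : Finset (Option β))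
    (hnA : none ∉ PA) (hnB : none ∉ PB) {E0 Y U W : ℝ} (hU : 2 ≤ U)
    (hY : Real.log Y ≤ Real.exp ((H : ℝ) + 1))
    (hW : ∀ Q' : Finset ((Option α → ℕ) × (Option β → ℕ)),
      (∀ m ∈ Q', Conf tA tB PA PB m ∧ ∀ J, S ≤ J → J ≤ T →
        (omegaSeg (∏ x, m.1 x) S J : ℝ) ≤ ∑ j ∈ Ico S J, (lines tA j : ℝ) + E0) →
      ∑ m ∈ Q', ((∏ x, m.1 x : ℕ) : ℝ)⁻¹ ≤ W)
    (Q : Finset ((Option α → ℕ) × (Option β → ℕ)))
    (hQ : ∀ m ∈ Q, CountConf tA tB PA PB S T E0 Y U m) (hY0 : 0 ≤ Y) :
    (Q.card : ℝ) ≤ C * Y * ((H : ℝ) + 5) ^ k / U ^ 3 * W := by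
  classical
  set ψ : (Option α → ℕ) × (Option β → ℕ) → (Option α → ℕ) × (Option β → ℕ) := fun m =>
    (Function.update m.1 none (m.1 none / maxPrime (m.1 none)),
      Function.update m.2 none (m.2 none / maxPrime (m.1 none))) with hψ
  have hdata : ∀ m ∈ Q, (maxPrime (m.1 none)).Prime ∧ maxPrime (m.1 none) ∣ m.1 none ∧
      maxPrime (m.1 none) ∣ m.2 none ∧
      ∏ x, m.1 x = maxPrime (m.1 none) * ∏ x, (ψ m).1 x ∧
      (Conf tA tB PA PB (ψ m) ∧ ∀ J, S ≤ J → J ≤ T →
        (omegaSeg (∏ x, (ψ m).1 x) S J : ℝ) ≤ ∑ j ∈ Ico S J, (lines tA j : ℝ) + E0) := by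
    intro m hm
    have h := hQ m hm
    obtain ⟨hA, hB, heq, hPA, hPB, hne⟩ := h.conf
    have hpos : 0 < maxPrime (m.1 none) := by
      refine Nat.pos_of_ne_zero fun h0 => ?_
      have := h.large
      rw [h0, Nat.cast_zero, Real.log_zero] at this
      linarith
    have hm1 := maxPrime_mem hpos
    have hp := Nat.prime_of_mem_primeFactors hm1
    have hd1 := Nat.dvd_of_mem_primeFactors hm1
    have hd2 : maxPrime (m.1 none) ∣ m.2 none := by
      rw [h.same]
      exact Nat.dvd_of_mem_primeFactors (maxPrime_mem (h.same ▸ hpos))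
    have e1 := prod_update_mul m.1 none hd1
    have e2 := prod_update_mul m.2 none hd2
    refine ⟨hp, hd1, hd2, e1.symm, ⟨?_, ?_, ?_, ?_, ?_, ?_⟩, ?_⟩
    · intro x
      by_cases hx : x = none
      · subst hx
        simp only [hψ, Function.update_self]
        exact ⟨Nat.div_pos (Nat.le_of_dvd (hA none).1 hd1) hp.pos,
          cellsLe_of_dvd (hA none).2 (Nat.div_dvd_of_dvd hd1) (by have := (hA none).1; omega)⟩
      · simp only [hψ, Function.update_of_ne hx]; exact hA x
    · intro x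
      by_cases hx : x = none
      · subst hx
        simp only [hψ, Function.update_self]
        exact ⟨Nat.div_pos (Nat.le_of_dvd (hB none).1 hd2) hp.pos,
          cellsLe_of_dvd (hB none).2 (Nat.div_dvd_of_dvd hd2) (by have := (hB none).1; omega)⟩
      · simp only [hψ, Function.update_of_ne hx]; exact hB x
    · exact Nat.eq_of_mul_eq_mul_left hp.pos (e1.trans (heq.trans e2.symm))
    · intro x hx
      simp only [hψ, Function.update_of_ne (fun e : x = none => hnA (e ▸ hx))]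
      exact hPA x hx
    · intro x hx
      simp only [hψ, Function.update_of_ne (fun e : x = none => hnB (e ▸ hx))]
      exact hPB x hx
    · intro x hx x' hx'
      simp only [hψ, Function.update_of_ne (fun e : x = none => hnA (e ▸ hx)),
        Function.update_of_ne (fun e : x' = none => hnB (e ▸ hx'))]
      exact hne x hx x' hx'
    · intro J hJ hJT
      refine le_trans ?_ (h.omega J hJ hJT)
      exact_mod_cast omegaSeg_mono_dvd (Dvd.intro_left _ e1) (prod_pos fun x _ => (hA x).1) S J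
  have hfib : ∀ m' ∈ Q.image ψ, ((Q.filter fun m => ψ m = m').card : ℝ) ≤
      C * Y * ((H : ℝ) + 5) ^ k / U ^ 3 * ((∏ x, m'.1 x : ℕ) : ℝ)⁻¹ := by
    intro m' hm'
    set Qm := Q.filter fun m => ψ m = m' with hQm
    have hmem : ∀ m ∈ Qm, m ∈ Q ∧ ψ m = m' := fun m hm => Finset.mem_filter.1 hm
    have hval : ∀ m ∈ Qm, m.1 none = m'.1 none * maxPrime (m.1 none) ∧
        m.2 none = m'.2 none * maxPrime (m.1 none) := by
      intro m hm
      obtain ⟨h1, rfl⟩ := hmem m hm
      simp only [hψ, Function.update_self]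
      exact ⟨(Nat.div_mul_cancel (hdata m h1).2.1).symm,
        (Nat.div_mul_cancel (hdata m h1).2.2.1).symm⟩
    have hinj : Set.InjOn (fun m : (Option α → ℕ) × (Option β → ℕ) => maxPrime (m.1 none)) Qm := by
      intro m hm n hn he
      simp only at he
      have hp : ψ m = ψ n := (hmem m hm).2.trans (hmem n hn).2.symm
      simp only [hψ, Prod.ext_iff] at hp
      refine Prod.ext (funext fun x => ?_) (funext fun x => ?_)
      · by_cases hx : x = none
        · subst hx; rw [(hval m hm).1, (hval n hn).1, he]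
        · have := congrFun hp.1 x
          rwa [Function.update_of_ne hx, Function.update_of_ne hx] at this
      · by_cases hx : x = none
        · subst hx; rw [(hval m hm).2, (hval n hn).2, he]
        · have := congrFun hp.2 x
          rwa [Function.update_of_ne hx, Function.update_of_ne hx] at this
    rw [← card_image_of_injOn hinj]
    set L := Qm.image (fun m => maxPrime (m.1 none)) with hLdef
    obtain ⟨m0, hm0, rfl⟩ := mem_image.1 hm'
    obtain ⟨hp0, hd0, hd0', he0, hc0, -⟩ := hdata m0 hm0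
    set v' := ∏ x, (ψ m0).1 x with hv'
    have hv'pos : 0 < v' := prod_pos fun x _ => (hc0.1 x).1
    have hv'r : (1 : ℝ) ≤ v' := by exact_mod_cast hv'pos
    have ha1 : 1 ≤ (ψ m0).1 none := (hc0.1 none).1
    have hb1 : 1 ≤ (ψ m0).2 none := (hc0.2.1 none).1
    set X : ℝ := Y / v' with hX
    have hLX : ∀ l ∈ L, l.Prime ∧ Real.exp U ≤ (l : ℝ) ∧ (l : ℝ) ≤ X := by
      intro l hl
      obtain ⟨m, hm, rfl⟩ := mem_image.1 hl
      obtain ⟨h1, h2⟩ := hmem m hm
      obtain ⟨hp, -, -, he, -⟩ := hdata m h1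
      refine ⟨hp, (Real.le_log_iff_exp_le (by exact_mod_cast hp.pos)).1 (hQ m h1).large, ?_⟩
      rw [hX, le_div_iff₀ (by linarith), hv', ← h2]
      exact le_trans (le_of_eq (by rw [he]; push_cast; ring)) (hQ m h1).bound
    have hmul : ∀ (n : ℕ), n ≤ v' → 1 ≤ n → Real.log (n : ℝ) ≤ Real.exp ((H : ℝ) + 1) := by
      intro n hn hn1
      refine le_trans (Real.log_le_log (by exact_mod_cast hn1) ?_) hY
      refine le_trans ?_ (hQ m0 hm0).bound
      rw [he0]
      exact_mod_cast hn.trans (Nat.le_mul_of_pos_left v' hp0.pos)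
    rcases L.eq_empty_or_nonempty with hL0 | ⟨l0, hl0⟩
    · rw [hL0]; simp only [card_empty, Nat.cast_zero]; positivity
    have hY3 : (3 : ℝ) ≤ Real.exp U := by
      rw [← Real.log_le_iff_le_exp (by norm_num)]
      linarith [log_three_le_two]
    have hX1 : (1 : ℝ) ≤ X :=
      le_trans (by linarith) (le_trans (hLX l0 hl0).2.1 (hLX l0 hl0).2.2)
    have hYX : Real.exp U ≤ X := le_trans (hLX l0 hl0).2.1 (hLX l0 hl0).2.2
    obtain ⟨-, h3⟩ := hSv X (Real.exp U) hY3 hYX L hLX
    have hab : (ψ m0).1 none ≠ (ψ m0).2 none := by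
      intro he
      simp only [hψ, Function.update_self] at he
      apply (hQ m0 hm0).ne
      rw [← Nat.div_mul_cancel hd0, ← Nat.div_mul_cancel hd0', he]
    have hpr : ∀ l ∈ L, ((ψ m0).1 none * l + 1).Prime ∧ ((ψ m0).2 none * l + 1).Prime := by
      intro l hl
      obtain ⟨m, hm, rfl⟩ := mem_image.1 hl
      obtain ⟨h1, h2⟩ := hmem m hm
      rw [← (hval m hm).1, ← (hval m hm).2]
      exact ⟨(hQ m h1).primeA, (hQ m h1).primeB⟩
    refine le_trans (h3 _ _ ha1 hb1 hab hpr).1 ?_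
    rw [Real.log_exp]
    obtain ⟨hll0, hll⟩ := llg_le (H := H) (z := X * (ψ m0).1 none * (ψ m0).2 none)
      (one_le_mul_of_one_le_of_one_le (one_le_mul_of_one_le_of_one_le hX1
        (by exact_mod_cast ha1)) (by exact_mod_cast hb1)) (by
      rw [Real.log_mul (by positivity) (by positivity), Real.log_mul (by positivity) (by positivity)]
      have e1 : Real.log X ≤ Real.exp ((H : ℝ) + 1) :=
        le_trans (Real.log_le_log (by linarith) (div_le_self hY0 hv'r)) hY
      have e2 := hmul _ (Nat.le_of_dvd hv'pos (dvd_prod_of_mem _ (mem_univ none))) ha1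
      have e3 := hmul _ (Nat.le_of_dvd hv'pos
        (by rw [hv', hc0.2.2.1]; exact dvd_prod_of_mem _ (mem_univ none))) hb1
      linarith)
    calc C * X * llg (X * (ψ m0).1 none * (ψ m0).2 none) ^ k / U ^ 3
        ≤ C * X * ((H : ℝ) + 5) ^ k / U ^ 3 :=
          div_le_div_of_nonneg_right (mul_le_mul_of_nonneg_left (pow_le_pow_left₀ hll0 hll k)
            (by positivity)) (by positivity)
      _ = _ := by rw [hX]; ring
  have hcard : (Q.card : ℝ) = ∑ m' ∈ Q.image ψ, ((Q.filter fun m => ψ m = m').card : ℝ) := by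
    exact_mod_cast Finset.card_eq_sum_card_image ψ Q
  rw [hcard]
  refine (sum_le_sum hfib).trans ?_
  rw [← mul_sum]
  refine mul_le_mul_of_nonneg_left (hW _ fun m' hm' => ?_) (by positivity)
  obtain ⟨m, hm, rfl⟩ := mem_image.1 hm'
  exact (hdata m hm).2.2.2.2

/-- The elementary inequalities between the parameters at a large level. -/
structure Params (T S K : ℕ) : Prop where
  four : 4 ≤ T
  cut : 4 * (S : ℝ) + 6 ≤ T
  half : eps T ≤ 1 / 2
  slack : (K : ℝ) + 4 * Real.log ((T : ℝ) + 3) + 4 ≤ eps T * T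
  poly : 2 * ((T : ℝ) + 1) ^ 4 ≤ Real.exp T

/-- The scales of the large prime and of its own largest prime. -/
lemma large_prime {T S K : ℕ} (hp : Params T S K) {y : ℝ} (hy : InRange T y) {v p n : ℕ}
    (hv : y / Real.log y ^ 2 < v) (hvy : (v : ℝ) ≤ y) (hpp : p.Prime) (hpn : Normal p)
    (hn : n ≠ 0) (hsq : ∀ q ∈ high n S, ¬ q ^ 2 ∣ n) (hcard : (high n S).card ≤ K)
    (hlow : Real.log (lowPart n S) ≤ Real.exp (2 * (S : ℝ)))
    (hcell : ∀ q ∈ n.primeFactors, (cell q : ℝ) ≤ (1 - eps T) * T)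
    (hve : v = (p - 1) * Nat.totient n) :
    cell p ≤ T + 2 ∧ T - 1 ≤ cell p ∧
      Real.exp ((T : ℝ) - 1) / ((T : ℝ) + 3) ^ 4 ≤ Real.log (maxPrime (p - 1)) ∧
      (1 - eps T) * T < cell (maxPrime (p - 1)) ∧ S ≤ cell (maxPrime (p - 1)) := by
  have hT4 : (4 : ℝ) ≤ T := by exact_mod_cast hp.four
  set X0 : ℝ := (1 - eps T) * T with hX0
  have hX0S : (S : ℝ) ≤ X0 := by
    have := hp.cut
    have := mul_le_mul_of_nonneg_right hp.half (Nat.cast_nonneg T)
    rw [hX0]
    linarith [(Nat.cast_nonneg S : (0 : ℝ) ≤ S)]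
  have hp1 := hpp.two_le
  have hphi : 0 < Nat.totient n := Nat.totient_pos.2 (Nat.pos_of_ne_zero hn)
  have hy0 : (1 : ℝ) < y := lt_of_lt_of_le (Real.one_lt_exp_iff.2 (Real.exp_pos _)) hy.1
  have hly : Real.exp (T : ℝ) ≤ Real.log y := (Real.le_log_iff_exp_le (by linarith)).2 hy.1
  have hly' : Real.log y < Real.exp ((T : ℝ) + 2) :=
    (Real.log_lt_iff_lt_exp (by linarith)).2 hy.2
  have hpy : (p : ℝ) ≤ y + 1 := by
    have h : p - 1 ≤ v := hve ▸ Nat.le_mul_of_pos_right _ hphi
    have h' : (p : ℝ) ≤ (v : ℝ) + 1 := by exact_mod_cast (by omega : p ≤ v + 1)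
    linarith
  have hp2 : (1 : ℝ) < p := by exact_mod_cast hpp.one_lt
  have hlp : 0 < Real.log (p : ℝ) := Real.log_pos hp2
  have hub : cell p ≤ T + 2 := by
    have hlt : Real.log (Real.log (p : ℝ)) < ((T + 2 + 1 : ℕ) : ℝ) := by
      rw [Real.log_lt_iff_lt_exp hlp, Real.log_lt_iff_lt_exp (by linarith)]
      refine lt_of_le_of_lt hpy ?_
      push_cast
      have h1 : y + 1 < 2 * Real.exp (Real.exp ((T : ℝ) + 2)) := by linarith [hy.2]
      refine lt_of_lt_of_le h1 ?_
      have h2 : (2 : ℝ) ≤ Real.exp 1 := by linarith [Real.add_one_le_exp (1 : ℝ)]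
      calc 2 * Real.exp (Real.exp ((T : ℝ) + 2))
          ≤ Real.exp 1 * Real.exp (Real.exp ((T : ℝ) + 2)) :=
            mul_le_mul_of_nonneg_right h2 (Real.exp_pos _).le
        _ ≤ _ := by
          rw [← Real.exp_add]
          apply Real.exp_le_exp.2
          have e : Real.exp ((T : ℝ) + 2 + 1) = Real.exp ((T : ℝ) + 2) * Real.exp 1 :=
            Real.exp_add _ _
          have := Real.one_le_exp (by linarith : (0 : ℝ) ≤ (T : ℝ) + 2)
          rw [e]
          nlinarith
    have := (Nat.floor_lt' (by omega : T + 2 + 1 ≠ 0)).2 hlt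
    unfold cell
    omega
  -- the logarithm of the cofactor
  have hw : Real.log (Nat.totient n) ≤
      (K : ℝ) * Real.exp (X0 + 1) + Real.exp (2 * (S : ℝ)) := by
    have hl0 := lowPart_ne_zero n S
    rw [totient_split hn S hsq, Nat.cast_mul, Real.log_mul, Nat.cast_prod, Real.log_prod]
    · refine add_le_add ((sum_le_sum (g := fun _ => Real.exp (X0 + 1)) fun q hq => ?_).trans ?_)
        (le_trans ?_ hlow)
      · show Real.log (((q - 1 : ℕ)) : ℝ) ≤ (fun _ : ℕ => Real.exp (X0 + 1)) q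
        have hq' := (mem_filter.1 hq).1
        have hqp := Nat.prime_of_mem_primeFactors hq'
        calc Real.log ((q - 1 : ℕ) : ℝ) ≤ Real.log q :=
              Real.log_le_log (by exact_mod_cast (by have := hqp.two_le; omega : 0 < q - 1))
                (by exact_mod_cast Nat.sub_le q 1)
          _ ≤ Real.exp ((cell q : ℝ) + 1) := (log_lt_of_cell_le hqp.two_le le_rfl).le
          _ ≤ _ := Real.exp_le_exp.2 (by linarith [hcell q hq'])
      · rw [sum_const, nsmul_eq_mul]
        exact mul_le_mul_of_nonneg_right (by exact_mod_cast hcard) (Real.exp_pos _).le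
      · exact Real.log_le_log (by exact_mod_cast Nat.totient_pos.2 (Nat.pos_of_ne_zero hl0))
          (by exact_mod_cast Nat.totient_le _)
    · intro q hq
      have := (Nat.prime_of_mem_primeFactors (mem_filter.1 hq).1).two_le
      exact_mod_cast (by omega : q - 1 ≠ 0)
    · have : ∏ q ∈ high n S, (q - 1) ≠ 0 := prod_ne_zero_iff.2 fun q hq => by
        have := (Nat.prime_of_mem_primeFactors (mem_filter.1 hq).1).two_le
        omega
      exact_mod_cast this
    · exact_mod_cast (Nat.totient_pos.2 (Nat.pos_of_ne_zero hl0)).ne'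
  -- the logarithm of the prime
  have hlv : Real.exp (T : ℝ) - 2 * ((T : ℝ) + 2) ≤ Real.log v := by
    have hl1 : 0 < Real.log y := lt_of_lt_of_le (Real.exp_pos _) hly
    have h := Real.log_lt_log (by positivity) hv
    rw [Real.log_div (by linarith) (by positivity), Real.log_pow] at h
    have : Real.log (Real.log y) ≤ (T : ℝ) + 2 := (Real.log_le_iff_le_exp hl1).2 hly'.le
    push_cast at h
    linarith
  have hlv' : Real.log v ≤ Real.log p + Real.log (Nat.totient n) := by
    rw [hve, Nat.cast_mul, Real.log_mul]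
    · exact add_le_add (Real.log_le_log (by exact_mod_cast (by omega : 0 < p - 1))
        (by exact_mod_cast Nat.sub_le p 1)) le_rfl
    · exact_mod_cast (by omega : p - 1 ≠ 0)
    · exact_mod_cast hphi.ne'
  have hlpT : Real.exp ((T : ℝ) - 1) ≤ Real.log p := by
    have h2T : 2 * ((T : ℝ) + 2) ≤ Real.exp (T : ℝ) / 8 := by
      have h25 : (125 : ℝ) ≤ ((T : ℝ) + 1) ^ 3 := by
        calc (125 : ℝ) = 5 ^ 3 := by norm_num
          _ ≤ _ := pow_le_pow_left₀ (by norm_num) (by linarith) 3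
      have h4 : ((T : ℝ) + 1) ^ 4 = ((T : ℝ) + 1) ^ 3 * ((T : ℝ) + 1) := by ring
      nlinarith [hp.poly, mul_le_mul_of_nonneg_right h25 (by linarith : (0 : ℝ) ≤ (T : ℝ) + 1)]
    have hKb : (K : ℝ) * Real.exp (X0 + 1) ≤ Real.exp (T : ℝ) / 8 := by
      have h1 : X0 + 1 + ((K : ℝ) + 3) ≤ T := by
        rw [hX0]
        linarith [hp.slack, Real.log_nonneg (by linarith : (1 : ℝ) ≤ (T : ℝ) + 3)]
      have h2 := Real.exp_le_exp.2 h1
      rw [Real.exp_add (X0 + 1), Real.exp_add (K : ℝ)] at h2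
      have h3 : (8 : ℝ) ≤ Real.exp 3 := by
        have := Real.quadratic_le_exp_of_nonneg (by norm_num : (0 : ℝ) ≤ 3)
        linarith
      have h4 : (K : ℝ) * 8 ≤ Real.exp K * Real.exp 3 :=
        mul_le_mul (by linarith [Real.add_one_le_exp (K : ℝ)]) h3 (by norm_num) (Real.exp_pos _).le
      nlinarith [mul_le_mul_of_nonneg_left h4 (Real.exp_pos (X0 + 1)).le]
    have hSb : Real.exp (2 * (S : ℝ)) ≤ Real.exp (T : ℝ) / 8 := by
      have h2 := Real.exp_le_exp.2 (by linarith [hp.cut, (Nat.cast_nonneg S : (0 : ℝ) ≤ S)] :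
        2 * (S : ℝ) + 3 ≤ T)
      rw [Real.exp_add] at h2
      have h3 : (8 : ℝ) ≤ Real.exp 3 := by
        have := Real.quadratic_le_exp_of_nonneg (by norm_num : (0 : ℝ) ≤ 3)
        linarith
      nlinarith [mul_le_mul_of_nonneg_left h3 (Real.exp_pos (2 * (S : ℝ))).le]
    have he1 : Real.exp ((T : ℝ) - 1) ≤ Real.exp (T : ℝ) / 2 := by
      rw [Real.exp_sub]
      exact div_le_div_of_nonneg_left (Real.exp_pos _).le (by norm_num)
        (by linarith [Real.add_one_le_exp (1 : ℝ)])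
    linarith
  have hlb : T - 1 ≤ cell p := by
    refine Nat.le_floor ?_
    rw [Nat.cast_sub (by linarith [hp.four] : 1 ≤ T), Nat.cast_one]
    exact (Real.le_log_iff_exp_le hlp).2 hlpT
  have hpend := pend_of_normal hpp hpn
  have hl := exp_large_of_pend hpend
  have hU : Real.exp ((T : ℝ) - 1) / ((T : ℝ) + 3) ^ 4 ≤ Real.log (maxPrime (p - 1)) := by
    refine le_trans ?_ hl
    have h1 : (T : ℝ) - 1 ≤ cell p := by
      have h := (Nat.cast_le (α := ℝ)).2 hlb
      rwa [Nat.cast_sub (by linarith [hp.four] : 1 ≤ T), Nat.cast_one] at h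
    have h2 : (cell p : ℝ) ≤ T + 2 := by exact_mod_cast hub
    exact div_le_div₀ (Real.exp_pos _).le (Real.exp_le_exp.2 h1) (by positivity)
      (pow_le_pow_left₀ (by positivity) (by linarith) 4)
  have hcl : X0 < cell (maxPrime (p - 1)) := by
    have h := Real.log_le_log (by positivity) hU
    rw [Real.log_div (Real.exp_pos _).ne' (by positivity), Real.log_exp, Real.log_pow] at h
    have h3 := Nat.lt_floor_add_one (Real.log (Real.log (maxPrime (p - 1) : ℝ)))
    push_cast at h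
    unfold cell
    rw [hX0]
    linarith [hp.slack, (Nat.cast_nonneg K : (0 : ℝ) ≤ K)]
  refine ⟨hub, hlb, hU, hcl, ?_⟩
  exact_mod_cast (lt_of_le_of_lt hX0S hcl).le

/-- Weighted sum over small sets of primes. -/
lemma sum_small_sets_le {M0 : ℝ} {t0 : ℕ} (hM0 : 2 ≤ M0)
    (hM : ∀ j, ∑ p ∈ cellPrimes j, (p : ℝ)⁻¹ ≤ mass M0 t0 j) (K H : ℕ) (F : Finset (Finset ℕ))
    (hF : ∀ s ∈ F, s.card ≤ K ∧ ∀ q ∈ s, q.Prime ∧ cell q ≤ H) :
    ∑ s ∈ F, (((∏ q ∈ s, (q - 1) : ℕ) : ℝ))⁻¹ ≤
      Real.exp ((K : ℝ) * (3 * M0 + Real.log ((H : ℝ) + 5))) := by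
  classical
  set P := (range (H + 1)).biUnion cellPrimes with hP
  set g : Option ℕ → ℝ := fun o => o.elim 1 fun q => (((q - 1 : ℕ)) : ℝ)⁻¹ with hg
  have hmem : ∀ s ∈ F, ∀ q ∈ s, q ∈ P := fun s hs q hq =>
    mem_biUnion.2 ⟨cell q, mem_range.2 (Nat.lt_succ_of_le ((hF s hs).2 q hq).2),
      mem_cellPrimes.2 ⟨((hF s hs).2 q hq).1, rfl⟩⟩
  have e : ∀ s ∈ F, (((∏ q ∈ s, (q - 1) : ℕ) : ℝ))⁻¹ = ∏ i, g (slot s K i) := by
    intro s hs
    simp only [hg]
    rw [prod_slot s (hF s hs).1, Nat.cast_prod, prod_inv_distrib]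
  have hinj : Set.InjOn (fun s : Finset ℕ => slot s K) F := by
    intro s hs t ht h
    simp only at h
    ext q
    constructor
    · intro hq
      obtain ⟨i, hi⟩ := slot_surj (hF s hs).1 hq
      exact slot_mem (h ▸ hi : slot t K i = some q)
    · intro hq
      obtain ⟨i, hi⟩ := slot_surj (hF t ht).1 hq
      exact slot_mem (h.symm ▸ hi : slot s K i = some q)
  rw [sum_congr rfl e, ← sum_image (f := fun x : Fin K → Option ℕ => ∏ i, g (x i)) hinj]
  have hg0 : ∀ o, 0 ≤ g o := fun o => by cases o <;> simp [hg]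
  refine (sum_le_sum_of_subset_of_nonneg (t := Fintype.piFinset fun _ => insertNone P) ?_
    fun x _ _ => prod_nonneg fun i _ => hg0 _).trans ?_
  · intro x hx
    obtain ⟨s, hs, rfl⟩ := mem_image.1 hx
    refine Fintype.mem_piFinset.2 fun i => ?_
    cases h : slot s K i with
    | none => simp
    | some q => simpa using hmem s hs q (slot_mem h)
  rw [← prod_univ_sum (fun _ : Fin K => insertNone P) fun _ o => g o, prod_const, card_univ,
    Fintype.card_fin, sum_insertNone]
  have hsum : ∑ q ∈ P, g (some q) ≤ 2 * M0 * ((H : ℝ) + 1) := by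
    rw [hP, sum_biUnion (fun i _ j _ hij => cellPrimes_disjoint hij)]
    calc _ ≤ ∑ _j ∈ range (H + 1), 2 * M0 := by
          refine sum_le_sum fun j _ => ?_
          calc ∑ q ∈ cellPrimes j, g (some q) ≤ ∑ q ∈ cellPrimes j, 2 * (q : ℝ)⁻¹ := by
                refine sum_le_sum fun q hq => ?_
                simp only [hg, Option.elim_some]
                have hq2 := (mem_cellPrimes.1 hq).1.two_le
                have h2 : (2 : ℝ) ≤ q := by exact_mod_cast hq2
                rw [Nat.cast_sub (by omega), Nat.cast_one, ← div_eq_mul_inv, ← one_div,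
                  div_le_div_iff₀ (by linarith) (by linarith)]
                linarith
            _ ≤ 2 * M0 := by
                rw [← mul_sum]
                exact mul_le_mul_of_nonneg_left ((hM j).trans (mass_le hM0 t0 j).2) (by norm_num)
      _ = _ := by rw [sum_const, card_range, nsmul_eq_mul]; push_cast; ring
  rw [Real.exp_nat_mul]
  have hg1 : g none = 1 := by simp [hg]
  rw [hg1]
  refine pow_le_pow_left₀ (add_nonneg zero_le_one (sum_nonneg fun q _ => hg0 _)) ?_ K
  rw [Real.exp_add, Real.exp_log (by positivity)]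
  have h1 : 3 * M0 ≤ Real.exp (3 * M0) := by linarith [Real.add_one_le_exp (3 * M0)]
  have h2 : (1 : ℝ) ≤ (H : ℝ) + 5 := by linarith [(Nat.cast_nonneg H : (0 : ℝ) ≤ H)]
  nlinarith [mul_le_mul_of_nonneg_right h1 (by linarith : (0 : ℝ) ≤ (H : ℝ) + 5)]

lemma eventually_params : ∃ T0 : ℕ, ∀ T : ℕ, T0 ≤ T → Params T (cutoff T) (Kmax T) := by
  obtain ⟨t1, -, ht1⟩ := exists_large_scale
  obtain ⟨T1, hT1⟩ := eventually_atTop.1 (eventually_slack (20000000 + 400 + 12))
  refine ⟨max (max T1 t1) 400, fun T hT => ?_⟩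
  obtain ⟨hZ, hK, -, hcut, -, hlog⟩ := basic_bounds T
  have hT400 : (400 : ℝ) ≤ T := by exact_mod_cast le_trans (le_max_right _ _) hT
  have h1 := hT1 T (le_trans (le_max_left _ _) (le_trans (le_max_left _ _) hT))
  set Z : ℝ := ((T : ℝ) + 6) ^ ((1 : ℝ) / 100) with hZdef
  refine ⟨by omega, ?_, ?_, ?_, ht1 T (le_trans (le_max_right _ _)
    (le_trans (le_max_left _ _) hT))⟩
  · have hS2 : (cutoff T : ℝ) * cutoff T ≤ T := by exact_mod_cast Nat.sqrt_le T
    have h10 : (10 : ℝ) * cutoff T ≤ cutoff T * cutoff T + 25 := by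
      nlinarith [sq_nonneg ((cutoff T : ℝ) - 5)]
    linarith
  · have h4 : (2 : ℝ) ^ (8 : ℕ) ≤ (T : ℝ) + 1 := by norm_num; linarith
    have h5 : ((2 : ℝ) ^ (8 : ℕ)) ^ ((1 : ℝ) / 8) ≤ ((T : ℝ) + 1) ^ ((1 : ℝ) / 8) :=
      Real.rpow_le_rpow (by norm_num) h4 (by norm_num)
    rw [← Real.rpow_natCast 2 8, ← Real.rpow_mul (by norm_num)] at h5
    norm_num at h5
    unfold eps
    rw [neg_div, Real.rpow_neg (by positivity), one_div (2 : ℝ)]
    exact inv_anti₀ (by norm_num) (by norm_num; exact h5)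
  · have hl : Real.log ((T : ℝ) + 3) ≤ 100 * Z + 2 := by
      refine le_trans ?_ hlog
      push_cast
      exact Real.log_le_log (by positivity) (by linarith)
    have hp : ∀ a : ℕ, a ≤ 80 → Z ^ a ≤ Z ^ 80 := fun a ha => pow_le_pow_right₀ hZ ha
    have := hp 2 (by norm_num)
    have := hp 1 (by norm_num)
    have := hp 0 (by norm_num)
    rw [pow_one, pow_zero] at *
    nlinarith

/-- The lower bound for the logarithm of the first removed prime exceeds two. -/
lemma two_le_U {T S K : ℕ} (hpar : Params T S K) :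
    2 ≤ Real.exp ((T : ℝ) - 1) / ((T : ℝ) + 3) ^ 4 := by
  have h := hpar.slack
  have h' := mul_le_mul_of_nonneg_right hpar.half (Nat.cast_nonneg T)
  have hge : 1 ≤ (T : ℝ) - 1 - 4 * Real.log ((T : ℝ) + 3) := by
    linarith [(Nat.cast_nonneg K : (0 : ℝ) ≤ _), Real.log_nonneg
      (by linarith [(Nat.cast_nonneg T : (0 : ℝ) ≤ T)] : (1 : ℝ) ≤ (T : ℝ) + 3)]
  have he : Real.exp ((T : ℝ) - 1) / ((T : ℝ) + 3) ^ 4 =
      Real.exp ((T : ℝ) - 1 - 4 * Real.log ((T : ℝ) + 3)) := by
    rw [Real.exp_sub _ (4 * Real.log _)]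
    congr 1
    rw [show (4 : ℝ) = ((4 : ℕ) : ℝ) by norm_num, Real.exp_nat_mul,
      Real.exp_log (by positivity)]
  rw [he]
  linarith [Real.add_one_le_exp ((T : ℝ) - 1 - 4 * Real.log ((T : ℝ) + 3))]

/-- The good cofactor of scale `T` with totient `w`, in the form used below. -/
structure GoodData (T S K H w n : ℕ) : Prop where
  ne : n ≠ 0
  sq : ∀ q ∈ high n S, ¬ q ^ 2 ∣ n
  lines : ∀ q ∈ high n S, q.Prime ∧ Normal q ∧ cell q ≤ H ∧ S ≤ cell q ∧
    (cell q : ℝ) ≤ (1 - eps T) * T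
  card : (high n S).card ≤ K
  cells : ∀ q ∈ n.primeFactors, (cell q : ℝ) ≤ (1 - eps T) * T
  top : topG T n ≤ (1 - eps T) * T
  val : Nat.totient n = w
  split : w = (∏ q ∈ high n S, (q - 1)) * Nat.totient (lowPart n S)
  low : Real.log (lowPart n S) ≤ Real.exp (2 * (S : ℝ))

lemma goodData {T n w : ℕ} (hn : Good T n) (hw : Nat.totient n = w) :
    GoodData T (cutoff T) (Kmax T) (T + 2) w n := by
  obtain ⟨h0, hnex, htop, hcl⟩ := hn
  have hsq : ∀ q ∈ high n (cutoff T), ¬ q ^ 2 ∣ n := fun q hq hd =>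
    hnex (Or.inl ⟨q, hq, Or.inl hd⟩)
  refine ⟨h0.ne', hsq, fun q hq => ?_, not_lt.1 fun h => hnex (Or.inr (Or.inl h)), hcl, htop, hw,
    hw ▸ totient_split h0.ne' _ hsq, not_lt.1 fun h => hnex (Or.inr (Or.inr h))⟩
  obtain ⟨h1, h2⟩ := mem_filter.1 hq
  refine ⟨Nat.prime_of_mem_primeFactors h1,
    by_contra fun hn => hnex (Or.inl ⟨q, hq, Or.inr hn⟩), ?_, h2, hcl q h1⟩
  have heps : 0 ≤ eps T := by unfold eps; positivity
  have h3 : (cell q : ℝ) ≤ T := le_trans (hcl q h1) (by
    nlinarith [mul_nonneg heps (Nat.cast_nonneg T : (0 : ℝ) ≤ T)])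
  have : cell q ≤ T := by exact_mod_cast h3
  omega

/-- The facts about one side of a pair. -/
lemma side_conf {T S K H p w w' n n' : ℕ} (hS : 1 ≤ S) (hd : GoodData T S K H w n)
    (_hd' : GoodData T S K H w' n') (hp : p.Prime) (hcp : cell p ≤ H) :
    (∀ x, 1 ≤ bigM (K := K) p (Nat.totient (lowPart n S)) (high n S \ high n' S) x ∧
      CellsLe (bigM (K := K) p (Nat.totient (lowPart n S)) (high n S \ high n' S) x)
        (bigT H (S - 1) (fun i => (slot (high n S \ high n' S) K i).elim 0 cell) x)) ∧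
    (∀ x ∈ bigP H (S - 1) S (fun i => (slot (high n S \ high n' S) K i).elim 0 cell),
      Pend (bigT H (S - 1) (fun i => (slot (high n S \ high n' S) K i).elim 0 cell) x)
        (bigM (K := K) p (Nat.totient (lowPart n S)) (high n S \ high n' S) x) ∧
      ∃ q ∈ high n S \ high n' S,
        bigM (K := K) p (Nat.totient (lowPart n S)) (high n S \ high n' S) x = q - 1) := by
  have hp2 := hp.two_le
  refine ⟨fun x => ?_, fun x hx => ?_⟩
  · rcases x with _ | _ | i
    · exact ⟨by simp only [bigM]; omega, fun r hr => le_trans (cellsLe_pred hp r hr) hcp⟩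
    · exact ⟨Nat.totient_pos.2 (Nat.pos_of_ne_zero (lowPart_ne_zero _ _)),
        cellsLe_totient_lowPart hd.ne⟩
    · simp only [bigM, bigT]
      cases h : slot (high n S \ high n' S) K i with
      | none => exact ⟨le_rfl, by simp [CellsLe]⟩
      | some q =>
        have hq' := hd.lines q (mem_sdiff.1 (slot_mem h)).1
        have := hq'.1.two_le
        exact ⟨by simp only [Option.elim_some]; omega, cellsLe_pred hq'.1⟩
  · obtain ⟨-, hxn, hxS⟩ := mem_filter.1 hx
    rcases x with _ | _ | i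
    · exact absurd rfl hxn
    · simp only [bigT] at hxS; omega
    · simp only [bigM, bigT] at hxS ⊢
      cases h : slot (high n S \ high n' S) K i with
      | none => rw [h] at hxS; simp only [Option.elim_none] at hxS; omega
      | some q =>
        have hq' := hd.lines q (mem_sdiff.1 (slot_mem h)).1
        exact ⟨pend_of_normal hq'.1 hq'.2.1, q, slot_mem h, rfl⟩

/-- The largest prime of one large prime less one lies in the other one. -/
lemma maxPrime_le {T S K H p p' w' n' : ℕ} (hS : 1 ≤ S) (hd' : GoodData T S K H w' n')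
    (hp : p.Prime) (hpn : Normal p) (hp' : p'.Prime) (hd : maxPrime (p - 1) ∣ (p' - 1) * w')
    (hX : (1 - eps T) * T < cell (maxPrime (p - 1))) (hS' : S ≤ cell (maxPrime (p - 1))) :
    maxPrime (p - 1) ≤ maxPrime (p' - 1) := by
  obtain ⟨hlp, -⟩ := maxPrime_prime_of_pend (pend_of_normal hp hpn)
  rcases (Nat.Prime.dvd_mul hlp).1 hd with h | h
  · exact le_maxPrime (Nat.mem_primeFactors.2 ⟨hlp, h, by have := hp'.two_le; omega⟩)
  · exfalso
    rw [hd'.split] at h
    rcases (Nat.Prime.dvd_mul hlp).1 h with h | h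
    · obtain ⟨q, hq, hqd⟩ := (hlp.prime.dvd_finsetProd_iff _).1 h
      obtain ⟨hqp, -, -, -, hqX⟩ := hd'.lines q hq
      have h1 := cellsLe_pred hqp _ (Nat.mem_primeFactors.2
        ⟨hlp, hqd, by have := hqp.two_le; omega⟩)
      have h1' : (cell (maxPrime (p - 1)) : ℝ) ≤ cell q := by exact_mod_cast h1
      linarith
    · have h1 := cellsLe_totient_lowPart (S := S) hd'.ne _ (Nat.mem_primeFactors.2
        ⟨hlp, h, (Nat.totient_pos.2 (Nat.pos_of_ne_zero (lowPart_ne_zero _ _))).ne'⟩)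
      omega

/-- The prime factors of one side. -/
lemma side_omega {T S K H p w n n' : ℕ} (hS : 1 ≤ S) (hTH : T ≤ H) (hd : GoodData T S K H w n)
    (hp : p.Prime) (hpn : Normal p) (hcp : cell p ≤ H) (J : ℕ) (hJ : S ≤ J) (hJT : J ≤ T) :
    (omegaSeg (∏ x, bigM (K := K) p (Nat.totient (lowPart n S)) (high n S \ high n' S) x) S J : ℝ) ≤
      ∑ j ∈ Ico S J,
        (lines (bigT H (S - 1) (fun i => (slot (high n S \ high n' S) K i).elim 0 cell)) j : ℝ) +
        ((K : ℝ) + 1) * dev H := by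
  set A := high n S \ high n' S with hA
  have hcA : A.card ≤ K := le_trans (card_le_card sdiff_subset) hd.card
  have hAl : ∀ q ∈ A, q.Prime ∧ Normal q ∧ cell q ≤ H := fun q hq =>
    ⟨(hd.lines q (mem_sdiff.1 hq).1).1, (hd.lines q (mem_sdiff.1 hq).1).2.1,
      (hd.lines q (mem_sdiff.1 hq).1).2.2.1⟩
  have hlow : 0 < Nat.totient (lowPart n S) :=
    Nat.totient_pos.2 (Nat.pos_of_ne_zero (lowPart_ne_zero _ _))
  have hApos : 0 < ∏ q ∈ A, (q - 1) :=
    prod_pos fun q hq => by have := (hAl q hq).1.two_le; omega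
  rw [prod_bigM hcA, omegaSeg_mul (by have := hp.two_le; omega) (Nat.mul_pos hlow hApos),
    omegaSeg_mul hlow hApos, omegaSeg_eq_zero (cellsLe_totient_lowPart hd.ne) (by omega), zero_add,
    Nat.cast_add]
  have h1 := omega_line hp hpn hcp S J
  have h1' : ((((Ico S J).filter fun j => j ≤ cell p).card : ℕ) : ℝ) ≤ (J : ℝ) - S := by
    refine (Nat.cast_le.2 (card_filter_le _ _)).trans (le_of_eq ?_)
    rw [Nat.card_Ico, Nat.cast_sub hJ]
  have h2 := omega_lines hAl S J
  have h3 : ∑ j ∈ Ico S J,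
      (lines (bigT H (S - 1) (fun i => (slot A K i).elim 0 cell)) j : ℝ) = ((J : ℝ) - S) +
      ∑ j ∈ Ico S J, (((A.filter fun q => j ≤ cell q).card : ℕ) : ℝ) := by
    rw [show (J : ℝ) - S = ∑ _j ∈ Ico S J, (1 : ℝ) by
      rw [sum_const, Nat.card_Ico, nsmul_eq_mul, mul_one, Nat.cast_sub hJ], ← sum_add_distrib]
    refine sum_congr rfl fun j hj => ?_
    obtain ⟨hj1, hj2⟩ := mem_Ico.1 hj
    rw [lines_bigT _ (by omega) (by omega), card_slot _ hcA cell (by omega)]
    push_cast
    rfl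
  have hcK : (A.card : ℝ) ≤ K := by exact_mod_cast hcA
  have := mul_le_mul_of_nonneg_right hcK (dev_nonneg H)
  rw [h3]
  linarith

/-- A pair gives a configuration for the first step. -/
lemma pair_conf {T S K : ℕ} (hpar : Params T S K) (hS : 1 ≤ S) {y : ℝ} (hy : InRange T y)
    {p p' w w' n n' : ℕ} (hd : GoodData T S K (T + 2) w n) (hd' : GoodData T S K (T + 2) w' n')
    (hp : p.Prime) (hpn : Normal p) (hp' : p'.Prime) (hpn' : Normal p') (hne : w ≠ w')
    (heq : (p - 1) * w = (p' - 1) * w') (hlb : y / Real.log y ^ 2 < (((p - 1) * w : ℕ) : ℝ))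
    (hub : (((p - 1) * w : ℕ) : ℝ) ≤ y) :
    CountConf (bigT (T + 2) (S - 1) (fun i => (slot (high n S \ high n' S) K i).elim 0 cell))
      (bigT (T + 2) (S - 1) (fun i => (slot (high n' S \ high n S) K i).elim 0 cell))
      (bigP (T + 2) (S - 1) S (fun i => (slot (high n S \ high n' S) K i).elim 0 cell))
      (bigP (T + 2) (S - 1) S (fun i => (slot (high n' S \ high n S) K i).elim 0 cell))
      S T (((K : ℝ) + 1) * dev (T + 2)) (y / ((∏ q ∈ high n S ∩ high n' S, (q - 1) : ℕ) : ℝ))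
      (Real.exp ((T : ℝ) - 1) / ((T : ℝ) + 3) ^ 4)
      (bigM (K := K) p (Nat.totient (lowPart n S)) (high n S \ high n' S),
        bigM (K := K) p' (Nat.totient (lowPart n' S)) (high n' S \ high n S)) ∧
    w = (∏ q ∈ high n S ∩ high n' S, (q - 1)) * ∏ x,
      bigM (K := K) p (Nat.totient (lowPart n S)) (high n S \ high n' S) (some x) ∧
    w' = (∏ q ∈ high n S ∩ high n' S, (q - 1)) * ∏ x,
      bigM (K := K) p' (Nat.totient (lowPart n' S)) (high n' S \ high n S) (some x) := by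
  obtain ⟨hup, -, hUp, hlX, hlS⟩ := large_prime hpar hy hlb hub hp hpn hd.ne hd.sq hd.card hd.low
    hd.cells (by rw [hd.val])
  obtain ⟨hup', -, -, hlX', hlS'⟩ := large_prime hpar hy (v := (p' - 1) * w') (heq ▸ hlb)
    (heq ▸ hub) hp' hpn' hd'.ne hd'.sq hd'.card hd'.low hd'.cells (by rw [hd'.val])
  set c := ∏ q ∈ high n S ∩ high n' S, (q - 1) with hc
  have hcpos : 0 < c := prod_pos fun q hq => by
    have := (hd.lines q (mem_inter.1 hq).1).1.two_le
    omega
  have hcA : (high n S \ high n' S).card ≤ K := le_trans (card_le_card sdiff_subset) hd.card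
  have hcB : (high n' S \ high n S).card ≤ K := le_trans (card_le_card sdiff_subset) hd'.card
  have hsplit : ∀ (X X' : Finset ℕ) (l : ℕ), (∏ q ∈ X, (q - 1)) * l =
      (∏ q ∈ X ∩ X', (q - 1)) * (l * ∏ q ∈ X \ X', (q - 1)) := by
    intro X X' l
    have e : ∏ q ∈ X, (q - 1) = (∏ q ∈ X \ X', (q - 1)) * ∏ q ∈ X ∩ X', (q - 1) := by
      rw [← prod_union (disjoint_sdiff_inter _ _), sdiff_union_inter]
    rw [e]; ring
  have hw1 : w = c * (Nat.totient (lowPart n S) * ∏ q ∈ high n S \ high n' S, (q - 1)) := by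
    rw [hc, ← hsplit]; exact hd.split
  have hw2 : w' = c * (Nat.totient (lowPart n' S) * ∏ q ∈ high n' S \ high n S, (q - 1)) := by
    rw [hc, inter_comm, ← hsplit]; exact hd'.split
  have hA := side_conf hS hd hd' hp hup
  have hB := side_conf hS hd' hd hp' hup'
  refine ⟨⟨⟨hA.1, hB.1, ?_, fun x hx => (hA.2 x hx).1, fun x hx => (hB.2 x hx).1,
    fun x hx x' hx' h => ?_⟩, ?_, ?_, ?_, ?_, ?_, ?_,
    fun J hJ hJT => side_omega hS (Nat.le_add_right T 2) hd hp hpn hup J hJ hJT⟩, ?_, ?_⟩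
  · show ∏ x, bigM (K := K) p _ _ x = ∏ x, bigM (K := K) p' _ _ x
    rw [prod_bigM hcA, prod_bigM hcB]
    apply Nat.eq_of_mul_eq_mul_left hcpos
    rw [mul_left_comm, ← hw1, mul_left_comm c, ← hw2]
    exact heq
  · obtain ⟨q, hq, e1⟩ := (hA.2 x hx).2
    obtain ⟨q', hq', e1'⟩ := (hB.2 x' hx').2
    simp only at h
    rw [e1, e1'] at h
    have := (hd.lines q (mem_sdiff.1 hq).1).1.two_le
    have := (hd'.lines q' (mem_sdiff.1 hq').1).1.two_le
    exact (mem_sdiff.1 hq).2 ((show q = q' by omega) ▸ (mem_sdiff.1 hq').1)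
  · simp only
    rw [le_div_iff₀ (by exact_mod_cast hcpos), prod_bigM hcA]
    refine le_trans (le_of_eq ?_) hub
    conv_rhs => rw [hw1]
    push_cast
    ring
  · simpa only [bigM, Nat.sub_add_cancel hp.one_le] using hp
  · simpa only [bigM, Nat.sub_add_cancel hp'.one_le] using hp'
  · simp only [bigM]
    intro h
    have hpp : p = p' := by have := hp.two_le; have := hp'.two_le; omega
    subst hpp
    exact hne (Nat.eq_of_mul_eq_mul_left (by have := hp.two_le; omega) heq)
  · simp only [bigM]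
    have hd1 := (maxPrime_prime_of_pend (pend_of_normal hp hpn)).2
    have hd2 := (maxPrime_prime_of_pend (pend_of_normal hp' hpn')).2
    exact le_antisymm
      (maxPrime_le hS hd' hp hpn hp' (heq ▸ dvd_mul_of_dvd_left hd1 w) hlX hlS)
      (maxPrime_le hS hd hp' hpn' hp (heq.symm ▸ dvd_mul_of_dvd_left hd2 w') hlX' hlS')
  · simpa only [bigM] using hUp
  · simp only [Fintype.prod_option, bigM, prod_slot _ hcA]; exact hw1
  · simp only [Fintype.prod_option, bigM, prod_slot _ hcB]; exact hw2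

/-- The exponent of the configurations coming from pairs. -/
lemma pair_exponent {T S K H w n n' : ℕ} (hS : 1 ≤ S) (hST : S ≤ T) (hTH : T ≤ H)
    (hd : GoodData T S K H w n) (hcut : S = cutoff T) (b : Fin K → ℕ) :
    let a : Fin K → ℕ := fun i => (slot (high n S \ high n' S) K i).elim 0 cell
    ∑ j ∈ Ico S T, ((lines (bigT H (S - 1) a) j : ℝ) * Real.log (lines (bigT H (S - 1) a) j)) +
      ∑ j ∈ Ico S T, (lines (bigT H (S - 1) b) j : ℝ) -
      ∑ x ∈ bigP H (S - 1) S a, (bigT H (S - 1) a x : ℝ) -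
      ∑ x ∈ bigP H (S - 1) S b, (bigT H (S - 1) b x : ℝ) ≤ (2 - eps T) * T := by
  intro a
  have hrpos : ∀ j, S ≤ j → j < T → 1 ≤ lines (bigT H (S - 1) a) j := by
    intro j h1 h2
    rw [lines_bigT a (by omega) (by omega)]
    omega
  have hout : ∀ (t : Fin K → ℕ) x, x ∉ bigP H (S - 1) S t →
      x ∉ ({none} : Finset (Option (Option (Fin K)))) → bigT H (S - 1) t x < S := by
    intro t x hx hx'
    simp only [mem_singleton] at hx'
    simp only [bigP, mem_filter, mem_univ, true_and, not_and, not_le] at hx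
    exact hx hx'
  have hA' := sum_lines_le (bigT H (S - 1) a) hS hST _ {none} (hout a)
  have hB' := sum_lines_le (bigT H (S - 1) b) hS hST _ {none} (hout b)
  have hsum := sum_rlog_sub hST _ hrpos
  rw [sum_sub_distrib] at hsum
  simp only [card_singleton, Nat.cast_one, one_mul] at hA' hB'
  have hg : ∑ j ∈ Ico S T, gfun (lines (bigT H (S - 1) a) j) ≤ (1 - eps T) * T := by
    refine le_trans ?_ hd.top
    unfold topG gsum
    rw [← hcut]
    refine sum_le_sum fun j hj => gfun_mono ?_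
    obtain ⟨hj1, hj2⟩ := mem_Ico.1 hj
    rw [lines_bigT a (by omega) (by omega), rows, Multiset.countP_cons, if_pos hj2.le,
      profile, Multiset.countP_map, ← Finset.filter_val, ← Finset.card_def,
      card_slot _ (le_trans (card_le_card sdiff_subset) hd.card) cell (by omega), add_comm 1]
    exact Nat.add_le_add_right (card_le_card (filter_subset_filter _ sdiff_subset)) 1
  have : (0 : ℝ) ≤ S := Nat.cast_nonneg S
  linarith

/-- All the losses are absorbed by the slack. -/
lemma pair_numeric {C M0 : ℝ} (hC : 0 < C) (hM0 : 2 ≤ M0) (k T : ℕ)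
    (hslack : ((50000000 : ℝ) ^ 2 * (4 * M0 + 6 * C + 14 + 102 * ((k : ℝ) + 12)) +
      20000000 * 3 * M0 + 20000000 * 3 * 102 + C + 102 * ((k : ℝ) + 12) + 8) *
      (((T : ℝ) + 6) ^ ((1 : ℝ) / 100)) ^ 80 ≤ eps T * T) :
    let S := cutoff T
    let K := Kmax T
    let H := T + 2
    let U : ℝ := Real.exp ((T : ℝ) - 1) / ((T : ℝ) + 3) ^ 4
    let LH := Real.log ((H : ℝ) + 5)
    Real.exp ((K : ℝ) * LH) * Real.exp ((K : ℝ) * LH) * Real.exp ((K : ℝ) * (3 * M0 + LH)) *
      (C * ((H : ℝ) + 5) ^ k / U ^ 3 * Real.exp ((2 - eps T) * T +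
        err C M0 k (2 * (K + 2)) H S (((K : ℝ) + 1) * dev H))) ≤
      Real.exp (-((T : ℝ) + 2) - Real.sqrt T) := by
  intro S K H U LH
  have hH : H = T + 2 := rfl
  have hU : U = Real.exp ((T : ℝ) - 1) / ((T : ℝ) + 3) ^ 4 := rfl
  have hLH : LH = Real.log ((H : ℝ) + 5) := rfl
  obtain ⟨hZ, hK, hdev, hcut, hsqrt, hlog⟩ := basic_bounds T
  set Z : ℝ := ((T : ℝ) + 6) ^ ((1 : ℝ) / 100) with hZdef
  set N := 2 * (K + 2) with hN
  set E0 : ℝ := ((K : ℝ) + 1) * dev H with hE0
  have hT3 : (0 : ℝ) < (T : ℝ) + 3 := by positivity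
  have hU3 : C * ((H : ℝ) + 5) ^ k / U ^ 3 ≤
      Real.exp (C + (k : ℝ) * LH - 3 * (T : ℝ) + 3 + 12 * LH) := by
    have hCe : C ≤ Real.exp C := by linarith [Real.add_one_le_exp C]
    have h12 : ((T : ℝ) + 3) ^ 12 ≤ ((H : ℝ) + 5) ^ 12 :=
      pow_le_pow_left₀ hT3.le (by rw [hH]; push_cast; linarith) 12
    have e : C * ((H : ℝ) + 5) ^ k / U ^ 3 =
        C * ((H : ℝ) + 5) ^ k * (Real.exp (-3 * (T : ℝ) + 3) * ((T : ℝ) + 3) ^ 12) := by
      rw [hU, div_pow, ← Real.exp_nat_mul, div_div_eq_mul_div,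
        show (-3 * (T : ℝ) + 3) = -((3 : ℕ) * ((T : ℝ) - 1)) by push_cast; ring, Real.exp_neg]
      ring
    have e2 : Real.exp (C + (k : ℝ) * LH - 3 * (T : ℝ) + 3 + 12 * LH) =
        Real.exp C * ((H : ℝ) + 5) ^ k * (Real.exp (-3 * (T : ℝ) + 3) *
          ((H : ℝ) + 5) ^ 12) := by
      rw [show C + (k : ℝ) * LH - 3 * (T : ℝ) + 3 + 12 * LH =
        C + (k : ℝ) * LH + ((-3 * (T : ℝ) + 3) + ((12 : ℕ) : ℝ) * LH) by push_cast; ring,
        Real.exp_add, Real.exp_add, Real.exp_add, Real.exp_nat_mul, Real.exp_nat_mul, hLH,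
        Real.exp_log (by positivity)]
    rw [e, e2]
    exact mul_le_mul (mul_le_mul_of_nonneg_right hCe (by positivity))
      (mul_le_mul_of_nonneg_left h12 (Real.exp_pos _).le) (by positivity) (by positivity)
  refine (mul_le_mul_of_nonneg_left (mul_le_mul_of_nonneg_right hU3 (Real.exp_pos _).le)
    (by positivity)).trans ?_
  rw [← Real.exp_add, ← Real.exp_add, ← Real.exp_add, ← Real.exp_add]
  apply Real.exp_le_exp.2
  have herr := err_le hC hM0 k N H S (E0 := E0) hZ (c := 50000000) (by norm_num)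
    (by rw [hN]; push_cast; nlinarith [one_le_pow₀ hZ (n := 2)]) (by
      rw [hE0]
      calc ((K : ℝ) + 1) * dev H ≤ (30000000 * Z ^ 2) * Z ^ 75 :=
            mul_le_mul (by nlinarith [one_le_pow₀ hZ (n := 2)]) hdev (dev_nonneg _)
              (by positivity)
        _ = 30000000 * Z ^ 77 := by ring
        _ ≤ _ := mul_le_mul_of_nonneg_right (by norm_num) (by positivity))
    (mul_nonneg (by positivity) (dev_nonneg _)) hcut hlog
  have hp : ∀ a : ℕ, a ≤ 80 → Z ^ a ≤ Z ^ 80 := fun a ha => pow_le_pow_right₀ hZ ha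
  have h80 : (1 : ℝ) ≤ Z ^ 80 := one_le_pow₀ hZ
  have hLH0 : 0 ≤ LH := Real.log_nonneg (by linarith [(Nat.cast_nonneg H : (0 : ℝ) ≤ H)])
  have hLH1 : LH ≤ 102 * Z := by
    have := hlog; simp only [hLH] at *; linarith
  have hKLH : (K : ℝ) * LH ≤ 20000000 * 102 * Z ^ 80 := by
    calc (K : ℝ) * LH ≤ (20000000 * Z ^ 2) * (102 * Z) :=
          mul_le_mul hK hLH1 hLH0 (by positivity)
      _ = 20000000 * 102 * Z ^ 3 := by ring
      _ ≤ _ := mul_le_mul_of_nonneg_left (hp 3 (by norm_num)) (by norm_num)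
  have hKM : (K : ℝ) * (3 * M0) ≤ 20000000 * 3 * M0 * Z ^ 80 := by
    calc (K : ℝ) * (3 * M0) ≤ (20000000 * Z ^ 80) * (3 * M0) :=
          mul_le_mul_of_nonneg_right (hK.trans
            (mul_le_mul_of_nonneg_left (hp 2 (by norm_num)) (by norm_num))) (by linarith)
      _ = _ := by ring
  have hkLH : ((k : ℝ) + 12) * LH ≤ 102 * ((k : ℝ) + 12) * Z ^ 80 := by
    calc ((k : ℝ) + 12) * LH ≤ ((k : ℝ) + 12) * (102 * Z ^ 80) :=
          mul_le_mul_of_nonneg_left (by
            have := hp 1 (by norm_num)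
            rw [pow_one] at this
            linarith) (by positivity)
      _ = _ := by ring
  have hsq : Real.sqrt T ≤ Z ^ 80 := hsqrt.trans (hp 75 (by norm_num))
  have hC80 : C ≤ C * Z ^ 80 := le_mul_of_one_le_right hC.le h80
  nlinarith

theorem pairCount (hs : SieveStatement) (hcell : CellStatement) : PairCountStatement := by
  classical
  obtain ⟨C, hC, k, hSv⟩ := hs
  obtain ⟨M0, t0, hM0, hM⟩ := exists_mass hcell
  obtain ⟨t1, ht1, hlarge⟩ := exists_large_scale
  obtain ⟨T2, hT2⟩ := eventually_params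
  obtain ⟨T1, hT1⟩ := eventually_atTop.1 (eventually_slack
    ((50000000 : ℝ) ^ 2 * (4 * M0 + 6 * C + 14 + 102 * ((k : ℝ) + 12)) +
      20000000 * 3 * M0 + 20000000 * 3 * 102 + C + 102 * ((k : ℝ) + 12) + 8))
  refine ⟨max (max T1 T2) ((max t0 t1) ^ 2), fun T hT y hy G hG Q hQ => ?_⟩
  have hnum := pair_numeric hC hM0 k T
    (hT1 T (le_trans (le_max_left _ _) (le_trans (le_max_left _ _) hT)))
  have hpar := hT2 T (le_trans (le_max_right _ _) (le_trans (le_max_left _ _) hT))
  have hS : max t0 t1 ≤ cutoff T := Nat.le_sqrt'.2 (le_trans (le_max_right _ _) hT)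
  set S := cutoff T with hSdef
  set K := Kmax T with hKdef
  set H := T + 2 with hH
  simp only at hnum
  set LH := Real.log ((H : ℝ) + 5) with hLH
  have hS1 : 1 ≤ S := le_trans (le_trans ht1 (le_max_right _ _)) hS
  have hST : S ≤ T := Nat.sqrt_le_self T
  have hTS : T ≤ (S + 1) ^ 2 := (Nat.lt_succ_sqrt' T).le
  have hy1 : (1 : ℝ) < y := lt_of_lt_of_le (Real.one_lt_exp_iff.2 (Real.exp_pos _)) hy.1
  have hy0 : (0 : ℝ) < y := by linarith
  have hly : Real.log y < Real.exp ((T : ℝ) + 2) :=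
    (Real.log_lt_iff_lt_exp hy0).2 hy.2
  have hlyH : Real.log y ≤ Real.exp ((H : ℝ) + 1) := by
    refine hly.le.trans (Real.exp_le_exp.2 ?_)
    rw [hH]; push_cast; linarith
  choose! f hfgood hfval using hG
  have hgood : ∀ w ∈ G, GoodData T S K H w (f w) := fun w hw =>
    goodData (hfgood w hw) (hfval w hw)
  set hi : ℕ → Finset ℕ := fun w => high (f w) S with hhi
  set key : (ℕ × ℕ) × (ℕ × ℕ) → Finset ℕ × (Fin K → ℕ) × (Fin K → ℕ) := fun a =>
    (hi a.1.2 ∩ hi a.2.2, (fun i => (slot (hi a.1.2 \ hi a.2.2) K i).elim 0 cell),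
      fun i => (slot (hi a.2.2 \ hi a.1.2) K i).elim 0 cell) with hkey
  set Fsets := Q.image fun a => hi a.1.2 ∩ hi a.2.2 with hFsets
  set Pi := Fintype.piFinset fun _ : Fin K => range (H + 1) with hPi
  set Keys := Fsets ×ˢ (Pi ×ˢ Pi) with hKeys
  have hmaps : ∀ a ∈ Q, key a ∈ Keys := by
    intro a ha
    obtain ⟨-, -, -, -, hw, hw', -⟩ := hQ a ha
    have hle : ∀ w ∈ G, ∀ w' : ℕ, ∀ i : Fin K,
        (slot (hi w \ hi w') K i).elim 0 cell ≤ H := by
      intro w hw w' i
      cases h : slot (hi w \ hi w') K i with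
      | none => exact Nat.zero_le _
      | some q => exact ((hgood w hw).lines q (mem_sdiff.1 (slot_mem h)).1).2.2.1
    simp only [hKeys, hkey, mem_product, hPi, Fintype.mem_piFinset, mem_range, Nat.lt_succ_iff]
    exact ⟨mem_image_of_mem _ ha, hle _ hw _, hle _ hw' _⟩
  set U : ℝ := Real.exp ((T : ℝ) - 1) / ((T : ℝ) + 3) ^ 4 with hU
  have hU2 : 2 ≤ U := two_le_U hpar
  set E0 : ℝ := ((K : ℝ) + 1) * dev H with hE0
  set N := 2 * (K + 2) with hN
  set Bk : ℝ := C * ((H : ℝ) + 5) ^ k / U ^ 3 *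
    Real.exp ((2 - eps T) * T + err C M0 k N H S E0) with hBk
  have hfib : ∀ ky ∈ Keys, ((Q.filter fun a => key a = ky).card : ℝ) ≤
      y * (((∏ q ∈ ky.1, (q - 1) : ℕ) : ℝ))⁻¹ * Bk := by
    rintro ⟨Cc, a, b⟩ -
    set Qk := Q.filter fun e => key e = (Cc, a, b) with hQk
    rcases Qk.eq_empty_or_nonempty with he | ⟨e0, he0⟩
    · rw [he]; simp only [card_empty, Nat.cast_zero]
      positivity
    obtain ⟨he0Q, he0k⟩ := mem_filter.1 he0
    obtain ⟨-, -, -, -, hw0, hw0', -⟩ := hQ e0 he0Q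
    simp only [hkey, Prod.mk.injEq] at he0k
    obtain ⟨hC0, ha0, hb0⟩ := he0k
    show (Qk.card : ℝ) ≤ y * ((∏ q ∈ Cc, (q - 1) : ℕ) : ℝ)⁻¹ * Bk
    set c := ∏ q ∈ Cc, (q - 1) with hc
    have hcpos : 0 < c := by
      rw [hc, ← hC0]
      refine prod_pos fun q hq => ?_
      have := ((hgood _ hw0).lines q (mem_inter.1 hq).1).1.two_le
      omega
    set M : (ℕ × ℕ) × (ℕ × ℕ) → (Option (Option (Fin K)) → ℕ) × (Option (Option (Fin K)) → ℕ) :=
      fun e => (bigM e.1.1 (Nat.totient (lowPart (f e.1.2) S)) (hi e.1.2 \ hi e.2.2),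
        bigM e.2.1 (Nat.totient (lowPart (f e.2.2) S)) (hi e.2.2 \ hi e.1.2)) with hM'
    have hdata : ∀ e ∈ Qk,
        CountConf (bigT H (S - 1) a) (bigT H (S - 1) b) (bigP H (S - 1) S a) (bigP H (S - 1) S b)
          S T E0 (y / (c : ℝ)) U (M e) ∧
          e.1.2 = c * ∏ x, (M e).1 (some x) ∧ e.2.2 = c * ∏ x, (M e).2 (some x) := by
      intro e he
      obtain ⟨heQ, hek⟩ := mem_filter.1 he
      simp only [hkey, Prod.mk.injEq] at hek
      obtain ⟨hCc, ha', hb'⟩ := hek
      obtain ⟨hp, hpn, hp', hpn', hw, hw', hne, heq, hlb, hub⟩ := hQ e heQ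
      rw [hc, ← hCc, ← ha', ← hb']
      exact pair_conf hpar hS1 hy (hgood _ hw) (hgood _ hw') hp hpn hp' hpn' hne heq hlb hub
    have hinj : Set.InjOn M Qk := by
      intro e he e' he' h
      obtain ⟨-, h1, h2⟩ := hdata e he
      obtain ⟨-, h1', h2'⟩ := hdata e' he'
      have g1 : e.1.1 - 1 = e'.1.1 - 1 := congrFun (congrArg Prod.fst h) none
      have g2 : e.2.1 - 1 = e'.2.1 - 1 := congrFun (congrArg Prod.snd h) none
      obtain ⟨hp, -, hp', -⟩ := hQ e (mem_filter.1 he).1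
      obtain ⟨hq, -, hq', -⟩ := hQ e' (mem_filter.1 he').1
      have := hp.two_le; have := hp'.two_le; have := hq.two_le; have := hq'.two_le
      refine Prod.ext (Prod.ext (by omega) ?_) (Prod.ext (by omega) ?_)
      · rw [h1, h1', h]
      · rw [h2, h2', h]
    rw [← card_image_of_injOn hinj]
    have hab : ∀ i, a i ≤ H ∧ b i ≤ H := by
      have hk := hmaps e0 he0Q
      simp only [hKeys, hkey, mem_product, hPi, Fintype.mem_piFinset, mem_range, Nat.lt_succ_iff,
        ha0, hb0] at hk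
      exact fun i => ⟨hk.2.1 i, hk.2.2 i⟩
    have hle : ∀ x, bigT H (S - 1) a x ≤ H ∧ bigT H (S - 1) b x ≤ H := by
      rintro (_ | _ | i) <;> simp only [bigT]
      · exact ⟨le_rfl, le_rfl⟩
      · constructor <;> omega
      · exact hab i
    have hrpos : ∀ j, S ≤ j → j < T → 1 ≤ lines (bigT H (S - 1) a) j := by
      intro j h1 h2
      rw [lines_bigT a (by omega) (by omega)]
      omega
    have hexp := pair_exponent (n' := f e0.2.2) hS1 hST (Nat.le_add_right T 2) (hgood _ hw0) hSdef b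
    simp only [hhi] at ha0
    simp only [ha0] at hexp
    have hY : Real.log (y / (c : ℝ)) ≤ Real.exp ((H : ℝ) + 1) :=
      le_trans (Real.log_le_log (by positivity)
        (div_le_self hy0.le (by exact_mod_cast hcpos))) hlyH
    refine (count_key hSv hC (bigT H (S - 1) a) (bigT H (S - 1) b) (bigP H (S - 1) S a)
      (bigP H (S - 1) S b) (by simp [bigP]) (by simp [bigP]) hU2 hY (E0 := E0) (S := S) (T := T)
      (W := Real.exp ((2 - eps T) * T + err C M0 k N H S E0))
      (fun Q' hQ' => ?_) _ (fun m hm => by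
        obtain ⟨e, he, rfl⟩ := mem_image.1 hm
        exact (hdata e he).1) (by positivity)).trans (le_of_eq ?_)
    · refine (core hSv hC hM0 hM hlarge (le_trans (le_max_left _ _) hS)
        (le_trans (le_max_right _ _) hS) hST (Nat.le_add_right T 2) le_rfl hTS _ _
        (fun x => (hle x).1) (fun x => (hle x).2) (N := N)
        (by simp only [Fintype.card_option, Fintype.card_fin]; omega) (by omega) hrpos _ _
        (fun x hx => (mem_filter.1 hx).2.2) (fun x hx => (mem_filter.1 hx).2.2)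
        (mul_nonneg (by positivity) (dev_nonneg _)) Q' hQ').trans ?_
      exact Real.exp_le_exp.2 (by linarith)
    · rw [hBk]; ring
  have hcard : (Q.card : ℝ) = ∑ ky ∈ Keys, ((Q.filter fun a => key a = ky).card : ℝ) := by
    exact_mod_cast card_eq_sum_card_fiberwise hmaps
  rw [hcard]
  refine (sum_le_sum hfib).trans ?_
  have hBk0 : 0 ≤ Bk := by positivity
  rw [← sum_mul, ← mul_sum, hKeys, sum_product]
  simp only [sum_const, nsmul_eq_mul, ← mul_sum, card_product, Nat.cast_mul]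
  have hsets := sum_small_sets_le hM0 hM K H Fsets (by
    intro s hs
    obtain ⟨e, he, rfl⟩ := mem_image.1 hs
    obtain ⟨-, -, -, -, hw, -⟩ := hQ e he
    exact ⟨le_trans (card_le_card inter_subset_left) (hgood _ hw).card, fun q hq =>
      ⟨((hgood _ hw).lines q (mem_inter.1 hq).1).1,
        ((hgood _ hw).lines q (mem_inter.1 hq).1).2.2.1⟩⟩)
  calc y * ((((Pi.card : ℕ) : ℝ) * (Pi.card : ℕ)) *
        ∑ s ∈ Fsets, (((∏ q ∈ s, (q - 1) : ℕ) : ℝ))⁻¹) * Bk
      ≤ y * ((Real.exp ((K : ℝ) * LH) * Real.exp ((K : ℝ) * LH)) *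
        Real.exp ((K : ℝ) * (3 * M0 + LH))) * Bk := by
        refine mul_le_mul_of_nonneg_right (mul_le_mul_of_nonneg_left ?_ hy0.le) hBk0
        exact mul_le_mul (mul_le_mul (card_keys_le K H) (card_keys_le K H) (Nat.cast_nonneg _)
          (Real.exp_pos _).le) hsets (sum_nonneg fun s _ => by positivity) (by positivity)
    _ ≤ y * Real.exp (-((T : ℝ) + 2) - Real.sqrt T) := by
        rw [mul_assoc]
        exact mul_le_mul_of_nonneg_left hnum hy0.le
    _ ≤ y / Real.log y * Real.exp (-Real.sqrt T) := by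
        rw [sub_eq_add_neg, Real.exp_add, ← mul_assoc, Real.exp_neg ((T : ℝ) + 2),
          ← div_eq_mul_inv]
        refine mul_le_mul_of_nonneg_right ?_ (Real.exp_pos _).le
        exact div_le_div_of_nonneg_left hy0.le (Real.log_pos hy1) hly.le

end P031.PairCnt
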