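import Vale.Agent.P031.Statements

/-!
Peeling of two factorisations of the same number into shifted primes.

A configuration consists of the values of two families of lines with equal products.  A pending
line has value one less than a prime and a large prime factor; a free line is an arbitrary number.
Removing the largest prime factor of the pending lines costs one application of the upper-bound
sieve and frees the lines that contain it.
-/

open Finset

noncomputable section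

namespace P031.Pairs

/-- The sieve bounds with fixed constants. -/
def SieveBound (C : ℝ) (k : ℕ) : Prop :=
  ∀ X Y : ℝ, 3 ≤ Y → Y ≤ X → ∀ L : Finset ℕ,
    (∀ l ∈ L, l.Prime ∧ Y ≤ l ∧ (l : ℝ) ≤ X) →
    (∀ a : ℕ, 1 ≤ a → (∀ l ∈ L, (a * l + 1).Prime) →
      (L.card : ℝ) ≤ C * X * llg (X * a) ^ k / Real.log Y ^ 2 ∧
      ∑ l ∈ L, (l : ℝ)⁻¹ ≤ C * Real.log X * llg (X * a) ^ k / Real.log Y ^ 2) ∧
    (∀ a b : ℕ, 1 ≤ a → 1 ≤ b → a ≠ b →
      (∀ l ∈ L, (a * l + 1).Prime ∧ (b * l + 1).Prime) →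
      (L.card : ℝ) ≤ C * X * llg (X * a * b) ^ k / Real.log Y ^ 3 ∧
      ∑ l ∈ L, (l : ℝ)⁻¹ ≤ C * Real.log X * llg (X * a * b) ^ k / Real.log Y ^ 3)

/-- The value of a pending line of scale `t`. -/
def Pend (t m : ℕ) : Prop :=
  (m + 1).Prime ∧ Real.exp t ≤ ((t : ℝ) + 1) ^ 4 * Real.log (maxPrime m) ∧
    (m : ℝ) ≤ Real.exp (Real.exp ((t : ℝ) + 1))

lemma exp_large_of_pend {t m : ℕ} (h : Pend t m) :
    Real.exp t / ((t : ℝ) + 1) ^ 4 ≤ Real.log (maxPrime m) := by
  rw [div_le_iff₀ (by positivity)]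
  linarith [h.2.1]

lemma one_lt_of_pend {t m : ℕ} (h : Pend t m) : 1 < maxPrime m := by
  by_contra hc
  have h01 : maxPrime m = 0 ∨ maxPrime m = 1 := by omega
  have h0 : Real.log (maxPrime m) = 0 := by
    rcases h01 with e | e <;> rw [e] <;> simp
  have := h.2.1
  rw [h0, mul_zero] at this
  linarith [Real.exp_pos (t : ℝ)]

lemma maxPrime_mem {m : ℕ} (h : 0 < maxPrime m) : maxPrime m ∈ m.primeFactors := by
  unfold maxPrime at *
  rcases m.primeFactors.eq_empty_or_nonempty with e | e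
  · simp [e] at h
  · obtain ⟨p, hp, hpe⟩ := Finset.exists_mem_eq_sup m.primeFactors e id
    rw [hpe]; exact hp

lemma le_maxPrime {m p : ℕ} (h : p ∈ m.primeFactors) : p ≤ maxPrime m :=
  Finset.le_sup (f := id) h

lemma maxPrime_prime_of_pend {t m : ℕ} (h : Pend t m) :
    (maxPrime m).Prime ∧ maxPrime m ∣ m := by
  have h1 := one_lt_of_pend h
  have := maxPrime_mem (m := m) (by omega)
  exact ⟨Nat.prime_of_mem_primeFactors this, Nat.dvd_of_mem_primeFactors this⟩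

section Conf

variable {α β : Type} [Fintype α] [Fintype β] [DecidableEq α] [DecidableEq β]

/-- The two families with equal products, with the pending conditions. -/
def Conf (tA : α → ℕ) (tB : β → ℕ) (PA : Finset α) (PB : Finset β)
    (m : (α → ℕ) × (β → ℕ)) : Prop :=
  (∀ a, 1 ≤ m.1 a ∧ CellsLe (m.1 a) (tA a)) ∧ (∀ b, 1 ≤ m.2 b ∧ CellsLe (m.2 b) (tB b)) ∧
    ∏ a, m.1 a = ∏ b, m.2 b ∧
    (∀ a ∈ PA, Pend (tA a) (m.1 a)) ∧ (∀ b ∈ PB, Pend (tB b) (m.2 b)) ∧
    ∀ a ∈ PA, ∀ b ∈ PB, m.1 a ≠ m.2 b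

/-- A bound for the weight of all finite sets of configurations. -/
def Bd (f : ℕ → ℝ) (tA : α → ℕ) (tB : β → ℕ) (PA : Finset α) (PB : Finset β) (X : ℝ) : Prop :=
  ∀ Q : Finset ((α → ℕ) × (β → ℕ)), (∀ m ∈ Q, Conf tA tB PA PB m) →
    ∑ m ∈ Q, f (∏ a, m.1 a) / ((∏ a, m.1 a : ℕ) : ℝ) ≤ X

omit [DecidableEq α] [DecidableEq β] in
lemma Conf.swap {tA : α → ℕ} {tB : β → ℕ} {PA : Finset α} {PB : Finset β}
    {m : (α → ℕ) × (β → ℕ)} (h : Conf tA tB PA PB m) : Conf tB tA PB PA m.swap :=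
  ⟨h.2.1, h.1, h.2.2.1.symm, h.2.2.2.2.1, h.2.2.2.1, fun b hb a ha => (h.2.2.2.2.2 a ha b hb).symm⟩

omit [DecidableEq α] [DecidableEq β] in
lemma Bd.swap {f : ℕ → ℝ} {tA : α → ℕ} {tB : β → ℕ} {PA : Finset α} {PB : Finset β} {X : ℝ}
    (h : Bd f tA tB PA PB X) : Bd f tB tA PB PA X := by
  intro Q hQ
  have h1 := h (Q.map ⟨Prod.swap, Prod.swap_bijective.injective⟩) (by
    intro m hm
    obtain ⟨m', hm', rfl⟩ := Finset.mem_map.1 hm
    exact (hQ m' hm').swap)
  rw [Finset.sum_map] at h1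
  refine le_trans (le_of_eq ?_) h1
  refine Finset.sum_congr rfl fun m hm => ?_
  simp only [Function.Embedding.coeFn_mk, Prod.fst_swap]
  rw [(hQ m hm).2.2.1]

end Conf

lemma log_three_le_two : Real.log 3 ≤ 2 := by
  have := Real.log_le_sub_one_of_pos (by norm_num : (0 : ℝ) < 3)
  linarith

lemma llg_le {H : ℕ} {z : ℝ} (hz : 1 ≤ z) (hz' : Real.log z ≤ 3 * Real.exp ((H : ℝ) + 1)) :
    0 ≤ llg z ∧ llg z ≤ (H : ℝ) + 5 := by
  have h16 : Real.exp 1 ≤ z + 16 := by linarith [Real.exp_one_lt_d9]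
  have h1 : (1 : ℝ) ≤ Real.log (z + 16) := by
    rw [Real.le_log_iff_exp_le (by linarith)]; exact h16
  refine ⟨Real.log_nonneg h1, ?_⟩
  unfold llg
  rw [Real.log_le_iff_le_exp (by linarith)]
  have hH : (1 : ℝ) ≤ Real.exp ((H : ℝ) + 1) := Real.one_le_exp (by positivity)
  have h17 : Real.log (z + 16) ≤ Real.log z + Real.log 17 := by
    rw [← Real.log_mul (by linarith) (by norm_num)]
    exact Real.log_le_log (by linarith) (by linarith)
  have hl17 : Real.log 17 ≤ 16 := by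
    have := Real.log_le_sub_one_of_pos (by norm_num : (0 : ℝ) < 17)
    linarith
  have he : Real.exp ((H : ℝ) + 5) = Real.exp ((H : ℝ) + 1) * Real.exp 4 := by
    rw [← Real.exp_add]; ring_nf
  have he4 : (19 : ℝ) ≤ Real.exp 4 := by
    have h2 : (2 : ℝ) ≤ Real.exp 1 := by linarith [Real.add_one_le_exp (1 : ℝ)]
    have h2' : Real.exp 4 = Real.exp 1 ^ 4 := by rw [← Real.exp_nat_mul]; norm_num
    have h27 : (2.7 : ℝ) ≤ Real.exp 1 := by linarith [Real.exp_one_gt_d9]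
    rw [h2']
    calc (19 : ℝ) ≤ 2.7 ^ 4 := by norm_num
      _ ≤ Real.exp 1 ^ 4 := pow_le_pow_left₀ (by norm_num) h27 4
  rw [he]
  nlinarith

/-- The sum over the removed prime when the other line is free. -/
lemma sum_one {C : ℝ} {k H t : ℕ} (hS : SieveBound C k) (hC : 0 < C) (htH : t ≤ H)
    (hY : 2 * ((t : ℝ) + 1) ^ 4 ≤ Real.exp t) (L : Finset ℕ) {a : ℕ} (ha : 1 ≤ a)
    (hla : Real.log a ≤ Real.exp ((H : ℝ) + 1))
    (hL : ∀ l ∈ L, l.Prime ∧ (a * l + 1).Prime ∧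
      Real.exp t / ((t : ℝ) + 1) ^ 4 ≤ Real.log l ∧ (l : ℝ) ≤ Real.exp (Real.exp ((t : ℝ) + 1))) :
    ∑ l ∈ L, (l : ℝ)⁻¹ ≤ C * 3 * ((H : ℝ) + 5) ^ (k + 12) * Real.exp (-(t : ℝ)) := by
  rcases L.eq_empty_or_nonempty with rfl | ⟨l0, hl0⟩
  · simp only [sum_empty]; positivity
  set u : ℝ := Real.exp t / ((t : ℝ) + 1) ^ 4 with hu
  set X : ℝ := Real.exp (Real.exp ((t : ℝ) + 1)) with hX
  have hu2 : 2 ≤ u := by rw [hu, le_div_iff₀ (by positivity)]; linarith
  have hY3 : (3 : ℝ) ≤ Real.exp u := by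
    rw [← Real.log_le_iff_le_exp (by norm_num)]
    linarith [log_three_le_two]
  have hYl : ∀ l ∈ L, Real.exp u ≤ (l : ℝ) := by
    intro l hl
    rw [← Real.le_log_iff_exp_le (by exact_mod_cast (hL l hl).1.pos)]
    exact (hL l hl).2.2.1
  obtain ⟨h2, -⟩ := hS X (Real.exp u) hY3 (le_trans (hYl l0 hl0) (hL l0 hl0).2.2.2) L
    (fun l hl => ⟨(hL l hl).1, hYl l hl, (hL l hl).2.2.2⟩)
  refine le_trans (h2 a ha (fun l hl => (hL l hl).2.1)).2 ?_
  have hlX : Real.log X = Real.exp ((t : ℝ) + 1) := by rw [hX, Real.log_exp]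
  rw [hlX, Real.log_exp]
  have hX1 : (1 : ℝ) ≤ X := Real.one_le_exp (Real.exp_pos _).le
  have ha1 : (1 : ℝ) ≤ a := by exact_mod_cast ha
  obtain ⟨hll0, hll⟩ := llg_le (H := H) (z := X * a) (one_le_mul_of_one_le_of_one_le hX1 ha1) (by
    rw [Real.log_mul (by linarith) (by linarith), hX, Real.log_exp]
    have : Real.exp ((t : ℝ) + 1) ≤ Real.exp ((H : ℝ) + 1) :=
      Real.exp_le_exp.2 (by exact_mod_cast Nat.add_le_add_right htH 1)
    linarith [Real.exp_pos ((H : ℝ) + 1)])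
  have e1 : Real.exp ((t : ℝ) + 1) = Real.exp t * Real.exp 1 := Real.exp_add _ _
  have he : Real.exp 1 ≤ 3 := by linarith [Real.exp_one_lt_d9]
  have hk : llg (X * a) ^ k ≤ ((H : ℝ) + 5) ^ k := pow_le_pow_left₀ hll0 hll k
  have ht1 : ((t : ℝ) + 1) ^ 8 ≤ ((H : ℝ) + 5) ^ 8 :=
    pow_le_pow_left₀ (by positivity) (by linarith [(Nat.cast_le (α := ℝ)).2 htH]) 8
  have h812 : ((H : ℝ) + 5) ^ 8 ≤ ((H : ℝ) + 5) ^ 12 :=
    pow_le_pow_right₀ (by linarith [(Nat.cast_nonneg H : (0 : ℝ) ≤ H)]) (by norm_num)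
  rw [e1, hu, Real.exp_neg, pow_add ((H : ℝ) + 5) k 12]
  field_simp
  calc Real.exp 1 * llg (X * a) ^ k * ((t : ℝ) + 1) ^ 8
      ≤ 3 * ((H : ℝ) + 5) ^ k * ((H : ℝ) + 5) ^ 12 :=
        mul_le_mul (mul_le_mul he hk (pow_nonneg hll0 k) (by norm_num)) (ht1.trans h812)
          (by positivity) (by positivity)
    _ = _ := by ring

/-- The sum over the removed prime when it frees two lines. -/
lemma sum_two {C : ℝ} {k H t t' : ℕ} (hS : SieveBound C k) (hC : 0 < C) (htH : t ≤ H)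
    (htH' : t' ≤ H) (hY : 2 * ((t : ℝ) + 1) ^ 4 ≤ Real.exp t)
    (hY' : 2 * ((t' : ℝ) + 1) ^ 4 ≤ Real.exp t') (L : Finset ℕ) {a b : ℕ} (ha : 1 ≤ a)
    (hb : 1 ≤ b) (hab : a ≠ b) (hla : Real.log a ≤ Real.exp ((H : ℝ) + 1))
    (hlb : Real.log b ≤ Real.exp ((H : ℝ) + 1))
    (hL : ∀ l ∈ L, l.Prime ∧ (a * l + 1).Prime ∧ (b * l + 1).Prime ∧
      Real.exp t / ((t : ℝ) + 1) ^ 4 ≤ Real.log l ∧
      Real.exp t' / ((t' : ℝ) + 1) ^ 4 ≤ Real.log l ∧
      (l : ℝ) ≤ Real.exp (Real.exp ((t : ℝ) + 1)) ∧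
      (l : ℝ) ≤ Real.exp (Real.exp ((t' : ℝ) + 1))) :
    ∑ l ∈ L, (l : ℝ)⁻¹ ≤
      C * 3 * ((H : ℝ) + 5) ^ (k + 12) * Real.exp (-(t : ℝ) - (t' : ℝ)) := by
  wlog htt : t ≤ t' generalizing t t' a b with Hw
  · have h := Hw htH' htH hY' hY hb ha hab.symm hlb hla (fun l hl => by
      obtain ⟨h1, h2, h3, h4, h5, h6, h7⟩ := hL l hl
      exact ⟨h1, h3, h2, h5, h4, h7, h6⟩) (le_of_not_ge htt)
    rwa [show -(t' : ℝ) - (t : ℝ) = -(t : ℝ) - (t' : ℝ) by ring] at h
  rcases L.eq_empty_or_nonempty with rfl | ⟨l0, hl0⟩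
  · simp only [sum_empty]; positivity
  set u : ℝ := Real.exp t' / ((t' : ℝ) + 1) ^ 4 with hu
  set X : ℝ := Real.exp (Real.exp ((t : ℝ) + 1)) with hX
  have hu2 : 2 ≤ u := by rw [hu, le_div_iff₀ (by positivity)]; linarith
  have hY3 : (3 : ℝ) ≤ Real.exp u := by
    rw [← Real.log_le_iff_le_exp (by norm_num)]
    linarith [log_three_le_two]
  have hYl : ∀ l ∈ L, Real.exp u ≤ (l : ℝ) := by
    intro l hl
    rw [← Real.le_log_iff_exp_le (by exact_mod_cast (hL l hl).1.pos)]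
    exact (hL l hl).2.2.2.2.1
  obtain ⟨-, h3⟩ := hS X (Real.exp u) hY3 (le_trans (hYl l0 hl0) (hL l0 hl0).2.2.2.2.2.1) L
    (fun l hl => ⟨(hL l hl).1, hYl l hl, (hL l hl).2.2.2.2.2.1⟩)
  refine le_trans (h3 a b ha hb hab (fun l hl => ⟨(hL l hl).2.1, (hL l hl).2.2.1⟩)).2 ?_
  have hlX : Real.log X = Real.exp ((t : ℝ) + 1) := by rw [hX, Real.log_exp]
  rw [hlX, Real.log_exp]
  have hX1 : (1 : ℝ) ≤ X := Real.one_le_exp (Real.exp_pos _).le
  have ha1 : (1 : ℝ) ≤ a := by exact_mod_cast ha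
  have hb1 : (1 : ℝ) ≤ b := by exact_mod_cast hb
  obtain ⟨hll0, hll⟩ := llg_le (H := H) (z := X * a * b)
    (one_le_mul_of_one_le_of_one_le (one_le_mul_of_one_le_of_one_le hX1 ha1) hb1) (by
    rw [Real.log_mul (by positivity) (by linarith), Real.log_mul (by linarith) (by linarith), hX,
      Real.log_exp]
    have : Real.exp ((t : ℝ) + 1) ≤ Real.exp ((H : ℝ) + 1) :=
      Real.exp_le_exp.2 (by exact_mod_cast Nat.add_le_add_right htH 1)
    linarith)
  have e1 : Real.exp ((t : ℝ) + 1) = Real.exp t * Real.exp 1 := Real.exp_add _ _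
  have he : Real.exp 1 ≤ 3 := by linarith [Real.exp_one_lt_d9]
  have hk : llg (X * a * b) ^ k ≤ ((H : ℝ) + 5) ^ k := pow_le_pow_left₀ hll0 hll k
  have ht1 : ((t' : ℝ) + 1) ^ 12 ≤ ((H : ℝ) + 5) ^ 12 :=
    pow_le_pow_left₀ (by positivity) (by linarith [(Nat.cast_le (α := ℝ)).2 htH']) 12
  have hmin : Real.exp t * Real.exp t ≤ Real.exp t' * Real.exp t' := by
    have := Real.exp_le_exp.2 ((Nat.cast_le (α := ℝ)).2 htt)
    exact mul_le_mul this this (Real.exp_pos _).le (Real.exp_pos _).le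
  rw [e1, hu, sub_eq_add_neg, Real.exp_add, Real.exp_neg, Real.exp_neg,
    pow_add ((H : ℝ) + 5) k 12]
  field_simp
  calc Real.exp t ^ 2 * Real.exp 1 * llg (X * a * b) ^ k * ((t' : ℝ) + 1) ^ 12
      ≤ Real.exp t' ^ 2 * 3 * ((H : ℝ) + 5) ^ k * ((H : ℝ) + 5) ^ 12 :=
        mul_le_mul (mul_le_mul (mul_le_mul (by nlinarith [hmin]) he (Real.exp_pos _).le
          (by positivity)) hk (pow_nonneg hll0 k) (by positivity)) ht1 (by positivity)
          (by positivity)
    _ = _ := by ring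

section Step

variable {α β : Type} [Fintype α] [Fintype β] [DecidableEq α] [DecidableEq β]

lemma prod_update_mul {γ : Type} [Fintype γ] [DecidableEq γ] (g : γ → ℕ) (c : γ) {l : ℕ}
    (hl : l ∣ g c) : l * ∏ x, Function.update g c (g c / l) x = ∏ x, g x := by
  rw [Finset.prod_update_of_mem (Finset.mem_univ c), ← mul_assoc, Nat.mul_div_cancel' hl,
    ← Finset.erase_eq, Finset.mul_prod_erase _ _ (Finset.mem_univ c)]

lemma cellsLe_of_dvd {m n t : ℕ} (h : CellsLe m t) (hd : n ∣ m) (hm : m ≠ 0) : CellsLe n t :=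
  fun p hp => h p (Nat.primeFactors_mono hd hm hp)

lemma log_div_le {t H m l : ℕ} (h : Pend t m) (htH : t ≤ H) (hl : l ∣ m) (hm : 1 ≤ m) :
    Real.log ((m / l : ℕ) : ℝ) ≤ Real.exp ((H : ℝ) + 1) := by
  have hpos : 0 < m / l := Nat.div_pos (Nat.le_of_dvd (by omega) hl)
    (Nat.pos_of_dvd_of_pos hl (by omega))
  calc Real.log ((m / l : ℕ) : ℝ) ≤ Real.log m :=
        Real.log_le_log (by exact_mod_cast hpos) (by exact_mod_cast Nat.div_le_self m l)
    _ ≤ Real.exp ((t : ℝ) + 1) := (Real.log_le_iff_le_exp (by exact_mod_cast hm)).2 h.2.2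
    _ ≤ Real.exp ((H : ℝ) + 1) :=
        Real.exp_le_exp.2 (by exact_mod_cast Nat.add_le_add_right htH 1)

/-- A line `a` carries the largest prime and `b` is a line on the other side containing it. -/
lemma step_le {f : ℕ → ℝ} (hf0 : ∀ n, 0 ≤ f n) (hf1 : ∀ n, f n ≤ 1)
    (hfm : ∀ m n, 0 < m → 0 < n → f (m * n) = f m * f n)
    {C : ℝ} {k H : ℕ} (hS : SieveBound C k) (hC : 0 < C) (tA : α → ℕ) (tB : β → ℕ)
    (PA : Finset α) (PB : Finset β)
    (hYA : ∀ a ∈ PA, tA a ≤ H ∧ 2 * ((tA a : ℝ) + 1) ^ 4 ≤ Real.exp (tA a))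
    (hYB : ∀ b ∈ PB, tB b ≤ H ∧ 2 * ((tB b : ℝ) + 1) ^ 4 ≤ Real.exp (tB b))
    {a : α} (ha : a ∈ PA) (b : β) {X' : ℝ} (hX : Bd f tA tB (PA.erase a) (PB.erase b) X')
    (Q : Finset ((α → ℕ) × (β → ℕ))) (hQ : ∀ m ∈ Q, Conf tA tB PA PB m ∧
      maxPrime (m.1 a) ∣ m.2 b ∧ (b ∈ PB → maxPrime (m.2 b) ≤ maxPrime (m.1 a))) :
    ∑ m ∈ Q, f (∏ x, m.1 x) / ((∏ x, m.1 x : ℕ) : ℝ) ≤
      C * 3 * ((H : ℝ) + 5) ^ (k + 12) *
        (Real.exp (-(tA a : ℝ)) * if b ∈ PB then Real.exp (-(tB b : ℝ)) else 1) * X' := by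
  classical
  set Z : ℝ := C * 3 * ((H : ℝ) + 5) ^ (k + 12) *
    (Real.exp (-(tA a : ℝ)) * if b ∈ PB then Real.exp (-(tB b : ℝ)) else 1) with hZ
  have hZ0 : 0 ≤ Z := by
    rw [hZ]; split_ifs <;> positivity
  set ψ : (α → ℕ) × (β → ℕ) → (α → ℕ) × (β → ℕ) := fun m =>
    (Function.update m.1 a (m.1 a / maxPrime (m.1 a)),
      Function.update m.2 b (m.2 b / maxPrime (m.1 a))) with hψ
  have hdata : ∀ m ∈ Q, (maxPrime (m.1 a)).Prime ∧ maxPrime (m.1 a) ∣ m.1 a ∧
      Conf tA tB (PA.erase a) (PB.erase b) (ψ m) ∧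
      ∏ x, m.1 x = maxPrime (m.1 a) * ∏ x, (ψ m).1 x := by
    intro m hm
    obtain ⟨hc, hdb, -⟩ := hQ m hm
    obtain ⟨hA, hB, heq, hPA, hPB, hne⟩ := hc
    obtain ⟨hlp, hla⟩ := maxPrime_prime_of_pend (hPA a ha)
    have e1 := prod_update_mul m.1 a hla
    have e2 := prod_update_mul m.2 b hdb
    refine ⟨hlp, hla, ⟨?_, ?_, ?_, ?_, ?_, ?_⟩, e1.symm⟩
    · intro x
      by_cases hx : x = a
      · subst hx
        simp only [hψ, Function.update_self]
        exact ⟨Nat.div_pos (Nat.le_of_dvd (hA x).1 hla) hlp.pos,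
          cellsLe_of_dvd (hA x).2 (Nat.div_dvd_of_dvd hla) (by have := (hA x).1; omega)⟩
      · simp only [hψ, Function.update_of_ne hx]; exact hA x
    · intro x
      by_cases hx : x = b
      · subst hx
        simp only [hψ, Function.update_self]
        exact ⟨Nat.div_pos (Nat.le_of_dvd (hB x).1 hdb) hlp.pos,
          cellsLe_of_dvd (hB x).2 (Nat.div_dvd_of_dvd hdb) (by have := (hB x).1; omega)⟩
      · simp only [hψ, Function.update_of_ne hx]; exact hB x
    · exact Nat.eq_of_mul_eq_mul_left hlp.pos (e1.trans (heq.trans e2.symm))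
    · intro x hx
      simp only [hψ, Function.update_of_ne (Finset.mem_erase.1 hx).1]
      exact hPA x (Finset.mem_erase.1 hx).2
    · intro x hx
      simp only [hψ, Function.update_of_ne (Finset.mem_erase.1 hx).1]
      exact hPB x (Finset.mem_erase.1 hx).2
    · intro x hx y hy
      simp only [hψ, Function.update_of_ne (Finset.mem_erase.1 hx).1,
        Function.update_of_ne (Finset.mem_erase.1 hy).1]
      exact hne x (Finset.mem_erase.1 hx).2 y (Finset.mem_erase.1 hy).2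
  have hfib : ∀ m' ∈ Q.image ψ,
      ∑ m ∈ Q with ψ m = m', f (∏ x, m.1 x) / ((∏ x, m.1 x : ℕ) : ℝ) ≤
        Z * (f (∏ x, m'.1 x) / ((∏ x, m'.1 x : ℕ) : ℝ)) := by
    intro m' hm'
    set Qm := Q.filter (fun m => ψ m = m') with hQm
    have hmem : ∀ m ∈ Qm, m ∈ Q ∧ ψ m = m' := fun m hm => Finset.mem_filter.1 hm
    have hval : ∀ m ∈ Qm, m.1 a = m'.1 a * maxPrime (m.1 a) ∧
        m.2 b = m'.2 b * maxPrime (m.1 a) := by
      intro m hm
      obtain ⟨h1, rfl⟩ := hmem m hm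
      simp only [hψ, Function.update_self]
      exact ⟨(Nat.div_mul_cancel (hdata m h1).2.1).symm,
        (Nat.div_mul_cancel (hQ m h1).2.1).symm⟩
    have hinj : Set.InjOn (fun m : (α → ℕ) × (β → ℕ) => maxPrime (m.1 a)) Qm := by
      intro m hm n hn he
      simp only at he
      have hm' := hmem m hm
      have hn' := hmem n hn
      have hp : ψ m = ψ n := hm'.2.trans hn'.2.symm
      simp only [hψ, Prod.ext_iff] at hp
      refine Prod.ext (funext fun x => ?_) (funext fun x => ?_)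
      · by_cases hx : x = a
        · subst hx; rw [(hval m hm).1, (hval n hn).1, he]
        · have := congrFun hp.1 x
          rwa [Function.update_of_ne hx, Function.update_of_ne hx] at this
      · by_cases hx : x = b
        · subst hx; rw [(hval m hm).2, (hval n hn).2, he]
        · have := congrFun hp.2 x
          rwa [Function.update_of_ne hx, Function.update_of_ne hx] at this
    set L := Qm.image (fun m => maxPrime (m.1 a)) with hLdef
    have hsum : ∑ m ∈ Qm, (maxPrime (m.1 a) : ℝ)⁻¹ ≤ Z := by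
      rw [← Finset.sum_image (f := fun l : ℕ => (l : ℝ)⁻¹) hinj, ← hLdef]
      obtain ⟨m0, hm0, rfl⟩ := Finset.mem_image.1 hm'
      have hc0 := (hdata m0 hm0).2.2.1
      have ha1 : 1 ≤ (ψ m0).1 a := (hc0.1 a).1
      have hla : Real.log ((ψ m0).1 a) ≤ Real.exp ((H : ℝ) + 1) := by
        simp only [hψ, Function.update_self]
        exact log_div_le ((hQ m0 hm0).1.2.2.2.1 a ha) (hYA a ha).1 (hdata m0 hm0).2.1
          ((hQ m0 hm0).1.1 a).1
      by_cases hb : b ∈ PB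
      · simp only [hb, if_true] at hZ
        rw [hZ, ← Real.exp_add, ← sub_eq_add_neg]
        refine sum_two hS hC (hYA a ha).1 (hYB b hb).1 (hYA a ha).2 (hYB b hb).2 L
          (a := (ψ m0).1 a) (b := (ψ m0).2 b) ha1 (hc0.2.1 b).1 ?_ hla ?_ ?_
        · intro he
          simp only [hψ, Function.update_self] at he
          apply (hQ m0 hm0).1.2.2.2.2.2 a ha b hb
          rw [← Nat.div_mul_cancel (hdata m0 hm0).2.1,
            ← Nat.div_mul_cancel (hQ m0 hm0).2.1, he]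
        · simp only [hψ, Function.update_self]
          exact log_div_le ((hQ m0 hm0).1.2.2.2.2.1 b hb) (hYB b hb).1 (hQ m0 hm0).2.1
            ((hQ m0 hm0).1.2.1 b).1
        · intro l hl
          obtain ⟨m, hm, rfl⟩ := Finset.mem_image.1 hl
          obtain ⟨h1, h2⟩ := hmem m hm
          obtain ⟨hc, hdb, hmax⟩ := hQ m h1
          have pa := hc.2.2.2.1 a ha
          have pb := hc.2.2.2.2.1 b hb
          refine ⟨(hdata m h1).1, ?_, ?_, exp_large_of_pend pa, ?_, ?_, ?_⟩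
          · rw [← (hval m hm).1]; exact pa.1
          · rw [← (hval m hm).2]; exact pb.1
          · refine (exp_large_of_pend pb).trans (Real.log_le_log ?_ (by exact_mod_cast hmax hb))
            exact_mod_cast (maxPrime_prime_of_pend pb).1.pos
          · exact le_trans (by exact_mod_cast Nat.le_of_dvd (hc.1 a).1 (hdata m h1).2.1) pa.2.2
          · exact le_trans (by exact_mod_cast Nat.le_of_dvd (hc.2.1 b).1 hdb) pb.2.2
      · simp only [hb, if_false, mul_one] at hZ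
        rw [hZ]
        refine sum_one hS hC (hYA a ha).1 (hYA a ha).2 L ha1 hla ?_
        intro l hl
        obtain ⟨m, hm, rfl⟩ := Finset.mem_image.1 hl
        obtain ⟨h1, h2⟩ := hmem m hm
        have pa := (hQ m h1).1.2.2.2.1 a ha
        refine ⟨(hdata m h1).1, ?_, exp_large_of_pend pa, ?_⟩
        · rw [← (hval m hm).1]; exact pa.1
        · exact le_trans (by exact_mod_cast Nat.le_of_dvd ((hQ m h1).1.1 a).1 (hdata m h1).2.1)
            pa.2.2
    have hterm : ∀ m ∈ Qm, f (∏ x, m.1 x) / ((∏ x, m.1 x : ℕ) : ℝ) ≤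
        (maxPrime (m.1 a) : ℝ)⁻¹ * (f (∏ x, m'.1 x) / ((∏ x, m'.1 x : ℕ) : ℝ)) := by
      intro m hm
      obtain ⟨h1, rfl⟩ := hmem m hm
      obtain ⟨hp, -, hc, he⟩ := hdata m h1
      have hpos : 0 < ∏ x, (ψ m).1 x := Finset.prod_pos fun x _ => (hc.1 x).1
      rw [he, hfm _ _ hp.pos hpos, Nat.cast_mul]
      rw [← mul_div_assoc, inv_mul_eq_div, div_div]
      apply div_le_div_of_nonneg_right ?_ (by positivity)
      calc _ ≤ 1 * f (∏ x, (ψ m).1 x) := mul_le_mul_of_nonneg_right (hf1 _) (hf0 _)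
        _ = _ := one_mul _
    calc _ ≤ _ := Finset.sum_le_sum hterm
      _ = (∑ m ∈ Qm, (maxPrime (m.1 a) : ℝ)⁻¹) *
          (f (∏ x, m'.1 x) / ((∏ x, m'.1 x : ℕ) : ℝ)) := by rw [Finset.sum_mul]
      _ ≤ _ := mul_le_mul_of_nonneg_right hsum (div_nonneg (hf0 _) (Nat.cast_nonneg _))
  rw [← Finset.sum_fiberwise_of_maps_to (fun m hm => Finset.mem_image_of_mem ψ hm)]
  calc _ ≤ ∑ m' ∈ Q.image ψ, Z * (f (∏ x, m'.1 x) / ((∏ x, m'.1 x : ℕ) : ℝ)) :=
        Finset.sum_le_sum hfib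
    _ = Z * ∑ m' ∈ Q.image ψ, f (∏ x, m'.1 x) / ((∏ x, m'.1 x : ℕ) : ℝ) := by rw [Finset.mul_sum]
    _ ≤ Z * X' := by
        refine mul_le_mul_of_nonneg_left (hX _ fun m' hm' => ?_) hZ0
        obtain ⟨m, hm, rfl⟩ := Finset.mem_image.1 hm'
        exact (hdata m hm).2.2.1

/-- The saving of the pending lines. -/
def saving (D : ℝ) (tA : α → ℕ) (tB : β → ℕ) (PA : Finset α) (PB : Finset β) : ℝ :=
  (∏ a ∈ PA, D * Real.exp (-(tA a : ℝ))) * ∏ b ∈ PB, D * Real.exp (-(tB b : ℝ))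

omit [Fintype α] [Fintype β] [DecidableEq α] [DecidableEq β] in
lemma saving_swap (D : ℝ) (tA : α → ℕ) (tB : β → ℕ) (PA : Finset α) (PB : Finset β) :
    saving D tB tA PB PA = saving D tA tB PA PB := by
  unfold saving; ring

omit [Fintype α] [Fintype β] [DecidableEq α] [DecidableEq β] in
lemma saving_pos {D : ℝ} (hD : 0 < D) (tA : α → ℕ) (tB : β → ℕ) (PA : Finset α)
    (PB : Finset β) : 0 < saving D tA tB PA PB := by
  refine mul_pos (Finset.prod_pos fun a _ => ?_) (Finset.prod_pos fun b _ => ?_) <;>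
    exact mul_pos hD (Real.exp_pos _)

omit [Fintype α] [Fintype β] in
lemma saving_erase {D : ℝ} (hD : 1 ≤ D) (tA : α → ℕ) (tB : β → ℕ) {PA : Finset α}
    (PB : Finset β) {a : α} (ha : a ∈ PA) (b : β) :
    (Real.exp (-(tA a : ℝ)) * if b ∈ PB then Real.exp (-(tB b : ℝ)) else 1) *
        saving D tA tB (PA.erase a) (PB.erase b) ≤ saving D tA tB PA PB / D := by
  have hD0 : 0 < D := by linarith
  unfold saving
  rw [← Finset.mul_prod_erase PA _ ha]
  have hp : 0 ≤ ∏ x ∈ PA.erase a, D * Real.exp (-(tA x : ℝ)) :=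
    Finset.prod_nonneg fun x _ => by positivity
  have hq : 0 ≤ ∏ x ∈ PB.erase b, D * Real.exp (-(tB x : ℝ)) :=
    Finset.prod_nonneg fun x _ => by positivity
  by_cases hb : b ∈ PB
  · rw [if_pos hb, ← Finset.mul_prod_erase PB (fun x => D * Real.exp (-(tB x : ℝ))) hb,
      le_div_iff₀ hD0]
    have he : 0 ≤ Real.exp (-(tA a : ℝ)) * Real.exp (-(tB b : ℝ)) *
        (∏ x ∈ PA.erase a, D * Real.exp (-(tA x : ℝ))) *
        (∏ x ∈ PB.erase b, D * Real.exp (-(tB x : ℝ))) := by positivity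
    nlinarith [mul_le_mul_of_nonneg_left hD (mul_nonneg hD0.le he)]
  · rw [if_neg hb, Finset.erase_eq_of_notMem hb, le_div_iff₀ hD0]
    exact le_of_eq (by ring)

lemma sum_le_sum_choices {ι κ : Type} (Q : Finset ι) (I : Finset κ) (φ : ι → ℝ)
    (P : κ → ι → Prop) [∀ i x, Decidable (P i x)] (hφ : ∀ x ∈ Q, 0 ≤ φ x)
    (h : ∀ x ∈ Q, ∃ i ∈ I, P i x) :
    ∑ x ∈ Q, φ x ≤ ∑ i ∈ I, ∑ x ∈ Q with P i x, φ x := by
  simp only [Finset.sum_filter]
  rw [Finset.sum_comm]
  refine Finset.sum_le_sum fun x hx => ?_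
  obtain ⟨i, hi, hP⟩ := h x hx
  calc φ x = if P i x then φ x else 0 := (if_pos hP).symm
    _ ≤ _ := Finset.single_le_sum (f := fun j => if P j x then φ x else 0)
        (fun j _ => by
          split_ifs
          · exact hφ x hx
          · exact le_rfl) hi

lemma exists_dvd_line {γ : Type} [Fintype γ] (g : γ → ℕ) {l : ℕ} (hl : l.Prime)
    (h : l ∣ ∏ x, g x) : ∃ x, l ∣ g x := by
  obtain ⟨x, -, hx⟩ := (hl.prime.dvd_finsetProd_iff g).1 h
  exact ⟨x, hx⟩

/-- The weight of the configurations is the weight of the free ones times the savings. -/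
theorem peel {f : ℕ → ℝ} (hf0 : ∀ n, 0 ≤ f n) (hf1 : ∀ n, f n ≤ 1)
    (hfm : ∀ m n, 0 < m → 0 < n → f (m * n) = f m * f n)
    {C : ℝ} {k H : ℕ} (hS : SieveBound C k) (hC : 0 < C) (tA : α → ℕ) (tB : β → ℕ)
    {B D : ℝ} (hB : 0 ≤ B) (hD1 : 1 ≤ D)
    (hD : 2 * ((Fintype.card α : ℝ) + Fintype.card β) ^ 2 *
      (C * 3 * ((H : ℝ) + 5) ^ (k + 12)) ≤ D)
    (hbase : Bd f tA tB ∅ ∅ B) :
    ∀ (PA : Finset α) (PB : Finset β),
      (∀ a ∈ PA, tA a ≤ H ∧ 2 * ((tA a : ℝ) + 1) ^ 4 ≤ Real.exp (tA a)) →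
      (∀ b ∈ PB, tB b ≤ H ∧ 2 * ((tB b : ℝ) + 1) ^ 4 ≤ Real.exp (tB b)) →
      Bd f tA tB PA PB (B * saving D tA tB PA PB) := by
  classical
  intro PA PB
  induction hn : PA.card + PB.card using Nat.strong_induction_on generalizing PA PB with
  | _ n ih =>
    intro hYA hYB Q hQ
    subst hn
    by_cases hempty : PA = ∅ ∧ PB = ∅
    · obtain ⟨rfl, rfl⟩ := hempty
      simpa [saving] using hbase Q hQ
    set S0 := saving D tA tB PA PB with hS0
    set D0 : ℝ := C * 3 * ((H : ℝ) + 5) ^ (k + 12) with hD0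
    have hS0pos : 0 < S0 := saving_pos (by linarith) _ _ _ _
    set φ : (α → ℕ) × (β → ℕ) → ℝ := fun m => f (∏ x, m.1 x) / ((∏ x, m.1 x : ℕ) : ℝ) with hφ
    have hφ0 : ∀ m, 0 ≤ φ m := fun m => div_nonneg (hf0 _) (Nat.cast_nonneg _)
    set TopA : α → (α → ℕ) × (β → ℕ) → Prop := fun a m =>
      (∀ x ∈ PA, maxPrime (m.1 x) ≤ maxPrime (m.1 a)) ∧
        ∀ y ∈ PB, maxPrime (m.2 y) ≤ maxPrime (m.1 a) with hTopA
    set TopB : β → (α → ℕ) × (β → ℕ) → Prop := fun b m =>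
      (∀ x ∈ PA, maxPrime (m.1 x) ≤ maxPrime (m.2 b)) ∧
        ∀ y ∈ PB, maxPrime (m.2 y) ≤ maxPrime (m.2 b) with hTopB
    set I : Finset ((α × β) ⊕ (β × α)) :=
      (PA ×ˢ (Finset.univ : Finset β)).disjSum (PB ×ˢ (Finset.univ : Finset α)) with hI
    set P : (α × β) ⊕ (β × α) → (α → ℕ) × (β → ℕ) → Prop := fun i m => match i with
      | .inl ab => maxPrime (m.1 ab.1) ∣ m.2 ab.2 ∧ TopA ab.1 m
      | .inr ba => maxPrime (m.2 ba.1) ∣ m.1 ba.2 ∧ TopB ba.1 m with hP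
    have hcover : ∀ m ∈ Q, ∃ i ∈ I, P i m := by
      intro m hm
      obtain ⟨hA, hB', heq, hPA, hPB, hne⟩ := hQ m hm
      set val : α ⊕ β → ℕ := Sum.elim (fun x => maxPrime (m.1 x)) (fun y => maxPrime (m.2 y))
        with hval
      have hne' : (PA.disjSum PB).Nonempty := by
        rw [Finset.nonempty_iff_ne_empty]
        intro he
        apply hempty
        rw [Finset.disjSum_eq_empty] at he
        exact he
      obtain ⟨z, hz, hmax⟩ := Finset.exists_max_image (PA.disjSum PB) val hne'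
      have hmA : ∀ x ∈ PA, maxPrime (m.1 x) ≤ val z := fun x hx =>
        hmax (Sum.inl x) (Finset.inl_mem_disjSum.2 hx)
      have hmB : ∀ y ∈ PB, maxPrime (m.2 y) ≤ val z := fun y hy =>
        hmax (Sum.inr y) (Finset.inr_mem_disjSum.2 hy)
      rcases z with a | b
      · have ha := Finset.inl_mem_disjSum.1 hz
        obtain ⟨hp, hd⟩ := maxPrime_prime_of_pend (hPA a ha)
        obtain ⟨b, hb⟩ := exists_dvd_line m.2 hp
          (heq ▸ hd.trans (Finset.dvd_prod_of_mem _ (Finset.mem_univ a)))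
        refine ⟨Sum.inl (a, b), ?_, hb, hmA, hmB⟩
        simp [hI, ha]
      · have hb := Finset.inr_mem_disjSum.1 hz
        obtain ⟨hp, hd⟩ := maxPrime_prime_of_pend (hPB b hb)
        obtain ⟨a, ha⟩ := exists_dvd_line m.1 hp
          (heq ▸ hd.trans (Finset.dvd_prod_of_mem _ (Finset.mem_univ b)))
        refine ⟨Sum.inr (b, a), ?_, ha, hmA, hmB⟩
        simp [hI, hb]
    have hone : ∀ i ∈ I, ∀ Q' : Finset ((α → ℕ) × (β → ℕ)),
        (∀ m ∈ Q', Conf tA tB PA PB m ∧ P i m) →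
        ∑ m ∈ Q', φ m ≤ D0 * (B * (S0 / D)) := by
      intro i hi Q' hQ'
      rcases i with ⟨a, b⟩ | ⟨b, a⟩
      · have ha : a ∈ PA := by simpa [hI] using hi
        have hlt : (PA.erase a).card + (PB.erase b).card < PA.card + PB.card := by
          have := Finset.card_erase_lt_of_mem ha
          have := Finset.card_erase_le (s := PB) (a := b)
          omega
        have hX := ih _ hlt (PA.erase a) (PB.erase b) rfl
          (fun x hx => hYA x (Finset.mem_of_mem_erase hx))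
          (fun x hx => hYB x (Finset.mem_of_mem_erase hx))
        refine (step_le hf0 hf1 hfm hS hC tA tB PA PB hYA hYB ha b hX Q'
          (fun m hm => by
            obtain ⟨h1, h2⟩ := hQ' m hm
            exact ⟨h1, h2.1, fun hb => h2.2.2 b hb⟩)).trans ?_
        rw [← hD0, mul_assoc D0]
        refine mul_le_mul_of_nonneg_left ?_ (by positivity)
        rw [mul_left_comm]
        exact mul_le_mul_of_nonneg_left (saving_erase hD1 tA tB PB ha b) hB
      · have hb : b ∈ PB := by simpa [hI] using hi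
        have hlt : (PA.erase a).card + (PB.erase b).card < PA.card + PB.card := by
          have := Finset.card_erase_lt_of_mem hb
          have := Finset.card_erase_le (s := PA) (a := a)
          omega
        have hX := (ih _ hlt (PA.erase a) (PB.erase b) rfl
          (fun x hx => hYA x (Finset.mem_of_mem_erase hx))
          (fun x hx => hYB x (Finset.mem_of_mem_erase hx))).swap
        have h := step_le hf0 hf1 hfm hS hC tB tA PB PA hYB hYA hb a hX
          (Q'.map ⟨Prod.swap, Prod.swap_bijective.injective⟩)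
          (fun m hm => by
            obtain ⟨m', hm', rfl⟩ := Finset.mem_map.1 hm
            obtain ⟨h1, h2⟩ := hQ' m' hm'
            exact ⟨h1.swap, h2.1, fun ha => h2.2.1 a ha⟩)
        rw [Finset.sum_map] at h
        refine le_trans (le_of_eq (Finset.sum_congr rfl fun m hm => ?_)) (h.trans ?_)
        · simp only [hφ, Function.Embedding.coeFn_mk, Prod.fst_swap]
          rw [(hQ' m hm).1.2.2.1]
        rw [← hD0, mul_assoc D0]
        refine mul_le_mul_of_nonneg_left ?_ (by positivity)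
        rw [mul_left_comm]
        refine mul_le_mul_of_nonneg_left ?_ hB
        rw [hS0, ← saving_swap D tA tB PA PB, ← saving_swap D tA tB (PA.erase a) (PB.erase b)]
        exact saving_erase hD1 tB tA PA hb a
    calc ∑ m ∈ Q, φ m ≤ ∑ i ∈ I, ∑ m ∈ Q with P i m, φ m :=
          sum_le_sum_choices Q I φ P (fun m _ => hφ0 m) hcover
      _ ≤ ∑ i ∈ I, D0 * (B * (S0 / D)) := Finset.sum_le_sum fun i hi => hone i hi _ fun m hm =>
          ⟨hQ m (Finset.mem_filter.1 hm).1, (Finset.mem_filter.1 hm).2⟩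
      _ = (I.card : ℝ) * D0 / D * (B * S0) := by
          rw [Finset.sum_const, nsmul_eq_mul]; ring
      _ ≤ 1 * (B * S0) := by
          refine mul_le_mul_of_nonneg_right ?_ (mul_nonneg hB hS0pos.le)
          rw [div_le_one (by linarith)]
          refine le_trans (mul_le_mul_of_nonneg_right ?_ (by positivity)) hD
          have h1 : PA.card ≤ Fintype.card α := Finset.card_le_univ _
          have h2 : PB.card ≤ Fintype.card β := Finset.card_le_univ _
          simp only [hI, Finset.card_disjSum, Finset.card_product, Finset.card_univ]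
          push_cast
          have h1' : (PA.card : ℝ) ≤ Fintype.card α := by exact_mod_cast h1
          have h2' : (PB.card : ℝ) ≤ Fintype.card β := by exact_mod_cast h2
          have n1 : (0 : ℝ) ≤ Fintype.card α := Nat.cast_nonneg _
          have n2 : (0 : ℝ) ≤ Fintype.card β := Nat.cast_nonneg _
          nlinarith [mul_le_mul_of_nonneg_right h1' n2, mul_le_mul_of_nonneg_right h2' n1]
      _ = B * S0 := one_mul _

end Step

end P031.Pairs
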