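import Vale.Agent.P031.Tools
import Vale.Agent.P031.PairsPeel

/-!
The weight of two free factorisations of one number, and the passage from reciprocals to tilted
weights for numbers with few prime factors in every range of scales.
-/

open Finset

noncomputable section

namespace P031.PairCnt

open P031.Pairs

/-! ### Weights -/

/-- The completely multiplicative weight with value `y (cell p)` at the prime `p`. -/
def wt (y : ℕ → ℝ) (n : ℕ) : ℝ := n.factorization.prod fun p e => y (cell p) ^ e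

lemma wt_eq (y : ℕ → ℝ) (n : ℕ) :
    wt y n = ∏ p ∈ n.primeFactors, y (cell p) ^ n.factorization p := by
  rw [wt, Finsupp.prod, Nat.support_factorization]

lemma wt_one (y : ℕ → ℝ) : wt y 1 = 1 := by simp [wt]

lemma wt_mul (y : ℕ → ℝ) {m n : ℕ} (hm : 0 < m) (hn : 0 < n) :
    wt y (m * n) = wt y m * wt y n := by
  rw [wt, wt, wt, Nat.factorization_mul hm.ne' hn.ne',
    Finsupp.prod_add_index' (fun p => pow_zero _) (fun p a b => pow_add _ a b)]

lemma wt_nonneg {y : ℕ → ℝ} (hy : ∀ j, 0 ≤ y j) (n : ℕ) : 0 ≤ wt y n := by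
  rw [wt_eq]
  exact Finset.prod_nonneg fun p _ => pow_nonneg (hy _) _

lemma wt_le_one {y : ℕ → ℝ} (hy : ∀ j, 0 ≤ y j) (hy1 : ∀ j, y j ≤ 1) (n : ℕ) : wt y n ≤ 1 := by
  rw [wt_eq]
  exact Finset.prod_le_one (fun p _ => pow_nonneg (hy _) _) fun p _ =>
    pow_le_one₀ (hy _) (hy1 _)

lemma wt_prod (y : ℕ → ℝ) {ι : Type} (s : Finset ι) (g : ι → ℕ) (hg : ∀ i ∈ s, 0 < g i) :
    wt y (∏ i ∈ s, g i) = ∏ i ∈ s, wt y (g i) := by
  classical
  induction s using Finset.induction_on with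
  | empty => simp [wt_one]
  | insert a s ha ih =>
    rw [Finset.prod_insert ha, Finset.prod_insert ha, wt_mul y (hg a (mem_insert_self a s))
      (Finset.prod_pos fun i hi => hg i (mem_insert_of_mem hi)),
      ih fun i hi => hg i (mem_insert_of_mem hi)]

/-! ### Refinements -/

lemma dvd_prod_split {β : Type} [DecidableEq β] (s : Finset β) (g : β → ℕ) :
    ∀ m : ℕ, m ∣ ∏ b ∈ s, g b → ∃ e : β → ℕ, (∀ b ∈ s, e b ∣ g b) ∧ ∏ b ∈ s, e b = m := by
  induction s using Finset.induction_on with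
  | empty =>
    intro m hm
    refine ⟨fun _ => 1, by simp, ?_⟩
    simpa [eq_comm] using hm
  | insert a s ha ih =>
    intro m hm
    rw [Finset.prod_insert ha] at hm
    obtain ⟨k1, k2, h1, h2, rfl⟩ := Nat.dvd_mul.1 hm
    obtain ⟨e, he, he'⟩ := ih k2 h2
    refine ⟨Function.update e a k1, ?_, ?_⟩
    · intro b hb
      by_cases hba : b = a
      · subst hba; simpa using h1
      · rw [Function.update_of_ne hba]
        exact he b ((Finset.mem_insert.1 hb).resolve_left hba)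
    · rw [Finset.prod_insert ha, Function.update_self]
      congr 1
      exact (Finset.prod_congr rfl fun b hb => Function.update_of_ne (fun h : b = a => ha (h ▸ hb))
        _ _).trans he'

lemma refine_aux {α β : Type} [DecidableEq α] [Fintype β] [DecidableEq β] (mA : α → ℕ)
    (hA : ∀ a, 0 < mA a) (s : Finset α) :
    ∀ mB : β → ℕ, ∏ a ∈ s, mA a = ∏ b, mB b →
      ∃ d : α → β → ℕ, (∀ a ∈ s, ∏ b, d a b = mA a) ∧ ∀ b, ∏ a ∈ s, d a b = mB b := by
  induction s using Finset.induction_on with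
  | empty =>
    intro mB h
    refine ⟨fun _ _ => 1, by simp, fun b => ?_⟩
    rw [Finset.prod_empty] at h ⊢
    exact (Finset.prod_eq_one_iff.1 h.symm b (mem_univ b)).symm
  | insert a s ha ih =>
    intro mB h
    rw [Finset.prod_insert ha] at h
    obtain ⟨e, he, he'⟩ := dvd_prod_split univ mB (mA a) ⟨_, h.symm⟩
    have hmul : ∏ x ∈ s, mA x = ∏ b, mB b / e b := by
      apply Nat.eq_of_mul_eq_mul_left (hA a)
      rw [h]
      conv_rhs => arg 1; rw [← he']
      rw [← Finset.prod_mul_distrib]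
      exact Finset.prod_congr rfl fun b _ => (Nat.mul_div_cancel' (he b (mem_univ b))).symm
    obtain ⟨d, hd1, hd2⟩ := ih _ hmul
    refine ⟨Function.update d a e, ?_, ?_⟩
    · intro x hx
      by_cases hxa : x = a
      · subst hxa; simpa using he'
      · rw [Function.update_of_ne hxa]
        exact hd1 x ((Finset.mem_insert.1 hx).resolve_left hxa)
    · intro b
      rw [Finset.prod_insert ha, Function.update_self,
        Finset.prod_congr rfl fun x hx => congrFun (Function.update_of_ne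
          (by rintro rfl; exact ha hx) e d) b, hd2 b]
      exact Nat.mul_div_cancel' (he b (mem_univ b))

/-- Two factorisations of one number have a common refinement. -/
lemma exists_refine {α β : Type} [Fintype α] [DecidableEq α] [Fintype β] [DecidableEq β]
    (mA : α → ℕ) (mB : β → ℕ) (hA : ∀ a, 0 < mA a) (h : ∏ a, mA a = ∏ b, mB b) :
    ∃ d : α × β → ℕ, (∀ a, ∏ b, d (a, b) = mA a) ∧ ∀ b, ∏ a, d (a, b) = mB b := by
  obtain ⟨d, h1, h2⟩ := refine_aux mA hA univ mB h
  exact ⟨fun x => d x.1 x.2, fun a => h1 a (mem_univ a), h2⟩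

/-! ### The free configurations -/

lemma sum_cell_mass_le {M : ℕ → ℝ} (hM : ∀ j, ∑ p ∈ cellPrimes j, (p : ℝ)⁻¹ ≤ M j)
    {y : ℕ → ℝ} (hy : ∀ j, 0 ≤ y j) (hy1 : ∀ j, y j ≤ 1) (F : Finset ℕ) (m : ℕ)
    (hF : ∀ n ∈ F, n ≠ 0 ∧ CellsLe n m) :
    ∑ n ∈ F, wt y n / n ≤ Real.exp (∑ j ∈ range (m + 1), y j * M j + 2) := by
  classical
  set P := (range (m + 1)).biUnion cellPrimes with hP
  have hPp : ∀ p ∈ P, p.Prime := by
    intro p hp
    obtain ⟨j, -, hj⟩ := mem_biUnion.1 hp
    exact (mem_cellPrimes.1 hj).1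
  have hsub : ∀ n ∈ F, n.primeFactors ⊆ P := by
    intro n hn p hp
    exact mem_biUnion.2 ⟨cell p, mem_range.2 (Nat.lt_succ_of_le ((hF n hn).2 p hp)),
      mem_cellPrimes.2 ⟨Nat.prime_of_mem_primeFactors hp, rfl⟩⟩
  have hg : ∀ p ∈ P, 0 ≤ y (cell p) / p ∧ y (cell p) / p ≤ 1 / 2 := by
    intro p hp
    have h2 : (2 : ℝ) ≤ p := by exact_mod_cast (hPp p hp).two_le
    refine ⟨div_nonneg (hy _) (by linarith), ?_⟩
    exact (div_le_div₀ zero_le_one (hy1 _) (by norm_num) h2)
  have h1 : ∑ n ∈ F, wt y n / n =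
      ∑ n ∈ F, ∏ p ∈ P, (y (cell p) / p) ^ n.factorization p := by
    refine sum_congr rfl fun n hn => ?_
    rw [weight_div_eq (fun p => y (cell p)) P (hF n hn).1 (hsub n hn), wt_eq]
  rw [h1]
  refine (euler_bound _ P hPp (fun p hp => ⟨(hg p hp).1, by linarith [(hg p hp).2]⟩) F
    fun n hn => ⟨(hF n hn).1, hsub n hn⟩).trans ?_
  refine (prod_inv_one_sub_le_exp _ P fun p hp => by linarith [(hg p hp).2]).trans ?_
  apply Real.exp_le_exp.2
  have h2 : ∀ p ∈ P, y (cell p) / p / (1 - y (cell p) / p) ≤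
      y (cell p) * (p : ℝ)⁻¹ + 2 * ((p : ℝ) ^ 2)⁻¹ := by
    intro p hp
    obtain ⟨h0, hh⟩ := hg p hp
    rw [← div_eq_mul_inv]
    rw [div_le_iff₀ (by linarith)]
    have hp0 : (0 : ℝ) < p := by exact_mod_cast (hPp p hp).pos
    have h3 : y (cell p) / p ≤ 1 / p := div_le_div_of_nonneg_right (hy1 _) hp0.le
    have h4 : ((p : ℝ) ^ 2)⁻¹ = (1 / p) ^ 2 := by rw [div_pow, one_pow, one_div]
    rw [h4]
    nlinarith
  refine (sum_le_sum h2).trans ?_
  rw [sum_add_distrib, ← mul_sum]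
  have hA : ∑ p ∈ P, y (cell p) * (p : ℝ)⁻¹ ≤ ∑ j ∈ range (m + 1), y j * M j := by
    rw [hP, sum_biUnion (fun i _ j _ hij => cellPrimes_disjoint hij)]
    refine sum_le_sum fun j _ => ?_
    calc _ = y j * ∑ p ∈ cellPrimes j, (p : ℝ)⁻¹ := by
          rw [mul_sum]
          exact sum_congr rfl fun p hp => by rw [(mem_cellPrimes.1 hp).2]
      _ ≤ _ := mul_le_mul_of_nonneg_left (hM j) (hy j)
  have hB : ∑ p ∈ P, ((p : ℝ) ^ 2)⁻¹ ≤ 1 := by
    set n := P.sup id
    refine (sum_le_sum_of_subset_of_nonneg (t := Ioc 1 (max 1 n)) ?_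
      (fun _ _ _ => by positivity)).trans ?_
    · intro p hp
      exact mem_Ioc.2 ⟨(hPp p hp).one_lt, le_trans (le_sup (f := id) hp) (le_max_right _ _)⟩
    · have := sum_Ioc_inv_sq_le_sub (α := ℝ) (k := 1) (n := max 1 n) one_ne_zero (le_max_left _ _)
      refine this.trans ?_
      simp only [Nat.cast_one, inv_one]
      linarith [inv_nonneg.2 (Nat.cast_nonneg (max 1 n) : (0 : ℝ) ≤ _)]
  linarith

variable {α β : Type} [Fintype α] [Fintype β] [DecidableEq α] [DecidableEq β]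

/-- The number of lines of scale at least `j`. -/
def lines {γ : Type} [Fintype γ] (t : γ → ℕ) (j : ℕ) : ℕ := (univ.filter fun x => j ≤ t x).card

omit [DecidableEq α] [DecidableEq β] in
lemma sum_pairs_eq (tA : α → ℕ) (tB : β → ℕ) {H : ℕ} (hA : ∀ a, tA a ≤ H) (h : ℕ → ℝ) :
    ∑ x : α × β, ∑ j ∈ range (min (tA x.1) (tB x.2) + 1), h j =
      ∑ j ∈ range (H + 1), h j * ((lines tA j : ℝ) * lines tB j) := by
  classical
  have e : ∀ x : α × β, ∑ j ∈ range (min (tA x.1) (tB x.2) + 1), h j =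
      ∑ j ∈ range (H + 1), if j ≤ tA x.1 ∧ j ≤ tB x.2 then h j else 0 := by
    intro x
    rw [← sum_filter]
    refine sum_congr ?_ fun _ _ => rfl
    ext j
    simp only [mem_range, mem_filter]
    have := hA x.1
    omega
  rw [sum_congr rfl fun x _ => e x, sum_comm]
  refine sum_congr rfl fun j _ => ?_
  rw [← sum_filter, sum_const, nsmul_eq_mul, mul_comm]
  congr 1
  rw [lines, lines, ← Nat.cast_mul, ← card_product]
  congr 2
  ext ⟨a, b⟩
  simp

/-- The weight of all pairs of free factorisations. -/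
theorem bd_base (tA : α → ℕ) (tB : β → ℕ) {H : ℕ} (hA : ∀ a, tA a ≤ H) {M : ℕ → ℝ}
    (hM : ∀ j, ∑ p ∈ cellPrimes j, (p : ℝ)⁻¹ ≤ M j) {y : ℕ → ℝ} (hy : ∀ j, 0 ≤ y j)
    (hy1 : ∀ j, y j ≤ 1) :
    Bd (wt y) tA tB ∅ ∅ (Real.exp
      (∑ j ∈ range (H + 1), y j * M j * ((lines tA j : ℝ) * lines tB j) +
        2 * (Fintype.card α * Fintype.card β))) := by
  classical
  intro Q hQ
  have hch : ∀ m ∈ Q, ∃ d : α × β → ℕ,
      (∀ a, ∏ b, d (a, b) = m.1 a) ∧ ∀ b, ∏ a, d (a, b) = m.2 b := fun m hm =>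
    exists_refine m.1 m.2 (fun a => ((hQ m hm).1 a).1) (hQ m hm).2.2.1
  choose! d hd1 hd2 using hch
  have hpos : ∀ m ∈ Q, ∀ x, 0 < d m x := by
    rintro m hm ⟨a, b⟩
    refine Nat.pos_of_ne_zero fun h0 => ?_
    have h1 := ((hQ m hm).1 a).1
    rw [← hd1 m hm a, Finset.prod_eq_zero (mem_univ b) h0] at h1
    omega
  have hval : ∀ m ∈ Q, wt y (∏ a, m.1 a) / ((∏ a, m.1 a : ℕ) : ℝ) =
      ∏ x, wt y (d m x) / (d m x : ℝ) := by
    intro m hm
    have e : ∏ a, m.1 a = ∏ x, d m x := by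
      rw [Fintype.prod_prod_type]
      exact prod_congr rfl fun a _ => (hd1 m hm a).symm
    rw [e, wt_prod y _ _ (fun x _ => hpos m hm x), Nat.cast_prod, prod_div_distrib]
  have hinj : Set.InjOn d Q := by
    intro m hm n hn h
    refine Prod.ext (funext fun a => ?_) (funext fun b => ?_)
    · rw [← hd1 m hm a, ← hd1 n hn a, h]
    · rw [← hd2 m hm b, ← hd2 n hn b, h]
  set F : α × β → Finset ℕ := fun x => Q.image fun m => d m x with hF
  rw [sum_congr rfl hval,
    ← sum_image (f := fun e : α × β → ℕ => ∏ x, wt y (e x) / (e x : ℝ)) hinj]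
  refine (sum_le_sum_of_subset_of_nonneg (t := Fintype.piFinset F) ?_ ?_).trans ?_
  · intro e he
    obtain ⟨m, hm, rfl⟩ := mem_image.1 he
    exact Fintype.mem_piFinset.2 fun x => mem_image_of_mem _ hm
  · exact fun e _ _ => prod_nonneg fun x _ => div_nonneg (wt_nonneg hy _) (Nat.cast_nonneg _)
  rw [← prod_univ_sum F fun _ (n : ℕ) => wt y n / (n : ℝ)]
  calc _ ≤ ∏ x : α × β,
        Real.exp (∑ j ∈ range (min (tA x.1) (tB x.2) + 1), y j * M j + 2) := by
        refine prod_le_prod (fun x _ => sum_nonneg fun n _ =>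
          div_nonneg (wt_nonneg hy _) (Nat.cast_nonneg _)) fun x _ => ?_
        refine sum_cell_mass_le hM hy hy1 _ _ fun n hn => ?_
        obtain ⟨m, hm, rfl⟩ := mem_image.1 hn
        refine ⟨(hpos m hm x).ne', fun p hp => le_min ?_ ?_⟩
        · refine ((hQ m hm).1 x.1).2 p (Nat.primeFactors_mono ?_
            (by have := ((hQ m hm).1 x.1).1; omega) hp)
          rw [← hd1 m hm x.1]
          exact dvd_prod_of_mem (fun b => d m (x.1, b)) (mem_univ x.2)
        · refine ((hQ m hm).2.1 x.2).2 p (Nat.primeFactors_mono ?_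
            (by have := ((hQ m hm).2.1 x.2).1; omega) hp)
          rw [← hd2 m hm x.2]
          exact dvd_prod_of_mem (fun a => d m (a, x.2)) (mem_univ x.1)
    _ = _ := by
        rw [← Real.exp_sum, sum_add_distrib, sum_pairs_eq tA tB hA, sum_const, card_univ,
          Fintype.card_prod, nsmul_eq_mul]
        push_cast
        ring_nf

/-! ### From reciprocals to weights -/

lemma omegaSeg_eq (n u w : ℕ) :
    omegaSeg n u w = n.factorization.sum fun p e => if u ≤ cell p ∧ cell p < w then e else 0 := by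
  rw [omegaSeg, Finset.sum_filter, Finsupp.sum, Nat.support_factorization]

lemma omegaSeg_mul {m n : ℕ} (hm : 0 < m) (hn : 0 < n) (u w : ℕ) :
    omegaSeg (m * n) u w = omegaSeg m u w + omegaSeg n u w := by
  rw [omegaSeg_eq, omegaSeg_eq, omegaSeg_eq, Nat.factorization_mul hm.ne' hn.ne',
    Finsupp.sum_add_index' (fun p => by simp) (fun p a b => by split_ifs <;> simp)]

lemma omegaSeg_prod {ι : Type} (s : Finset ι) (g : ι → ℕ) (hg : ∀ i ∈ s, 0 < g i) (u w : ℕ) :
    omegaSeg (∏ i ∈ s, g i) u w = ∑ i ∈ s, omegaSeg (g i) u w := by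
  classical
  induction s using Finset.induction_on with
  | empty => simp [omegaSeg]
  | insert a s ha ih =>
    rw [prod_insert ha, sum_insert ha, omegaSeg_mul (hg a (mem_insert_self a s))
      (prod_pos fun i hi => hg i (mem_insert_of_mem hi)),
      ih fun i hi => hg i (mem_insert_of_mem hi)]

lemma omegaSeg_mono_dvd {m n : ℕ} (h : m ∣ n) (hn : 0 < n) (u w : ℕ) :
    omegaSeg m u w ≤ omegaSeg n u w := by
  obtain ⟨c, rfl⟩ := h
  rw [omegaSeg_mul (Nat.pos_of_mul_pos_right hn) (Nat.pos_of_mul_pos_left hn)]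
  omega

lemma sum_omega_cells (v : ℕ) (S T : ℕ) (L : ℕ → ℝ) :
    ∑ j ∈ Ico S T, L j * (omegaSeg v j (j + 1) : ℝ) =
      ∑ p ∈ v.primeFactors,
        (v.factorization p : ℝ) * if S ≤ cell p ∧ cell p < T then L (cell p) else 0 := by
  simp only [omegaSeg, Nat.cast_sum, mul_sum, Finset.sum_filter]
  rw [sum_comm]
  refine sum_congr rfl fun p _ => ?_
  have e : ∀ j ∈ Ico S T,
      (if j ≤ cell p ∧ cell p < j + 1 then L j * (v.factorization p : ℝ) else 0) =
        if cell p = j then L j * (v.factorization p : ℝ) else 0 := by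
    intro j _
    have : (j ≤ cell p ∧ cell p < j + 1) ↔ cell p = j := by omega
    simp only [this]
  simp only [Nat.cast_ite, Nat.cast_zero, mul_ite, mul_zero]
  rw [sum_congr rfl e, sum_ite_eq]
  simp only [mem_Ico]
  split_ifs <;> ring

lemma omegaSeg_eq_sum_cells (v S T : ℕ) :
    (omegaSeg v S T : ℝ) = ∑ j ∈ Ico S T, (omegaSeg v j (j + 1) : ℝ) := by
  have h := sum_omega_cells v S T fun _ => (1 : ℝ)
  simp only [one_mul, mul_ite, mul_one, mul_zero] at h
  rw [h, omegaSeg, Nat.cast_sum, Finset.sum_filter]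

/-- An antitone weight turns bounds for partial sums into a bound for the weighted sum. -/
lemma weighted_le {S : ℕ} {L a : ℕ → ℝ} {E : ℝ} (hE : 0 ≤ E) (hL : ∀ j, 0 ≤ L j) :
    ∀ T, S ≤ T → (∀ i j, S ≤ i → i ≤ j → j < T → L j ≤ L i) →
      (∀ J, S ≤ J → J ≤ T → ∑ j ∈ Ico S J, a j ≤ E) →
      ∑ j ∈ Ico S T, L j * a j ≤ L S * E := by
  intro T hT hanti hpart
  have key : ∀ J, S ≤ J → J ≤ T → ∀ lam, 0 ≤ lam → (∀ j, S ≤ j → j < J → lam ≤ L j) →
      ∑ j ∈ Ico S J, L j * a j ≤ lam * ∑ j ∈ Ico S J, a j + max (L S - lam) 0 * E := by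
    intro J hJ
    induction J, hJ using Nat.le_induction with
    | base =>
      intro _ lam _ _
      simp only [Ico_self, sum_empty, mul_zero, zero_add]
      positivity
    | succ J hJ ih =>
      intro hJT lam hlam hle
      have h1 : lam ≤ L J := hle J hJ (by omega)
      have h2 := ih (by omega) (L J) (hL J) fun j h h' => hanti j J h h'.le (by omega)
      have h3 := hpart (J + 1) (by omega) hJT
      rw [sum_Ico_succ_top hJ] at h3
      have h4 : L J ≤ L S := hanti S J le_rfl hJ (by omega)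
      rw [sum_Ico_succ_top hJ, sum_Ico_succ_top hJ]
      have h5 := mul_le_mul_of_nonneg_left h3 (sub_nonneg.2 h1)
      rw [max_eq_left (sub_nonneg.2 h4)] at h2
      rw [max_eq_left (sub_nonneg.2 (h1.trans h4))]
      nlinarith
  have h := key T hT le_rfl 0 le_rfl fun j _ _ => hL j
  simpa [max_eq_left (hL S)] using h

/-- The tilt for `r` rows on the scales in `[S, T)`. -/
def tilt (S T : ℕ) (r : ℕ → ℕ) (j : ℕ) : ℝ :=
  if S ≤ j ∧ j < T then ((max (r j) 1 : ℕ) : ℝ)⁻¹ else 1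

lemma tilt_nonneg (S T : ℕ) (r : ℕ → ℕ) (j : ℕ) : 0 ≤ tilt S T r j := by
  unfold tilt; split_ifs <;> positivity

lemma tilt_le_one (S T : ℕ) (r : ℕ → ℕ) (j : ℕ) : tilt S T r j ≤ 1 := by
  unfold tilt
  split_ifs
  · exact inv_le_one_of_one_le₀ (by exact_mod_cast le_max_right (r j) 1)
  · exact le_rfl

/-- A number with at most the expected number of prime factors has a large weight. -/
lemma one_le_exp_mul_wt {S T : ℕ} (hST : S ≤ T) (r : ℕ → ℕ) (hr : ∀ j, S ≤ j → j < T → 1 ≤ r j)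
    (hanti : ∀ i j, i ≤ j → r j ≤ r i) (v : ℕ) {E : ℝ} (hE : 0 ≤ E) {N : ℕ} (hN : r S ≤ N)
    (hN1 : 1 ≤ N) (hom : ∀ J, S ≤ J → J ≤ T →
      (omegaSeg v S J : ℝ) ≤ ∑ j ∈ Ico S J, (r j : ℝ) + E) :
    1 ≤ Real.exp (∑ j ∈ Ico S T, (r j : ℝ) * Real.log (r j) + Real.log N * E) *
      wt (tilt S T r) v := by
  have hwt : wt (tilt S T r) v =
      Real.exp (-∑ j ∈ Ico S T, Real.log (max (r j) 1 : ℕ) * (omegaSeg v j (j + 1) : ℝ)) := by
    rw [sum_omega_cells, ← sum_neg_distrib, Real.exp_sum, wt_eq]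
    refine prod_congr rfl fun p _ => ?_
    by_cases h : S ≤ cell p ∧ cell p < T
    · rw [tilt, if_pos h, if_pos h, ← mul_neg, Real.exp_nat_mul, Real.exp_neg,
        Real.exp_log (by exact_mod_cast Nat.lt_of_lt_of_le Nat.one_pos (le_max_right _ _))]
    · rw [tilt, if_neg h, if_neg h]; simp
  rw [hwt, ← Real.exp_add, Real.one_le_exp_iff]
  have hw := weighted_le (S := S) (L := fun j => Real.log (max (r j) 1 : ℕ))
    (a := fun j => (omegaSeg v j (j + 1) : ℝ) - r j) hE
    (fun j => Real.log_natCast_nonneg _) T hST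
    (fun i j _ hij _ => Real.log_le_log
      (by exact_mod_cast Nat.lt_of_lt_of_le Nat.one_pos (le_max_right _ _))
      (by exact_mod_cast max_le_max (hanti i j hij) le_rfl))
    (fun J hJ hJT => by
      rw [sum_sub_distrib, ← omegaSeg_eq_sum_cells]
      linarith [hom J hJ hJT])
  simp only [mul_sub] at hw
  rw [sum_sub_distrib] at hw
  have he : ∑ j ∈ Ico S T, Real.log (max (r j) 1 : ℕ) * (r j : ℝ) =
      ∑ j ∈ Ico S T, (r j : ℝ) * Real.log (r j) := by
    refine sum_congr rfl fun j hj => ?_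
    obtain ⟨h1, h2⟩ := mem_Ico.1 hj
    rw [max_eq_left (hr j h1 h2), mul_comm]
  have hLS : Real.log (max (r S) 1 : ℕ) * E ≤ Real.log N * E :=
    mul_le_mul_of_nonneg_right (Real.log_le_log
      (by exact_mod_cast Nat.lt_of_lt_of_le Nat.one_pos (le_max_right _ _))
      (by exact_mod_cast max_le hN hN1)) hE
  rw [he] at hw
  linarith

end P031.PairCnt
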