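import Vale.Agent.P031.PairsBase

/-!
The entropy bound for the weight of pairs of factorisations, assembled from the peeling lemma, the
bound for free configurations and the tilt.
-/

open Finset Filter

noncomputable section

namespace P031.PairCnt

open P031.Pairs

/-! ### Absolute constants -/

/-- The bound used for the mass of the cell `j`. -/
def mass (M0 : ℝ) (t0 j : ℕ) : ℝ := if t0 ≤ j then 1 + Real.exp (-(j : ℝ) / 2) else M0

lemma exists_mass (hc : CellStatement) : ∃ M0 : ℝ, ∃ t0 : ℕ, 2 ≤ M0 ∧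
    ∀ j, ∑ p ∈ cellPrimes j, (p : ℝ)⁻¹ ≤ mass M0 t0 j := by
  obtain ⟨t0, ht0⟩ := hc
  refine ⟨max 2 (∑ j ∈ range t0, ∑ p ∈ cellPrimes j, (p : ℝ)⁻¹), t0, le_max_left _ _, fun j => ?_⟩
  unfold mass
  split_ifs with h
  · linarith [(abs_le.1 (ht0 j h)).2]
  · exact le_trans (single_le_sum (f := fun j => ∑ p ∈ cellPrimes j, (p : ℝ)⁻¹)
      (fun i _ => sum_nonneg fun p _ => by positivity) (mem_range.2 (by omega))) (le_max_right _ _)

lemma mass_le {M0 : ℝ} (hM0 : 2 ≤ M0) (t0 j : ℕ) : 0 ≤ mass M0 t0 j ∧ mass M0 t0 j ≤ M0 := by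
  unfold mass
  split_ifs
  · have h1 : Real.exp (-(j : ℝ) / 2) ≤ 1 :=
      Real.exp_le_one_iff.2 (by linarith [(Nat.cast_nonneg j : (0 : ℝ) ≤ j)])
    constructor <;> linarith [Real.exp_pos (-(j : ℝ) / 2)]
  · constructor <;> linarith

lemma exists_large_scale : ∃ t1 : ℕ, 1 ≤ t1 ∧
    ∀ t : ℕ, t1 ≤ t → 2 * ((t : ℝ) + 1) ^ 4 ≤ Real.exp t := by
  have h2 := (Real.tendsto_exp_div_pow_atTop 4).comp (tendsto_natCast_atTop_atTop (R := ℝ))
  obtain ⟨a, ha⟩ := eventually_atTop.1 (h2.eventually_ge_atTop 32)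
  refine ⟨max a 1, le_max_right _ _, fun t ht => ?_⟩
  have ht1 : (1 : ℝ) ≤ t := by exact_mod_cast le_trans (le_max_right a 1) ht
  have h := ha t (le_trans (le_max_left _ _) ht)
  simp only [Function.comp_apply] at h
  rw [le_div_iff₀ (by positivity)] at h
  have h3 : ((t : ℝ) + 1) ^ 4 ≤ (2 * (t : ℝ)) ^ 4 :=
    pow_le_pow_left₀ (by positivity) (by linarith) 4
  rw [mul_pow] at h3
  linarith

/-! ### Rows -/

lemma lines_anti {γ : Type} [Fintype γ] (t : γ → ℕ) {i j : ℕ} (h : i ≤ j) :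
    lines t j ≤ lines t i :=
  card_le_card fun x hx => by
    simp only [mem_filter, mem_univ, true_and] at hx ⊢
    omega

lemma lines_le_card {γ : Type} [Fintype γ] (t : γ → ℕ) (j : ℕ) : lines t j ≤ Fintype.card γ :=
  card_le_univ _

/-- The rows are counted by the scales of the lines in `P` and the exceptional lines in `X`. -/
lemma sum_lines_le {γ : Type} [Fintype γ] [DecidableEq γ] (t : γ → ℕ) {S T : ℕ} (hS : 1 ≤ S)
    (hST : S ≤ T) (P X : Finset γ) (h : ∀ a, a ∉ P → a ∉ X → t a < S) :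
    ∑ j ∈ Ico S T, (lines t j : ℝ) ≤
      ∑ a ∈ P, (t a : ℝ) + (X.card : ℝ) * ((T : ℝ) - S) := by
  have h1 : ∑ j ∈ Ico S T, (lines t j : ℝ) =
      ∑ a, ((((Ico S T).filter fun j => j ≤ t a).card : ℕ) : ℝ) := by
    simp only [lines, card_filter, Nat.cast_sum]
    rw [sum_comm]
  rw [h1]
  have h2 : ∀ a, ((((Ico S T).filter fun j => j ≤ t a).card : ℕ) : ℝ) ≤
      (if a ∈ P then (t a : ℝ) else 0) + if a ∈ X then (T : ℝ) - S else 0 := by
    intro a
    have hTS : (0 : ℝ) ≤ (T : ℝ) - S := sub_nonneg.2 (by exact_mod_cast hST)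
    by_cases hP : a ∈ P
    · rw [if_pos hP]
      refine le_add_of_le_of_nonneg ?_ (by split_ifs <;> simp [hTS])
      refine Nat.cast_le.2 ((card_le_card (t := Ico S (t a + 1)) ?_).trans ?_)
      · intro j hj
        simp only [mem_filter, mem_Ico] at hj ⊢
        omega
      · rw [Nat.card_Ico]
        omega
    · rw [if_neg hP, zero_add]
      by_cases hX : a ∈ X
      · rw [if_pos hX]
        refine (Nat.cast_le.2 (card_filter_le _ _)).trans (le_of_eq ?_)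
        rw [Nat.card_Ico, Nat.cast_sub hST]
      · rw [if_neg hX]
        have : ((Ico S T).filter fun j => j ≤ t a) = ∅ := by
          refine filter_eq_empty_iff.2 fun j hj => ?_
          have := h a hP hX
          simp only [mem_Ico] at hj
          omega
        simp [this]
  refine (sum_le_sum fun a _ => h2 a).trans ?_
  rw [sum_add_distrib, sum_ite_mem, sum_ite_mem, univ_inter, univ_inter, sum_const, nsmul_eq_mul]

/-- The rows give the entropy cost. -/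
lemma sum_rlog_sub {S T : ℕ} (hST : S ≤ T) (r : ℕ → ℕ) (hr : ∀ j, S ≤ j → j < T → 1 ≤ r j) :
    ∑ j ∈ Ico S T, ((r j : ℝ) * Real.log (r j) - r j) =
      ∑ j ∈ Ico S T, gfun (r j) - ((T : ℝ) - S) := by
  have h : ∀ j ∈ Ico S T, (r j : ℝ) * Real.log (r j) - r j = gfun (r j) - 1 := by
    intro j hj
    obtain ⟨h1, h2⟩ := mem_Ico.1 hj
    have h3 := hr j h1 h2
    unfold gfun
    split_ifs with h4
    · have : r j = 1 := by omega
      rw [this]; simp
    · ring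
  rw [sum_congr rfl h, sum_sub_distrib, sum_const, nsmul_eq_mul, mul_one, Nat.card_Ico,
    Nat.cast_sub hST]

/-! ### The main bound -/

/-- The error in the exponent. -/
def err (C M0 : ℝ) (k N H S : ℕ) (E0 : ℝ) : ℝ :=
  (N : ℝ) * E0 + (N : ℝ) ^ 2 * (M0 * ((S : ℝ) + 3) + 2) + 8 * N +
    (N : ℝ) * (6 * C + 1 + 2 * N + ((k : ℝ) + 12) * Real.log ((H : ℝ) + 5))

lemma base_exponent_le {M0 : ℝ} (hM0 : 2 ≤ M0) {t0 S T H N : ℕ} (hS : t0 ≤ S) (hST : S ≤ T)
    (hTH : T ≤ H) (hH : H ≤ T + 2) (hTS : T ≤ (S + 1) ^ 2) (rA rB : ℕ → ℕ)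
    (hrA : ∀ j, S ≤ j → j < T → 1 ≤ rA j) (hA : ∀ j, rA j ≤ N) (hB : ∀ j, rB j ≤ N) :
    ∑ j ∈ range (H + 1), tilt S T rA j * mass M0 t0 j * ((rA j : ℝ) * rB j) ≤
      ∑ j ∈ Ico S T, (rB j : ℝ) + 8 * N + (N : ℝ) ^ 2 * (M0 * ((S : ℝ) + 3)) := by
  have hsub : Ico S T ⊆ range (H + 1) := fun j hj => by
    simp only [mem_Ico, mem_range] at hj ⊢
    omega
  rw [← sum_sdiff hsub]
  have hin : ∑ j ∈ Ico S T, tilt S T rA j * mass M0 t0 j * ((rA j : ℝ) * rB j) ≤
      ∑ j ∈ Ico S T, (rB j : ℝ) + 8 * N := by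
    have h : ∀ j ∈ Ico S T, tilt S T rA j * mass M0 t0 j * ((rA j : ℝ) * rB j) ≤
        (rB j : ℝ) + Real.exp (-(S : ℝ) / 2) * N := by
      intro j hj
      obtain ⟨h1, h2⟩ := mem_Ico.1 hj
      have h3 : (rA j : ℝ) ≠ 0 := by exact_mod_cast Nat.one_le_iff_ne_zero.1 (hrA j h1 h2)
      rw [tilt, if_pos ⟨h1, h2⟩, max_eq_left (hrA j h1 h2), mass, if_pos (hS.trans h1)]
      have h4 : Real.exp (-(j : ℝ) / 2) ≤ Real.exp (-(S : ℝ) / 2) :=
        Real.exp_le_exp.2 (by linarith [(Nat.cast_le (α := ℝ)).2 h1])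
      have h5 : (rB j : ℝ) ≤ N := by exact_mod_cast hB j
      field_simp
      simp only [← neg_div]
      nlinarith [Real.exp_pos (-(j : ℝ) / 2), (Nat.cast_nonneg (rB j) : (0 : ℝ) ≤ rB j),
        mul_le_mul h4 h5 (Nat.cast_nonneg _) (Real.exp_pos _).le]
    refine (sum_le_sum h).trans ?_
    rw [sum_add_distrib, sum_const, Nat.card_Ico, nsmul_eq_mul, ← mul_assoc]
    gcongr
    calc ((T - S : ℕ) : ℝ) * Real.exp (-(S : ℝ) / 2)
        ≤ ((S : ℝ) + 1) ^ 2 * Real.exp (-(S : ℝ) / 2) := by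
          gcongr
          exact_mod_cast (Nat.sub_le T S).trans hTS
      _ ≤ 8 := by
          have h := Real.quadratic_le_exp_of_nonneg
            (by positivity : (0 : ℝ) ≤ (S : ℝ) / 2)
          rw [neg_div, Real.exp_neg, ← div_eq_mul_inv, div_le_iff₀ (Real.exp_pos _)]
          nlinarith [(Nat.cast_nonneg S : (0 : ℝ) ≤ S)]
  have hout : ∑ j ∈ range (H + 1) \ Ico S T,
      tilt S T rA j * mass M0 t0 j * ((rA j : ℝ) * rB j) ≤
      (N : ℝ) ^ 2 * (M0 * ((S : ℝ) + 3)) := by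
    have h : ∀ j ∈ range (H + 1) \ Ico S T,
        tilt S T rA j * mass M0 t0 j * ((rA j : ℝ) * rB j) ≤ M0 * (N : ℝ) ^ 2 := by
      intro j _
      have h1 : tilt S T rA j * mass M0 t0 j ≤ 1 * M0 :=
        mul_le_mul (tilt_le_one _ _ _ _) (mass_le hM0 t0 j).2 (mass_le hM0 t0 j).1 zero_le_one
      have h2 : (rA j : ℝ) * rB j ≤ (N : ℝ) * N :=
        mul_le_mul (by exact_mod_cast hA j) (by exact_mod_cast hB j) (Nat.cast_nonneg _)
          (Nat.cast_nonneg _)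
      refine (mul_le_mul h1 h2 (by positivity) (by linarith)).trans (le_of_eq ?_)
      ring
    refine (sum_le_sum h).trans ?_
    rw [sum_const, nsmul_eq_mul, card_sdiff_of_subset hsub, Nat.card_Ico, card_range]
    have hc : H + 1 - (T - S) ≤ S + 3 := by omega
    have hc' : ((H + 1 - (T - S) : ℕ) : ℝ) ≤ (S : ℝ) + 3 := by exact_mod_cast hc
    calc _ ≤ ((S : ℝ) + 3) * (M0 * (N : ℝ) ^ 2) :=
          mul_le_mul_of_nonneg_right hc' (by positivity)
      _ = _ := by ring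
  linarith

variable {α β : Type} [Fintype α] [Fintype β] [DecidableEq α] [DecidableEq β]

/-- Pairs of factorisations with a side having few prime factors are rare in weight. -/
theorem core {C : ℝ} {k : ℕ} (hSv : SieveBound C k) (hC : 0 < C) {M0 : ℝ} {t0 t1 : ℕ}
    (hM0 : 2 ≤ M0) (hM : ∀ j, ∑ p ∈ cellPrimes j, (p : ℝ)⁻¹ ≤ mass M0 t0 j)
    (ht1 : ∀ t : ℕ, t1 ≤ t → 2 * ((t : ℝ) + 1) ^ 4 ≤ Real.exp t)
    {S T H N : ℕ} (hS0 : t0 ≤ S) (hS1 : t1 ≤ S) (hST : S ≤ T) (hTH : T ≤ H) (hH : H ≤ T + 2)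
    (hTS : T ≤ (S + 1) ^ 2) (tA : α → ℕ) (tB : β → ℕ) (hA : ∀ a, tA a ≤ H) (hB : ∀ b, tB b ≤ H)
    (hN : Fintype.card α + Fintype.card β ≤ N) (hN1 : 1 ≤ N)
    (hr : ∀ j, S ≤ j → j < T → 1 ≤ lines tA j)
    (PA : Finset α) (PB : Finset β) (hPA : ∀ a ∈ PA, S ≤ tA a) (hPB : ∀ b ∈ PB, S ≤ tB b)
    {E0 : ℝ} (hE0 : 0 ≤ E0) (Q : Finset ((α → ℕ) × (β → ℕ)))
    (hQ : ∀ m ∈ Q, Conf tA tB PA PB m ∧ ∀ J, S ≤ J → J ≤ T →
      (omegaSeg (∏ a, m.1 a) S J : ℝ) ≤ ∑ j ∈ Ico S J, (lines tA j : ℝ) + E0) :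
    ∑ m ∈ Q, ((∏ a, m.1 a : ℕ) : ℝ)⁻¹ ≤
      Real.exp (∑ j ∈ Ico S T, ((lines tA j : ℝ) * Real.log (lines tA j)) +
        ∑ j ∈ Ico S T, (lines tB j : ℝ) - ∑ a ∈ PA, (tA a : ℝ) - ∑ b ∈ PB, (tB b : ℝ) +
        err C M0 k N H S E0) := by
  classical
  set r := lines tA with hrdef
  set y := tilt S T r with hy
  have hcA : ∀ j, r j ≤ N := fun j => le_trans (lines_le_card _ _) (by omega)
  have hcB : ∀ j, lines tB j ≤ N := fun j => le_trans (lines_le_card _ _) (by omega)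
  set D : ℝ := 2 * (N : ℝ) ^ 2 * (C * 3 * ((H : ℝ) + 5) ^ (k + 12)) + 1 with hD
  have hDp : (0 : ℝ) ≤ C * 3 * ((H : ℝ) + 5) ^ (k + 12) := by positivity
  have hD1 : 1 ≤ D := by rw [hD]; linarith [mul_nonneg (by positivity : (0:ℝ) ≤ 2 * (N : ℝ) ^ 2) hDp]
  have hDN : 2 * ((Fintype.card α : ℝ) + Fintype.card β) ^ 2 *
      (C * 3 * ((H : ℝ) + 5) ^ (k + 12)) ≤ D := by
    have h1 : ((Fintype.card α : ℝ) + Fintype.card β) ≤ N := by exact_mod_cast hN
    have h2 : ((Fintype.card α : ℝ) + Fintype.card β) ^ 2 ≤ (N : ℝ) ^ 2 :=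
      pow_le_pow_left₀ (by positivity) h1 2
    rw [hD]
    nlinarith [mul_le_mul_of_nonneg_right h2 hDp]
  have hbase := bd_base tA tB hA hM (y := y) (tilt_nonneg S T r) (tilt_le_one S T r)
  have hpeel := peel (fun n => wt_nonneg (tilt_nonneg S T r) n)
    (fun n => wt_le_one (tilt_nonneg S T r) (tilt_le_one S T r) n)
    (fun m n hm hn => wt_mul y hm hn) hSv hC tA tB (Real.exp_pos _).le hD1 hDN hbase PA PB
    (fun a ha => ⟨hA a, ht1 _ (hS1.trans (hPA a ha))⟩)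
    (fun b hb => ⟨hB b, ht1 _ (hS1.trans (hPB b hb))⟩) Q fun m hm => (hQ m hm).1
  set E : ℝ := ∑ j ∈ Ico S T, (r j : ℝ) * Real.log (r j) + Real.log N * E0 with hE
  have hterm : ∀ m ∈ Q, ((∏ a, m.1 a : ℕ) : ℝ)⁻¹ ≤
      Real.exp E * (wt y (∏ a, m.1 a) / ((∏ a, m.1 a : ℕ) : ℝ)) := by
    intro m hm
    have h := one_le_exp_mul_wt hST r hr (fun i j hij => lines_anti tA hij) (∏ a, m.1 a) hE0
      (hcA S) hN1 (hQ m hm).2
    rw [← mul_div_assoc, inv_eq_one_div]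
    exact div_le_div_of_nonneg_right h (Nat.cast_nonneg _)
  refine (sum_le_sum hterm).trans ?_
  rw [← mul_sum]
  refine (mul_le_mul_of_nonneg_left hpeel (Real.exp_pos _).le).trans ?_
  have hDpos : 0 < D := by linarith
  have hsav : saving D tA tB PA PB ≤
      Real.exp ((N : ℝ) * Real.log D - ∑ a ∈ PA, (tA a : ℝ) - ∑ b ∈ PB, (tB b : ℝ)) := by
    unfold saving
    simp only [prod_mul_distrib, prod_const, ← Real.exp_sum, sum_neg_distrib]
    rw [mul_mul_mul_comm, ← pow_add, ← Real.exp_add,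
      show (N : ℝ) * Real.log D - ∑ a ∈ PA, (tA a : ℝ) - ∑ b ∈ PB, (tB b : ℝ) =
        (N : ℝ) * Real.log D + (-∑ a ∈ PA, (tA a : ℝ) + -∑ b ∈ PB, (tB b : ℝ)) by ring,
      Real.exp_add ((N : ℝ) * Real.log D), Real.exp_nat_mul, Real.exp_log hDpos]
    refine mul_le_mul_of_nonneg_right (pow_le_pow_right₀ hD1 ?_) (Real.exp_pos _).le
    have := PA.card_le_univ
    have := PB.card_le_univ
    omega
  refine (mul_le_mul_of_nonneg_left (mul_le_mul_of_nonneg_left hsav (Real.exp_pos _).le)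
    (Real.exp_pos _).le).trans ?_
  rw [← Real.exp_add, ← Real.exp_add]
  apply Real.exp_le_exp.2
  have hb := base_exponent_le hM0 hS0 hST hTH hH hTS r (lines tB) hr hcA hcB
  have hNr : (1 : ℝ) ≤ N := by exact_mod_cast hN1
  have hlN : Real.log (N : ℝ) ≤ N :=
    (Real.log_le_sub_one_of_pos (by linarith)).trans (by linarith)
  have hH1 : (1 : ℝ) ≤ (H : ℝ) + 5 := by linarith [(Nat.cast_nonneg H : (0 : ℝ) ≤ H)]
  have hlD : Real.log D ≤ 6 * C + 1 + 2 * N + ((k : ℝ) + 12) * Real.log ((H : ℝ) + 5) := by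
    have hP1 : (1 : ℝ) ≤ ((H : ℝ) + 5) ^ (k + 12) := one_le_pow₀ hH1
    have hD' : D ≤ (6 * C + 1) * (N : ℝ) ^ 2 * ((H : ℝ) + 5) ^ (k + 12) := by
      rw [hD]
      nlinarith [one_le_mul_of_one_le_of_one_le (one_le_pow₀ (n := 2) hNr) hP1]
    refine (Real.log_le_log hDpos hD').trans ?_
    rw [Real.log_mul (by positivity) (by positivity), Real.log_mul (by positivity) (by positivity),
      Real.log_pow, Real.log_pow]
    have := Real.log_le_sub_one_of_pos (by linarith : (0 : ℝ) < 6 * C + 1)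
    push_cast
    linarith
  have hab : 2 * ((Fintype.card α : ℝ) * Fintype.card β) ≤ 2 * (N : ℝ) ^ 2 := by
    have h1 : (Fintype.card α : ℝ) ≤ N := by exact_mod_cast (by omega : Fintype.card α ≤ N)
    have h2 : (Fintype.card β : ℝ) ≤ N := by exact_mod_cast (by omega : Fintype.card β ≤ N)
    nlinarith [mul_le_mul h1 h2 (Nat.cast_nonneg _) (by linarith)]
  rw [hE]
  simp only [err]
  nlinarith [mul_le_mul_of_nonneg_left hlD (by linarith : (0 : ℝ) ≤ N),
    mul_le_mul_of_nonneg_right hlN hE0]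

/-! ### Enumeration of a finite set by a fixed index set -/

/-- Enumerate a set of at most `K` elements. -/
def slot {γ : Type} (s : Finset γ) (K : ℕ) (i : Fin K) : Option γ :=
  if h : (i : ℕ) < s.card then some (s.equivFin.symm ⟨i, h⟩).1 else none

lemma slot_mem {γ : Type} {s : Finset γ} {K : ℕ} {i : Fin K} {q : γ}
    (h : slot s K i = some q) : q ∈ s := by
  unfold slot at h
  split_ifs at h with hi
  cases h
  exact (s.equivFin.symm ⟨i, hi⟩).2

lemma slot_inj {γ : Type} {s : Finset γ} {K : ℕ} {i i' : Fin K} {q : γ}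
    (h : slot s K i = some q) (h' : slot s K i' = some q) : i = i' := by
  unfold slot at h h'
  split_ifs at h with hi
  split_ifs at h' with hi'
  cases h
  have := s.equivFin.symm.injective (Subtype.ext (Option.some.inj h'))
  exact Fin.ext (Fin.mk.inj this).symm

lemma slot_surj {γ : Type} {s : Finset γ} {K : ℕ} (hK : s.card ≤ K) {q : γ} (hq : q ∈ s) :
    ∃ i, slot s K i = some q := by
  refine ⟨⟨s.equivFin ⟨q, hq⟩, lt_of_lt_of_le (Fin.is_lt _) hK⟩, ?_⟩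
  unfold slot
  simp [Fin.is_lt]

lemma elim_get {γ δ : Type} (o : Option γ) (h : o.isSome) (d : δ) (g : γ → δ) :
    o.elim d g = g (o.get h) := by
  cases o with
  | none => simp at h
  | some q => rfl

lemma prod_slot {γ : Type} [DecidableEq γ] {δ : Type} [CommMonoid δ] (s : Finset γ) {K : ℕ}
    (hK : s.card ≤ K) (g : γ → δ) : ∏ i : Fin K, (slot s K i).elim 1 g = ∏ q ∈ s, g q := by
  classical
  refine Finset.prod_bij_ne_one (fun i _ hi => ((slot s K i).get (by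
    cases h : slot s K i with
    | none => simp [h] at hi
    | some q => rfl))) ?_ ?_ ?_ ?_
  · intro i _ hi
    exact slot_mem (Option.some_get _).symm
  · intro i _ hi i' _ hi' h
    exact slot_inj (Option.some_get _).symm (by rw [h]; exact (Option.some_get _).symm)
  · intro q hq hg
    obtain ⟨i, hi⟩ := slot_surj hK hq
    exact ⟨i, mem_univ _, by simpa [hi] using hg, by simp [hi]⟩
  · intro i _ hi
    exact elim_get _ _ _ _

lemma card_slot {γ : Type} [DecidableEq γ] (s : Finset γ) {K : ℕ} (hK : s.card ≤ K) (f : γ → ℕ)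
    {j : ℕ} (hj : 1 ≤ j) :
    lines (fun i : Fin K => (slot s K i).elim 0 f) j = (s.filter fun q => j ≤ f q).card := by
  classical
  refine Finset.card_bij (fun i hi => (slot s K i).get (by
    simp only [mem_filter, mem_univ, true_and] at hi
    cases h : slot s K i with
    | none => rw [h] at hi; simp at hi; omega
    | some q => rfl)) ?_ ?_ ?_
  · intro i hi
    simp only [mem_filter, mem_univ, true_and] at hi
    refine mem_filter.2 ⟨slot_mem (Option.some_get _).symm, ?_⟩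
    rw [elim_get _ (by
      cases h : slot s K i with
      | none => rw [h] at hi; simp at hi; omega
      | some q => rfl)] at hi
    exact hi
  · intro i hi i' hi' h
    exact slot_inj (Option.some_get _).symm (by rw [h]; exact (Option.some_get _).symm)
  · intro q hq
    obtain ⟨hq1, hq2⟩ := mem_filter.1 hq
    obtain ⟨i, hi⟩ := slot_surj hK hq1
    exact ⟨i, by simp [hi, hq2], by simp [hi]⟩

/-! ### Comparison of the error with the slack -/

lemma eventually_slack (c : ℝ) :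
    ∀ᶠ T : ℕ in atTop, c * (((T : ℝ) + 6) ^ ((1 : ℝ) / 100)) ^ 80 ≤ eps T * T := by
  have h2 : Tendsto (fun T : ℕ => ((T : ℝ) + 6) ^ ((3 : ℝ) / 40)) atTop atTop :=
    (tendsto_rpow_atTop (by norm_num)).comp
      (tendsto_natCast_atTop_atTop.atTop_add tendsto_const_nhds)
  filter_upwards [h2.eventually_ge_atTop (2 * c), eventually_ge_atTop 6] with T hT hT6
  have hT6' : (6 : ℝ) ≤ T := by exact_mod_cast hT6
  set z : ℝ := (T : ℝ) + 6 with hz
  have hz0 : 0 < z := by positivity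
  rw [← Real.rpow_natCast (z ^ ((1 : ℝ) / 100)) 80, ← Real.rpow_mul hz0.le,
    show (1 : ℝ) / 100 * ((80 : ℕ) : ℝ) = 4 / 5 by norm_num]
  have h3 : z ^ ((4 : ℝ) / 5) * z ^ ((3 : ℝ) / 40) = z * z ^ (-(1 : ℝ) / 8) := by
    conv_rhs => arg 1; rw [← Real.rpow_one z]
    rw [← Real.rpow_add hz0, ← Real.rpow_add hz0]
    norm_num
  have h4 : z ^ (-(1 : ℝ) / 8) ≤ ((T : ℝ) + 1) ^ (-(1 : ℝ) / 8) :=
    Real.rpow_le_rpow_of_nonpos (by positivity) (by linarith) (by norm_num)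
  have h5 : 0 < z ^ ((4 : ℝ) / 5) := Real.rpow_pos_of_pos hz0 _
  have h6 : (2 * c) * z ^ ((4 : ℝ) / 5) ≤ z * z ^ (-(1 : ℝ) / 8) := by
    rw [← h3]
    nlinarith
  have h7 : z * z ^ (-(1 : ℝ) / 8) ≤ 2 * (T : ℝ) * ((T : ℝ) + 1) ^ (-(1 : ℝ) / 8) :=
    mul_le_mul (by linarith) h4 (Real.rpow_nonneg hz0.le _) (by positivity)
  unfold eps
  linarith

/-- Every quantity in the error is a small power of `T + 6`. -/
lemma basic_bounds (T : ℕ) :
    let Z : ℝ := ((T : ℝ) + 6) ^ ((1 : ℝ) / 100)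
    1 ≤ Z ∧ (Kmax T : ℝ) ≤ 20000000 * Z ^ 2 ∧ dev (T + 2) ≤ Z ^ 75 ∧ (cutoff T : ℝ) ≤ Z ^ 75 ∧
      Real.sqrt T ≤ Z ^ 75 ∧ Real.log (((T + 2 : ℕ) : ℝ) + 5) ≤ 100 * Z + 2 := by
  intro Z
  have h6 : (1 : ℝ) ≤ (T : ℝ) + 6 := by linarith [(Nat.cast_nonneg T : (0 : ℝ) ≤ T)]
  have h60 : (0 : ℝ) < (T : ℝ) + 6 := by linarith
  have hZ : 1 ≤ Z := Real.one_le_rpow h6 (by norm_num)
  have h75 : Z ^ 75 = ((T : ℝ) + 6) ^ ((3 : ℝ) / 4) := by
    show (((T : ℝ) + 6) ^ ((1 : ℝ) / 100)) ^ 75 = _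
    rw [← Real.rpow_natCast, ← Real.rpow_mul h60.le]
    norm_num
  have hl : Real.log ((T : ℝ) + 6) ≤ 100 * Z := by
    refine (Real.log_le_rpow_div h60.le (by norm_num : (0 : ℝ) < 1 / 100)).trans (le_of_eq ?_)
    show _ = 100 * (((T : ℝ) + 6) ^ ((1 : ℝ) / 100))
    ring
  have hsqrt : Real.sqrt T ≤ Z ^ 75 := by
    rw [h75, Real.sqrt_eq_rpow]
    exact (Real.rpow_le_rpow (Nat.cast_nonneg T) (by linarith) (by norm_num)).trans
      (Real.rpow_le_rpow_of_exponent_le h6 (by norm_num))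
  refine ⟨hZ, ?_, ?_, ?_, hsqrt, ?_⟩
  · have h1 : 0 ≤ Real.log ((T : ℝ) + 3) := Real.log_nonneg (by linarith)
    have h2 : Real.log ((T : ℝ) + 3) ≤ 100 * Z :=
      (Real.log_le_log (by linarith) (by linarith)).trans hl
    have h3 : Real.log ((T : ℝ) + 3) ^ 2 ≤ (100 * Z) ^ 2 := pow_le_pow_left₀ h1 h2 2
    have h4 := Nat.ceil_lt_add_one (by positivity : 0 ≤ 1000 * Real.log ((T : ℝ) + 3) ^ 2)
    have h5 : (1 : ℝ) ≤ Z ^ 2 := one_le_pow₀ hZ
    unfold Kmax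
    nlinarith
  · rw [h75]
    unfold dev
    refine Real.rpow_le_rpow (by positivity) ?_ (by norm_num)
    push_cast
    linarith
  · exact le_trans (Real.nat_sqrt_le_real_sqrt) hsqrt
  · push_cast
    have h1 : Real.log ((T : ℝ) + 2 + 5) ≤ Real.log (2 * ((T : ℝ) + 6)) :=
      Real.log_le_log (by linarith) (by linarith)
    rw [Real.log_mul (by norm_num) h60.ne'] at h1
    have := Real.log_le_sub_one_of_pos (by norm_num : (0 : ℝ) < 2)
    linarith

end P031.PairCnt
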