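import Vale.Agent.P031.PairsPeel
import Vale.Agent.P031.Tools

/-!
M7, the free lines and the entropy ledger.

Two factorisations of one number have a common refinement matrix, so free configurations weigh at
most a product of Euler products.  The weight `1 / max (rows j) 1` on the scales of the profile
costs the entropy `rows * log rows` by normality, and cancels the pairs of lines against the
savings of the second family.
-/

open Finset

noncomputable section

namespace P031.Pairs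

/-! ### Refinement -/

lemma exists_split {γ : Type} [DecidableEq γ] (s : Finset γ) (g : γ → ℕ) {n : ℕ}
    (h : n ∣ ∏ x ∈ s, g x) :
    ∃ d : γ → ℕ, (∀ x, d x ∣ g x) ∧ ∏ x ∈ s, d x = n := by
  induction s using Finset.induction_on generalizing n with
  | empty => exact ⟨fun _ => 1, fun x => one_dvd _, by simp at h ⊢; omega⟩
  | insert a s ha ih =>
    rw [Finset.prod_insert ha] at h
    obtain ⟨d1, d2, h1, h2, rfl⟩ := Nat.dvd_mul.1 h
    obtain ⟨d, hd, hprod⟩ := ih h2
    refine ⟨Function.update d a d1, fun x => ?_, ?_⟩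
    · by_cases hx : x = a
      · subst hx; simpa using h1
      · simpa [Function.update_of_ne hx] using hd x
    · rw [Finset.prod_insert ha, Function.update_self, ← hprod]
      congr 1
      exact Finset.prod_congr rfl fun x hx =>
        Function.update_of_ne (fun e : x = a => ha (e ▸ hx)) _ _

lemma exists_refine {α β : Type} [Fintype β] [DecidableEq α] [DecidableEq β] (s : Finset α)
    (m : α → ℕ) (g : β → ℕ) (hm : ∀ a ∈ s, 0 < m a) (h : ∏ a ∈ s, m a = ∏ b, g b) :
    ∃ c : α → β → ℕ, (∀ a ∈ s, ∏ b, c a b = m a) ∧ ∀ b, ∏ a ∈ s, c a b = g b := by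
  induction s using Finset.induction_on generalizing g with
  | empty =>
    refine ⟨fun _ _ => 1, by simp, fun b => ?_⟩
    simp only [Finset.prod_empty] at h ⊢
    exact (Nat.dvd_one.1 (h ▸ Finset.dvd_prod_of_mem g (Finset.mem_univ b))).symm
  | insert a s ha ih =>
    rw [Finset.prod_insert ha] at h
    obtain ⟨d, hd, hprod⟩ := exists_split Finset.univ g (h ▸ dvd_mul_right (m a) _)
    have hpos : 0 < m a := hm a (Finset.mem_insert_self a s)
    have h' : ∏ x ∈ s, m x = ∏ b, g b / d b := by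
      refine Nat.eq_of_mul_eq_mul_left hpos ?_
      rw [h, ← hprod, ← Finset.prod_mul_distrib]
      exact Finset.prod_congr rfl fun b _ => (Nat.mul_div_cancel' (hd b)).symm
    obtain ⟨c, hc1, hc2⟩ := ih (fun b => g b / d b)
      (fun x hx => hm x (Finset.mem_insert_of_mem hx)) h'
    refine ⟨Function.update c a d, fun x hx => ?_, fun b => ?_⟩
    · by_cases hxa : x = a
      · subst hxa; simpa using hprod
      · rw [Function.update_of_ne hxa]
        exact hc1 x ((Finset.mem_insert.1 hx).resolve_left hxa)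
    · rw [Finset.prod_insert ha, Function.update_self]
      have : ∏ x ∈ s, Function.update c a d x b = ∏ x ∈ s, c x b :=
        Finset.prod_congr rfl fun x hx => by
          rw [Function.update_of_ne (fun e : x = a => ha (e ▸ hx))]
      rw [this, hc2 b, Nat.mul_div_cancel' (hd b)]

lemma map_prod_pos {f : ℕ → ℝ} (h1 : f 1 = 1)
    (hfm : ∀ m n, 0 < m → 0 < n → f (m * n) = f m * f n) {ι : Type} (s : Finset ι) (c : ι → ℕ)
    (hc : ∀ i ∈ s, 0 < c i) : f (∏ i ∈ s, c i) = ∏ i ∈ s, f (c i) := by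
  classical
  induction s using Finset.induction_on with
  | empty => simpa using h1
  | insert a s ha ih =>
    rw [Finset.prod_insert ha, Finset.prod_insert ha,
      hfm _ _ (hc a (Finset.mem_insert_self a s))
        (Finset.prod_pos fun i hi => hc i (Finset.mem_insert_of_mem hi)),
      ih fun i hi => hc i (Finset.mem_insert_of_mem hi)]

variable {α β : Type} [Fintype α] [Fintype β] [DecidableEq α] [DecidableEq β]

/-- Free configurations are refined by matrices with entries on the common scales. -/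
theorem free_bd {f : ℕ → ℝ} (hf0 : ∀ n, 0 ≤ f n) (hf_one : f 1 = 1)
    (hfm : ∀ m n, 0 < m → 0 < n → f (m * n) = f m * f n) (tA : α → ℕ) (tB : β → ℕ) (E : ℕ → ℝ)
    (hE : ∀ t, ∀ F : Finset ℕ, (∀ n ∈ F, 1 ≤ n ∧ CellsLe n t) → ∑ n ∈ F, f n / n ≤ E t) :
    Bd f tA tB ∅ ∅ (∏ a, ∏ b, E (min (tA a) (tB b))) := by
  classical
  intro Q hQ
  have hex : ∀ m, ∃ c : α → β → ℕ, m ∈ Q →
      (∀ a, ∏ b, c a b = m.1 a) ∧ ∀ b, ∏ a, c a b = m.2 b := by
    intro m
    by_cases hm : m ∈ Q
    · obtain ⟨hA, hB, heq, -⟩ := hQ m hm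
      obtain ⟨c, h1, h2⟩ := exists_refine Finset.univ m.1 m.2 (fun a _ => (hA a).1) heq
      exact ⟨c, fun _ => ⟨fun a => h1 a (Finset.mem_univ a), h2⟩⟩
    · exact ⟨fun _ _ => 1, fun h => absurd h hm⟩
  choose c hc using hex
  set Φ : (α → ℕ) × (β → ℕ) → (α × β → ℕ) := fun m x => c m x.1 x.2 with hΦ
  have hprod : ∀ m ∈ Q, ∏ a, m.1 a = ∏ x : α × β, Φ m x := fun m hm => by
    rw [Fintype.prod_prod_type]
    exact Finset.prod_congr rfl fun a _ => ((hc m hm).1 a).symm
  have hentry : ∀ m ∈ Q, ∀ x : α × β, 1 ≤ Φ m x ∧ CellsLe (Φ m x) (min (tA x.1) (tB x.2)) := by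
    intro m hm x
    obtain ⟨hA, hB, -⟩ := hQ m hm
    have d1 : c m x.1 x.2 ∣ m.1 x.1 :=
      (hc m hm).1 x.1 ▸ Finset.dvd_prod_of_mem (fun b => c m x.1 b) (Finset.mem_univ x.2)
    have d2 : c m x.1 x.2 ∣ m.2 x.2 :=
      (hc m hm).2 x.2 ▸ Finset.dvd_prod_of_mem (fun a => c m a x.2) (Finset.mem_univ x.1)
    refine ⟨Nat.pos_of_dvd_of_pos d1 (hA x.1).1, fun p hp => le_min ?_ ?_⟩
    · exact cellsLe_of_dvd (hA x.1).2 d1 (by have := (hA x.1).1; omega) p hp
    · exact cellsLe_of_dvd (hB x.2).2 d2 (by have := (hB x.2).1; omega) p hp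
  have hinj : Set.InjOn Φ Q := by
    intro m hm n hn he
    have he' : ∀ a b, c m a b = c n a b := fun a b => congrFun he (a, b)
    refine Prod.ext (funext fun a => ?_) (funext fun b => ?_)
    · rw [← (hc m hm).1 a, ← (hc n hn).1 a]; exact Finset.prod_congr rfl fun b _ => he' a b
    · rw [← (hc m hm).2 b, ← (hc n hn).2 b]; exact Finset.prod_congr rfl fun a _ => he' a b
  calc ∑ m ∈ Q, f (∏ a, m.1 a) / ((∏ a, m.1 a : ℕ) : ℝ)
      = ∑ m ∈ Q, ∏ x : α × β, f (Φ m x) / (Φ m x : ℝ) := by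
        refine Finset.sum_congr rfl fun m hm => ?_
        rw [hprod m hm, map_prod_pos hf_one hfm _ _ fun x _ => (hentry m hm x).1,
          Finset.prod_div_distrib, Nat.cast_prod]
    _ = ∑ z ∈ Q.image Φ, ∏ x : α × β, f (z x) / (z x : ℝ) :=
        (Finset.sum_image (f := fun z : α × β → ℕ => ∏ x, f (z x) / (z x : ℝ)) hinj).symm
    _ ≤ ∑ z ∈ Fintype.piFinset fun x => Q.image fun m => Φ m x, ∏ x, f (z x) / (z x : ℝ) := by
        refine Finset.sum_le_sum_of_subset_of_nonneg ?_ fun z _ _ =>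
          Finset.prod_nonneg fun x _ => div_nonneg (hf0 _) (Nat.cast_nonneg _)
        intro z hz
        obtain ⟨m, hm, rfl⟩ := Finset.mem_image.1 hz
        exact Fintype.mem_piFinset.2 fun x => Finset.mem_image_of_mem (fun m => Φ m x) hm
    _ = ∏ x : α × β, ∑ n ∈ Q.image fun m => Φ m x, f n / (n : ℝ) :=
        (Finset.prod_univ_sum (fun x => Q.image fun m => Φ m x) fun _ n => f n / (n : ℝ)).symm
    _ ≤ ∏ x : α × β, E (min (tA x.1) (tB x.2)) := by
        refine Finset.prod_le_prod (fun x _ =>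
          Finset.sum_nonneg fun n _ => div_nonneg (hf0 _) (Nat.cast_nonneg _)) fun x _ => ?_
        refine hE _ _ fun n hn => ?_
        obtain ⟨m, hm, rfl⟩ := Finset.mem_image.1 hn
        exact hentry m hm x
    _ = _ := Fintype.prod_prod_type _

/-! ### Weights by scale -/

/-- The completely multiplicative function with value `y (cell p)` at `p`. -/
def wt (y : ℕ → ℝ) (n : ℕ) : ℝ := n.factorization.prod fun p e => y (cell p) ^ e

lemma wt_one (y : ℕ → ℝ) : wt y 1 = 1 := by simp [wt]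

lemma wt_mul (y : ℕ → ℝ) (m n : ℕ) (hm : 0 < m) (hn : 0 < n) :
    wt y (m * n) = wt y m * wt y n := by
  unfold wt
  rw [Nat.factorization_mul hm.ne' hn.ne',
    Finsupp.prod_add_index' (fun _ => pow_zero _) fun _ _ _ => pow_add _ _ _]

lemma wt_eq (y : ℕ → ℝ) (n : ℕ) :
    wt y n = ∏ p ∈ n.primeFactors, y (cell p) ^ n.factorization p := by
  rw [wt, Finsupp.prod, Nat.support_factorization]

lemma wt_nonneg {y : ℕ → ℝ} (hy : ∀ j, 0 ≤ y j) (n : ℕ) : 0 ≤ wt y n := by
  rw [wt_eq]; exact Finset.prod_nonneg fun p _ => pow_nonneg (hy _) _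

lemma wt_pos {y : ℕ → ℝ} (hy : ∀ j, 0 < y j) (n : ℕ) : 0 < wt y n := by
  rw [wt_eq]; exact Finset.prod_pos fun p _ => pow_pos (hy _) _

lemma wt_le_one {y : ℕ → ℝ} (hy : ∀ j, 0 ≤ y j) (hy1 : ∀ j, y j ≤ 1) (n : ℕ) : wt y n ≤ 1 := by
  rw [wt_eq]
  exact Finset.prod_le_one (fun p _ => pow_nonneg (hy _) _) fun p _ => pow_le_one₀ (hy _) (hy1 _)

/-- Euler products with a weight per scale. -/
theorem cell_euler (hC : CellStatement) : ∃ A : ℝ, 0 ≤ A ∧ ∀ y : ℕ → ℝ, (∀ j, 0 ≤ y j) →
    (∀ j, y j ≤ 1) → ∀ t, ∀ F : Finset ℕ, (∀ n ∈ F, 1 ≤ n ∧ CellsLe n t) →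
      ∑ n ∈ F, wt y n / n ≤ Real.exp (∑ j ∈ Finset.range (t + 1), y j + A) := by
  classical
  obtain ⟨t0, ht0⟩ := hC
  set M : ℕ → ℝ := fun j => ∑ p ∈ cellPrimes j, (p : ℝ)⁻¹ with hM
  have hM0 : ∀ j, 0 ≤ M j := fun j => Finset.sum_nonneg fun p _ => inv_nonneg.2 (Nat.cast_nonneg _)
  set q : ℝ := Real.exp (-(1 / 2)) with hq
  have hq0 : 0 < q := Real.exp_pos _
  have hq1 : q < 1 := Real.exp_lt_one_iff.2 (by norm_num)
  refine ⟨∑ j ∈ Finset.range t0, M j + (1 - q)⁻¹ + 2, by
    have := Finset.sum_nonneg (s := Finset.range t0) fun j _ => hM0 j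
    have : 0 < (1 - q)⁻¹ := inv_pos.2 (by linarith)
    positivity, fun y hy hy1 t F hF => ?_⟩
  set P := (Finset.range (t + 1)).biUnion cellPrimes with hP
  have hPprime : ∀ p ∈ P, p.Prime := fun p hp => by
    obtain ⟨j, -, hj⟩ := Finset.mem_biUnion.1 hp
    exact (mem_cellPrimes.1 hj).1
  set g : ℕ → ℝ := fun p => y (cell p) / p with hg
  have hgb : ∀ p ∈ P, 0 ≤ g p ∧ g p ≤ 1 / 2 ∧ g p ≤ (p : ℝ)⁻¹ := fun p hp => by
    have h2 : (2 : ℝ) ≤ p := by exact_mod_cast (hPprime p hp).two_le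
    refine ⟨div_nonneg (hy _) (Nat.cast_nonneg _), ?_, ?_⟩
    · exact div_le_div₀ zero_le_one (hy1 _) (by norm_num) h2
    · rw [hg, inv_eq_one_div]; exact div_le_div_of_nonneg_right (hy1 _) (Nat.cast_nonneg _)
  have hsub : ∀ n ∈ F, n ≠ 0 ∧ n.primeFactors ⊆ P := fun n hn => by
    refine ⟨by have := (hF n hn).1; omega, fun p hp => Finset.mem_biUnion.2 ⟨cell p, ?_, ?_⟩⟩
    · exact Finset.mem_range.2 (by have := (hF n hn).2 p hp; omega)
    · exact mem_cellPrimes.2 ⟨Nat.prime_of_mem_primeFactors hp, rfl⟩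
  have h1 : ∑ n ∈ F, wt y n / n = ∑ n ∈ F, ∏ p ∈ P, g p ^ n.factorization p :=
    Finset.sum_congr rfl fun n hn => by
      rw [wt_eq, hg, weight_div_eq (fun p => y (cell p)) P (hsub n hn).1 (hsub n hn).2]
  rw [h1]
  refine (euler_bound g P hPprime (fun p hp => ⟨(hgb p hp).1, by linarith [(hgb p hp).2.1]⟩) F
    hsub).trans ((prod_inv_one_sub_le_exp g P fun p hp => by linarith [(hgb p hp).2.1]).trans
    (Real.exp_le_exp.2 ?_))
  have hsq : ∑ p ∈ P, ((p : ℝ) ^ 2)⁻¹ ≤ 1 := by
    have hsub' : P ⊆ Finset.Ioo 1 (P.sup id + 1) := fun p hp => by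
      have h1 := (hPprime p hp).one_lt
      have h2 : p ≤ P.sup id := Finset.le_sup (f := id) hp
      exact Finset.mem_Ioo.2 ⟨h1, by omega⟩
    refine (Finset.sum_le_sum_of_subset_of_nonneg hsub' fun i _ _ => by positivity).trans ?_
    refine (sum_Ioo_inv_sq_le (α := ℝ) 1 _).trans (le_of_eq ?_)
    norm_num
  have hterm : ∑ p ∈ P, g p / (1 - g p) ≤ ∑ p ∈ P, g p + 2 := by
    calc ∑ p ∈ P, g p / (1 - g p) ≤ ∑ p ∈ P, (g p + 2 * ((p : ℝ) ^ 2)⁻¹) := by
          refine Finset.sum_le_sum fun p hp => ?_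
          obtain ⟨h0, hhalf, hinv⟩ := hgb p hp
          have hsq' : g p * g p ≤ ((p : ℝ) ^ 2)⁻¹ := by
            rw [← inv_pow, sq]; exact mul_le_mul hinv hinv h0 (inv_nonneg.2 (Nat.cast_nonneg _))
          rw [div_le_iff₀ (by linarith)]
          have hpp : 0 ≤ ((p : ℝ) ^ 2)⁻¹ := by positivity
          nlinarith
      _ ≤ _ := by rw [Finset.sum_add_distrib, ← Finset.mul_sum]; linarith
  have hdis : (↑(Finset.range (t + 1)) : Set ℕ).PairwiseDisjoint cellPrimes :=
    fun i _ j _ h => cellPrimes_disjoint h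
  have hsum : ∑ p ∈ P, g p = ∑ j ∈ Finset.range (t + 1), y j * M j := by
    rw [hP, Finset.sum_biUnion hdis]
    refine Finset.sum_congr rfl fun j _ => ?_
    rw [hM, Finset.mul_sum]
    exact Finset.sum_congr rfl fun p hp => by
      simp only [hg]; rw [(mem_cellPrimes.1 hp).2, div_eq_mul_inv]
  have herr : ∑ j ∈ Finset.range (t + 1), y j * M j ≤ ∑ j ∈ Finset.range (t + 1), y j +
      (∑ j ∈ Finset.range t0, M j + (1 - q)⁻¹) := by
    have hpt : ∀ j, y j * M j ≤ y j + ((if j < t0 then M j else 0) + q ^ j) := by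
      intro j
      have hqj : 0 ≤ q ^ j := pow_nonneg hq0.le _
      split_ifs with h
      · have := mul_le_mul_of_nonneg_right (hy1 j) (hM0 j)
        linarith [hy j]
      · have hb := (abs_le.1 (ht0 j (not_lt.1 h))).2
        have he : Real.exp (-(j : ℝ) / 2) = q ^ j := by
          rw [hq, ← Real.exp_nat_mul]; congr 1; ring
        rw [he] at hb
        have h2 := mul_le_mul_of_nonneg_left (show M j ≤ 1 + q ^ j by
          simp only [hM]; linarith) (hy j)
        have h3 := mul_le_mul_of_nonneg_right (hy1 j) hqj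
        linarith
    refine (Finset.sum_le_sum fun j _ => hpt j).trans ?_
    rw [Finset.sum_add_distrib, Finset.sum_add_distrib]
    have h1 : ∑ j ∈ Finset.range (t + 1), (if j < t0 then M j else 0) ≤
        ∑ j ∈ Finset.range t0, M j := by
      rw [← Finset.sum_filter]
      refine Finset.sum_le_sum_of_subset_of_nonneg ?_ fun j _ _ => hM0 j
      intro j hj
      exact Finset.mem_range.2 (Finset.mem_filter.1 hj).2
    have h2 : ∑ j ∈ Finset.range (t + 1), q ^ j ≤ (1 - q)⁻¹ := by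
      rw [← one_div, le_div_iff₀ (by linarith), geom_sum_mul_neg]
      linarith [pow_pos hq0 (t + 1)]
    linarith
  linarith

/-- The rows of a finite family. -/
lemma rows_map {γ : Type} [Fintype γ] (t : γ → ℕ) (j : ℕ) :
    rows (Finset.univ.val.map t) j = (Finset.univ.filter fun a => j ≤ t a).card := by
  rw [rows, Multiset.countP_map]; rfl

lemma rows_anti (R : Multiset ℕ) {i j : ℕ} (h : i ≤ j) : rows R j ≤ rows R i := by
  rw [rows, rows, Multiset.countP_eq_card_filter, Multiset.countP_eq_card_filter]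
  exact Multiset.card_le_card (Multiset.monotone_filter_right _ fun x (hx : j ≤ x) => h.trans hx)

/-- The free configurations with a weight per scale. -/
theorem free_bd_wt (hC : CellStatement) : ∃ A : ℝ, 0 ≤ A ∧
    ∀ {α β : Type} [Fintype α] [Fintype β] [DecidableEq α] [DecidableEq β],
    ∀ (tA : α → ℕ) (tB : β → ℕ) (y : ℕ → ℝ), (∀ j, 0 ≤ y j) → (∀ j, y j ≤ 1) →
    ∀ N : ℕ, (∀ a, tA a ≤ N) →
    Bd (wt y) tA tB ∅ ∅ (Real.exp (∑ j ∈ Finset.range (N + 1),
      y j * rows (Finset.univ.val.map tA) j * rows (Finset.univ.val.map tB) j +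
      Fintype.card α * Fintype.card β * A)) := by
  obtain ⟨A, hA0, hA⟩ := cell_euler hC
  refine ⟨A, hA0, ?_⟩
  intro α β _ _ _ _ tA tB y hy hy1 N hN
  have h := free_bd (α := α) (β := β) (wt_nonneg hy) (wt_one y) (wt_mul y) tA tB
    (fun t => Real.exp (∑ j ∈ Finset.range (t + 1), y j + A)) (hA y hy hy1)
  intro Q hQ
  refine (h Q hQ).trans (le_of_eq ?_)
  simp only [← Real.exp_sum]
  congr 1
  simp only [Finset.sum_add_distrib, Finset.sum_const, Finset.card_univ, nsmul_eq_mul,
    ← mul_assoc]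
  congr 1
  have hrow : ∀ j, y j * rows (Finset.univ.val.map tA) j * rows (Finset.univ.val.map tB) j =
      ∑ a, ∑ b, if j ≤ tA a ∧ j ≤ tB b then y j else 0 := by
    intro j
    rw [rows_map, rows_map, Finset.card_filter, Finset.card_filter]
    push_cast
    rw [mul_assoc, Finset.sum_mul_sum, Finset.mul_sum]
    refine Finset.sum_congr rfl fun a _ => ?_
    rw [Finset.mul_sum]
    refine Finset.sum_congr rfl fun b _ => ?_
    by_cases ha : j ≤ tA a <;> by_cases hb : j ≤ tB b <;> simp [ha, hb]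
  simp only [hrow]
  rw [Finset.sum_comm (s := Finset.range (N + 1))]
  refine Finset.sum_congr rfl fun a _ => ?_
  rw [Finset.sum_comm (s := Finset.range (N + 1))]
  refine Finset.sum_congr rfl fun b _ => ?_
  rw [← Finset.sum_filter]
  refine Finset.sum_congr ?_ fun _ _ => rfl
  ext j
  simp only [Finset.mem_range, Finset.mem_filter]
  have := hN a
  omega

/-! ### Entropy -/

/-- The weight that pays for the rows of `R` above the scale `S`. -/
def yEnt (R : Multiset ℕ) (S j : ℕ) : ℝ :=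
  if S ≤ j then ((max (rows R j) 1 : ℕ) : ℝ)⁻¹ else 1

lemma yEnt_pos (R : Multiset ℕ) (S j : ℕ) : 0 < yEnt R S j := by
  unfold yEnt; split_ifs
  · have : 0 < max (rows R j) 1 := by omega
    positivity
  · exact one_pos

lemma yEnt_le_one (R : Multiset ℕ) (S j : ℕ) : yEnt R S j ≤ 1 := by
  unfold yEnt; split_ifs
  · exact inv_le_one_of_one_le₀ (by exact_mod_cast le_max_right (rows R j) 1)
  · exact le_rfl

lemma log_eq_layers {r K : ℕ} (hr : r ≤ K) :
    Real.log r = ∑ m ∈ Finset.range (K - 1),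
      if m + 2 ≤ r then Real.log ((m : ℝ) + 2) - Real.log ((m : ℝ) + 1) else 0 := by
  rw [← Finset.sum_filter,
    show (Finset.range (K - 1)).filter (fun m => m + 2 ≤ r) = Finset.range (r - 1) by
      ext m; simp only [Finset.mem_filter, Finset.mem_range]; omega]
  have h := Finset.sum_range_sub (fun m : ℕ => Real.log ((m : ℝ) + 1)) (r - 1)
  have e : ∀ m : ℕ, Real.log ((m : ℝ) + 2) = Real.log (((m + 1 : ℕ) : ℝ) + 1) := fun m => by
    push_cast; ring_nf
  simp only [e]
  rw [h]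
  rcases Nat.eq_zero_or_pos r with rfl | hpos
  · simp
  · simp only [Nat.cast_zero, zero_add, Real.log_one, sub_zero]
    congr 1
    rw [Nat.cast_sub hpos]; simp

/-- Upper normality on every range bounds the cost of the weight. -/
theorem neg_log_wt_le (R : Multiset ℕ) (S : ℕ) {n t : ℕ} (hn : CellsLe n t) {Dv : ℝ}
    (hDv : 0 ≤ Dv) (hseg : ∀ u w : ℕ, u < w → w ≤ t + 1 → (omegaSeg n u w : ℝ) ≤ (w : ℝ) - u + Dv) :
    -Real.log (wt (yEnt R S) n) ≤
      ∑ j ∈ Finset.Ico S (t + 1), Real.log (rows R j) + Real.log R.card * Dv := by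
  classical
  set K := R.card with hK
  have hrK : ∀ j, rows R j ≤ K := fun j => Multiset.countP_le_card _ _
  set dl : ℕ → ℝ := fun m => Real.log ((m : ℝ) + 2) - Real.log ((m : ℝ) + 1) with hdl
  have hdl0 : ∀ m, 0 ≤ dl m := fun m =>
    sub_nonneg.2 (Real.log_le_log (by positivity) (by linarith))
  set W : ℕ → Finset ℕ := fun m => (Finset.Ico S (t + 1)).filter fun j => m + 2 ≤ rows R j with hW
  have hL : ∀ j, j ≤ t → -Real.log (yEnt R S j) =
      ∑ m ∈ Finset.range (K - 1), if j ∈ W m then dl m else 0 := by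
    intro j hj
    unfold yEnt
    split_ifs with hS
    · rw [Real.log_inv, neg_neg]
      rcases Nat.eq_zero_or_pos (rows R j) with h0 | h0
      · rw [h0]
        simp only [zero_le, max_eq_right, Nat.cast_one, Real.log_one]
        refine (Finset.sum_eq_zero fun m _ => if_neg ?_).symm
        simp [hW, h0]
      · rw [max_eq_left h0, log_eq_layers (hrK j)]
        refine Finset.sum_congr rfl fun m _ => if_congr ?_ rfl rfl
        simp only [hW, Finset.mem_filter, Finset.mem_Ico]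
        omega
    · rw [Real.log_one, neg_zero]
      refine (Finset.sum_eq_zero fun m _ => if_neg ?_).symm
      simp [hW, hS]
  have hseg' : ∀ m, ((∑ p ∈ n.primeFactors with cell p ∈ W m, n.factorization p : ℕ) : ℝ) ≤
      (W m).card + Dv := by
    intro m
    rcases (W m).eq_empty_or_nonempty with h | h
    · simp [h, hDv]
    obtain ⟨hm1, hm2⟩ := Finset.mem_filter.1 ((W m).max'_mem h)
    rw [Finset.mem_Ico] at hm1
    have hWeq : W m = Finset.Ico S ((W m).max' h + 1) := by
      ext j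
      rw [Finset.mem_Ico]
      constructor
      · intro hj
        have := (W m).le_max' j hj
        have := (Finset.mem_Ico.1 (Finset.mem_filter.1 hj).1).1
        omega
      · rintro ⟨h1, h2⟩
        refine Finset.mem_filter.2 ⟨Finset.mem_Ico.2 ⟨h1, by omega⟩, ?_⟩
        exact hm2.trans (rows_anti R (by omega))
    have hs := hseg S ((W m).max' h + 1) (by omega) (by omega)
    rw [omegaSeg] at hs
    rw [hWeq, Nat.card_Ico, Nat.cast_sub (by omega)]
    simpa [Finset.mem_Ico] using hs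
  have hexp : -Real.log (wt (yEnt R S) n) =
      ∑ m ∈ Finset.range (K - 1),
        dl m * ((∑ p ∈ n.primeFactors with cell p ∈ W m, n.factorization p : ℕ) : ℝ) := by
    rw [wt_eq, Real.log_prod fun p _ => (pow_pos (yEnt_pos R S _) _).ne', ← Finset.sum_neg_distrib]
    simp only [Real.log_pow, ← mul_neg]
    rw [Finset.sum_congr rfl fun p hp => by rw [hL _ (hn p hp), Finset.mul_sum]]
    rw [Finset.sum_comm]
    refine Finset.sum_congr rfl fun m _ => ?_
    push_cast
    rw [Finset.sum_filter, Finset.mul_sum]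
    exact Finset.sum_congr rfl fun p _ => by split_ifs <;> ring
  rw [hexp]
  refine (Finset.sum_le_sum fun m _ => mul_le_mul_of_nonneg_left (hseg' m) (hdl0 m)).trans ?_
  simp only [mul_add, Finset.sum_add_distrib, ← Finset.sum_mul]
  refine add_le_add (le_of_eq ?_) (mul_le_mul_of_nonneg_right ?_ hDv)
  · rw [Finset.sum_congr rfl fun j _ => log_eq_layers (hrK j), Finset.sum_comm]
    refine Finset.sum_congr rfl fun m _ => ?_
    rw [← Finset.sum_filter, Finset.sum_const, nsmul_eq_mul, mul_comm]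
  · refine le_of_eq ?_
    rw [log_eq_layers (le_refl K)]
    exact Finset.sum_congr rfl fun m hm => (if_pos (by have := Finset.mem_range.1 hm; omega)).symm

/-- The upper half of normality, for the line `q - 1`. -/
lemma normal_upper {q u w : ℕ} (h : Normal q) (huw : u < w) (hw : w ≤ cell q + 1) :
    (omegaSeg (q - 1) u w : ℝ) ≤ (w : ℝ) - u + dev (cell q) := by
  have := (abs_le.1 (h.1 u w huw hw)).2
  linarith

lemma rows_eq_countP_le {γ : Type} [Fintype γ] (t : γ → ℕ) (j : ℕ) :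
    rows (Finset.univ.val.map t) j ≤ Fintype.card γ := by
  rw [rows_map]; exact Finset.card_le_univ _

lemma sum_scales {γ : Type} [Fintype γ] (t : γ → ℕ) (g : ℕ → ℝ) (S s : ℕ) (hs : ∀ a, t a ≤ s) :
    ∑ a, ∑ j ∈ Finset.Ico S (t a + 1), g j =
      ∑ j ∈ Finset.Ico S (s + 1), (rows (Finset.univ.val.map t) j : ℝ) * g j := by
  have h1 : ∀ a, ∑ j ∈ Finset.Ico S (t a + 1), g j =
      ∑ j ∈ Finset.Ico S (s + 1), if j ≤ t a then g j else 0 := by
    intro a
    rw [← Finset.sum_filter]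
    refine Finset.sum_congr ?_ fun _ _ => rfl
    ext j
    simp only [Finset.mem_filter, Finset.mem_Ico]
    have := hs a
    omega
  simp only [h1]
  rw [Finset.sum_comm]
  refine Finset.sum_congr rfl fun j _ => ?_
  rw [← Finset.sum_filter, Finset.sum_const, nsmul_eq_mul, rows_map]

lemma sum_rows_le {γ : Type} [Fintype γ] (t : γ → ℕ) (S s : ℕ) (hS : 1 ≤ S) :
    ∑ j ∈ Finset.Ico S (s + 1), (rows (Finset.univ.val.map t) j : ℝ) ≤ ∑ a, (t a : ℝ) := by
  simp only [rows_map, Finset.card_filter]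
  push_cast
  rw [Finset.sum_comm]
  refine Finset.sum_le_sum fun a _ => ?_
  rw [← Finset.sum_filter, Finset.sum_const, nsmul_one]
  have h : ((Finset.Ico S (s + 1)).filter fun j => j ≤ t a).card ≤ t a := by
    refine (Finset.card_le_card (t := Finset.Icc 1 (t a)) fun j hj => ?_).trans (by simp)
    simp only [Finset.mem_filter, Finset.mem_Ico] at hj
    exact Finset.mem_Icc.2 ⟨by omega, hj.2⟩
  exact_mod_cast h

/-- Configurations with normal lines, pending outside the scales up to `t1`: the complete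
ledger. -/
theorem pending_inv_le (hC : CellStatement) : ∃ A : ℝ, 0 ≤ A ∧
    ∀ {α β : Type} [Fintype α] [Fintype β] [DecidableEq α] [DecidableEq β],
    ∀ (C : ℝ) (k H : ℕ), SieveBound C k → 0 < C → ∀ (tA : α → ℕ) (tB : β → ℕ) (PA : Finset α)
    (PB : Finset β) (t1 S s : ℕ) (D Dv : ℝ),
    1 ≤ S → S ≤ s → (∀ a, tA a ≤ s) → (∃ a, tA a = s) → 0 ≤ Dv →
    (∀ a ∈ PA, tA a ≤ H ∧ 2 * ((tA a : ℝ) + 1) ^ 4 ≤ Real.exp (tA a)) →
    (∀ b ∈ PB, tB b ≤ H ∧ 2 * ((tB b : ℝ) + 1) ^ 4 ≤ Real.exp (tB b)) →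
    (∀ a, a ∉ PA → tA a ≤ t1) → (∀ b, b ∉ PB → tB b ≤ t1) →
    1 ≤ D → 2 * ((Fintype.card α : ℝ) + Fintype.card β) ^ 2 *
      (C * 3 * ((H : ℝ) + 5) ^ (k + 12)) ≤ D →
    ∀ Q : Finset ((α → ℕ) × (β → ℕ)),
    (∀ m ∈ Q, Conf tA tB PA PB m ∧
      ∀ a, ∀ u w : ℕ, u < w → w ≤ tA a + 1 →
        (omegaSeg (m.1 a) u w : ℝ) ≤ (w : ℝ) - u + Dv) →
    ∑ m ∈ Q, ((∏ a, m.1 a : ℕ) : ℝ)⁻¹ ≤
      Real.exp (gsum (Finset.univ.val.map tA) S s - ((s : ℝ) - S) +
        (A + S) * Fintype.card α * Fintype.card β +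
        Fintype.card α * Real.log (Fintype.card α) * (Dv + 1) +
        ((Fintype.card α : ℝ) + Fintype.card β) * t1) *
      D ^ (Fintype.card α + Fintype.card β) := by
  obtain ⟨A, hA0, hA⟩ := free_bd_wt hC
  refine ⟨A, hA0, ?_⟩
  intro α β _ _ _ _ C k H hSv hC0 tA tB PA PB t1 S s D Dv hS1 hSs hts htop hDv hYA hYB hsA hsB hD1 hD Q hQ
  set R := Finset.univ.val.map tA with hR
  set R' := Finset.univ.val.map tB with hR'
  set y := yEnt R S with hy
  have hy0 : ∀ j, 0 ≤ y j := fun j => (yEnt_pos R S j).le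
  have hy1 : ∀ j, y j ≤ 1 := yEnt_le_one R S
  have hcard : R.card = Fintype.card α := by simp [hR]
  set K : ℝ := (Fintype.card α : ℝ) with hKdef
  set base : ℝ := Real.exp (∑ j ∈ Finset.range (s + 1), y j * rows R j * rows R' j +
    K * Fintype.card β * A) with hbase
  have hpeel := peel (wt_nonneg hy0) (wt_le_one hy0 hy1) (wt_mul y) hSv hC0 tA tB
    (B := base) (Real.exp_pos _).le hD1 hD (hA tA tB y hy0 hy1 s hts) PA PB
    hYA hYB Q fun m hm => (hQ m hm).1
  -- the cost of removing the weight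
  set cost : ℝ := ∑ j ∈ Finset.Ico S (s + 1), (rows R j : ℝ) * Real.log (rows R j) +
    K * (Real.log K * Dv) with hcost
  have hterm : ∀ m ∈ Q, ((∏ a, m.1 a : ℕ) : ℝ)⁻¹ ≤
      Real.exp cost * (wt y (∏ a, m.1 a) / ((∏ a, m.1 a : ℕ) : ℝ)) := by
    intro m hm
    obtain ⟨hc, hseg⟩ := hQ m hm
    have hw : 0 < wt y (∏ a, m.1 a) := wt_pos (yEnt_pos R S) _
    have hlog : -Real.log (wt y (∏ a, m.1 a)) ≤ cost := by
      rw [map_prod_pos (wt_one y) (wt_mul y) _ _ fun a _ => (hc.1 a).1,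
        Real.log_prod fun a _ => (wt_pos (yEnt_pos R S) _).ne', ← Finset.sum_neg_distrib]
      refine (Finset.sum_le_sum fun a _ =>
        neg_log_wt_le R S (hc.1 a).2 hDv (hseg a)).trans (le_of_eq ?_)
      rw [Finset.sum_add_distrib, sum_scales tA _ S s hts, Finset.sum_const, Finset.card_univ,
        nsmul_eq_mul, hcard]
    have h1 : (1 : ℝ) ≤ Real.exp cost * wt y (∏ a, m.1 a) := by
      have h := Real.exp_le_exp.2 hlog
      rw [Real.exp_neg, Real.exp_log hw, inv_le_iff_one_le_mul₀ hw] at h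
      exact h
    rw [← mul_div_assoc, inv_eq_one_div]
    exact div_le_div_of_nonneg_right h1 (Nat.cast_nonneg _)
  refine (Finset.sum_le_sum hterm).trans ?_
  rw [← Finset.mul_sum]
  refine (mul_le_mul_of_nonneg_left hpeel (Real.exp_pos _).le).trans ?_
  set δA : ℝ := ∑ a, (tA a : ℝ) - ∑ a ∈ PA, (tA a : ℝ) with hδA
  set δB : ℝ := ∑ b, (tB b : ℝ) - ∑ b ∈ PB, (tB b : ℝ) with hδB
  have hδA' : δA ≤ (Fintype.card α : ℝ) * t1 := by
    rw [hδA, ← Finset.sum_sdiff (Finset.subset_univ PA), add_sub_cancel_right]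
    refine (Finset.sum_le_card_nsmul _ _ (t1 : ℝ) fun x hx =>
      by exact_mod_cast hsA x (Finset.mem_sdiff.1 hx).2).trans ?_
    rw [nsmul_eq_mul]
    exact mul_le_mul_of_nonneg_right (by exact_mod_cast Finset.card_le_univ _) (Nat.cast_nonneg _)
  have hδB' : δB ≤ (Fintype.card β : ℝ) * t1 := by
    rw [hδB, ← Finset.sum_sdiff (Finset.subset_univ PB), add_sub_cancel_right]
    refine (Finset.sum_le_card_nsmul _ _ (t1 : ℝ) fun x hx =>
      by exact_mod_cast hsB x (Finset.mem_sdiff.1 hx).2).trans ?_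
    rw [nsmul_eq_mul]
    exact mul_le_mul_of_nonneg_right (by exact_mod_cast Finset.card_le_univ _) (Nat.cast_nonneg _)
  have hsave : saving D tA tB PA PB ≤
      D ^ (Fintype.card α + Fintype.card β) *
        Real.exp (-∑ a, (tA a : ℝ) - ∑ b, (tB b : ℝ) + (δA + δB)) := by
    have e : -∑ a, (tA a : ℝ) - ∑ b, (tB b : ℝ) + (δA + δB) =
        -∑ a ∈ PA, (tA a : ℝ) + -∑ b ∈ PB, (tB b : ℝ) := by rw [hδA, hδB]; ring
    simp only [saving, Finset.prod_mul_distrib, Finset.prod_const, ← Real.exp_sum,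
      Finset.sum_neg_distrib]
    rw [e, Real.exp_add, pow_add]
    refine le_of_eq_of_le (mul_mul_mul_comm _ _ _ _) ?_
    refine mul_le_mul_of_nonneg_right (mul_le_mul
      (pow_le_pow_right₀ hD1 (Finset.card_le_univ _))
      (pow_le_pow_right₀ hD1 (Finset.card_le_univ _))
      (pow_nonneg (by linarith) _) (pow_nonneg (by linarith) _)) ?_
    positivity
  refine (mul_le_mul_of_nonneg_left (mul_le_mul_of_nonneg_left hsave
    (by rw [hbase]; exact (Real.exp_pos _).le)) (Real.exp_pos _).le).trans ?_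
  rw [hbase, mul_left_comm (Real.exp cost), mul_comm (D ^ _), ← mul_assoc,
    ← mul_assoc, ← Real.exp_add, ← Real.exp_add]
  refine mul_le_mul_of_nonneg_right (Real.exp_le_exp.2 ?_) (pow_nonneg (by linarith) _)
  -- the exponent
  have hrow1 : ∀ j ∈ Finset.Ico S (s + 1), 1 ≤ rows R j := by
    intro j hj
    obtain ⟨a, ha⟩ := htop
    rw [hR, rows_map]
    refine Finset.card_pos.2 ⟨a, Finset.mem_filter.2 ⟨Finset.mem_univ a, ?_⟩⟩
    have := (Finset.mem_Ico.1 hj).2
    omega
  have hlowj : ∑ j ∈ Finset.range S, y j * rows R j * rows R' j ≤ S * (K * Fintype.card β) := by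
    refine (Finset.sum_le_sum (g := fun _ => K * (Fintype.card β : ℝ)) fun j _ => ?_).trans
      (le_of_eq ?_)
    · have h1 : (rows R j : ℝ) ≤ K := by rw [hR, hKdef]; exact_mod_cast rows_eq_countP_le tA j
      have h2 : (rows R' j : ℝ) ≤ Fintype.card β := by exact_mod_cast rows_eq_countP_le tB j
      calc y j * rows R j * rows R' j ≤ 1 * K * Fintype.card β := by gcongr; exact hy1 j
        _ = _ := by ring
    · rw [Finset.sum_const, Finset.card_range, nsmul_eq_mul]
  have hhighj : ∀ j ∈ Finset.Ico S (s + 1), y j * rows R j * rows R' j +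
      (rows R j : ℝ) * Real.log (rows R j) - rows R j - rows R' j = gfun (rows R j) - 1 := by
    intro j hj
    have h1 := hrow1 j hj
    have hyj : y j * rows R j = 1 := by
      rw [hy, yEnt, if_pos (Finset.mem_Ico.1 hj).1, max_eq_left h1, inv_mul_cancel₀]
      exact_mod_cast (by omega : rows R j ≠ 0)
    rw [hyj]
    unfold gfun
    split_ifs with h
    · have : rows R j = 1 := by omega
      rw [this]; norm_num
    · ring
  have hg : gfun (rows R s) ≤ K * Real.log K := by
    refine (gfun_mono (show rows R s ≤ Fintype.card α from hR ▸ rows_eq_countP_le tA s)).trans ?_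
    unfold gfun
    split_ifs with h
    · exact mul_nonneg (Nat.cast_nonneg _) (Real.log_natCast_nonneg _)
    · have : (1 : ℝ) ≤ Fintype.card α := by exact_mod_cast (by omega : 1 ≤ Fintype.card α)
      rw [hKdef]; linarith
  have hs1 := sum_rows_le tA S s hS1
  have hs2 := sum_rows_le tB S s hS1
  rw [← hR] at hs1
  rw [← hR'] at hs2
  have hsum := Finset.sum_congr rfl hhighj
  simp only [Finset.sum_sub_distrib, Finset.sum_add_distrib] at hsum
  rw [Finset.sum_Ico_succ_top hSs (fun j => gfun (rows R j)), Finset.sum_const, nsmul_one,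
    Nat.card_Ico, Nat.cast_sub (by omega)] at hsum
  push_cast at hsum
  rw [← Finset.sum_range_add_sum_Ico _ (show S ≤ s + 1 by omega)]
  have hsplit : (A + S) * K * Fintype.card β = K * Fintype.card β * A + S * (K * Fintype.card β) := by
    ring
  simp only [gsum, hcost]
  linarith

end P031.Pairs
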