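import Vale.Agent.P031.PairsFree

/-!
M7: two representations as products of shifted primes are rare in weight.
-/

open Finset Filter
open scoped Topology

noncomputable section

namespace P031.Pairs

lemma pend_of_normal {q : ℕ} (hq : q.Prime) (hn : Normal q) : Pend (cell q) (q - 1) := by
  refine ⟨by rwa [Nat.sub_add_cancel hq.pos], hn.2, ?_⟩
  refine le_trans ?_ (lt_of_cell_le hq.two_le le_rfl).le
  exact_mod_cast Nat.sub_le q 1

lemma cellsLe_pred {q : ℕ} (hq : q.Prime) : CellsLe (q - 1) (cell q) := by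
  intro p hp
  have h2 := (Nat.prime_of_mem_primeFactors hp).two_le
  have h3 := Nat.le_of_mem_primeFactors hp
  exact cell_mono h2 (by omega)

/-- The elements of a set of size `n`, in increasing order. -/
def enum (n : ℕ) (A : Finset ℕ) (x : Fin n) : ℕ :=
  if h : A.card = n then A.orderEmbOfFin h x else 0

lemma image_enum {n : ℕ} {A : Finset ℕ} (h : A.card = n) : Finset.univ.image (enum n A) = A := by
  have : enum n A = fun x => A.orderEmbOfFin h x := funext fun x => by simp [enum, h]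
  rw [this]
  exact Finset.image_orderEmbOfFin_univ A h

lemma enum_injective {n : ℕ} {A : Finset ℕ} (h : A.card = n) : Function.Injective (enum n A) := by
  have : enum n A = fun x => A.orderEmbOfFin h x := funext fun x => by simp [enum, h]
  rw [this]
  exact (A.orderEmbOfFin h).injective

lemma enum_mem {n : ℕ} {A : Finset ℕ} (h : A.card = n) (x : Fin n) : enum n A x ∈ A := by
  have := Finset.mem_image_of_mem (enum n A) (Finset.mem_univ x)
  rwa [image_enum h] at this

lemma prod_enum {n : ℕ} {A : Finset ℕ} (h : A.card = n) (g : ℕ → ℕ) :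
    ∏ x, g (enum n A x) = ∏ q ∈ A, g q := by
  nth_rewrite 2 [← image_enum h]
  rw [Finset.prod_image fun x _ y _ e => enum_injective h e]

lemma profile_enum {n : ℕ} {A : Finset ℕ} (h : A.card = n) :
    (Finset.univ.val.map fun x => cell (enum n A x)) = A.val.map cell := by
  nth_rewrite 2 [← image_enum h]
  rw [Finset.image_val_of_injOn fun x _ y _ e => enum_injective h e, Multiset.map_map]
  rfl

lemma gsum_filter (A : Finset ℕ) (S T : ℕ) :
    gsum ((A.filter fun q => S ≤ cell q).val.map cell) S T = gsum (A.val.map cell) S T := by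
  refine Finset.sum_congr rfl fun j hj => congrArg gfun ?_
  have hS := (Finset.mem_Ico.1 hj).1
  simp only [rows, Multiset.countP_map, Finset.filter_val, Multiset.filter_filter]
  refine congrArg Multiset.card (Multiset.filter_congr fun q _ => ?_)
  constructor
  · exact fun h => h.1
  · exact fun h => ⟨h, hS.trans h⟩

lemma Kmax_le (s : ℕ) : (Kmax s : ℝ) ≤ 1001 * Real.log ((s : ℝ) + 4) ^ 2 := by
  have h3 : Real.log ((s : ℝ) + 3) ≤ Real.log ((s : ℝ) + 4) :=
    Real.log_le_log (by positivity) (by linarith)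
  have h1 : 1 ≤ Real.log ((s : ℝ) + 4) := by
    rw [Real.le_log_iff_exp_le (by positivity)]
    linarith [Real.exp_one_lt_d9, (Nat.cast_nonneg s : (0:ℝ) ≤ s)]
  have h0 : 0 ≤ Real.log ((s : ℝ) + 3) :=
    Real.log_nonneg (by linarith [(Nat.cast_nonneg s : (0:ℝ) ≤ s)])
  have hc := Nat.ceil_lt_add_one (show (0:ℝ) ≤ 1000 * Real.log ((s : ℝ) + 3) ^ 2 by positivity)
  have hsq := pow_le_pow_left₀ h0 h3 2
  have h2 : 1 ≤ Real.log ((s : ℝ) + 4) ^ 2 := one_le_pow₀ h1
  unfold Kmax
  linarith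

lemma dev_mono {t s : ℕ} (h : t ≤ s) : dev t ≤ dev s :=
  Real.rpow_le_rpow (by positivity) (by exact_mod_cast Nat.add_le_add_right h 4) (by norm_num)

/-- The collected error terms. -/
lemma budget (A c : ℝ) (k t1 : ℕ) (hA : 0 ≤ A) : ∃ s1 : ℕ, ∀ s : ℕ, s1 ≤ s → ∀ K : ℝ, 0 ≤ K →
    K ≤ 1001 * Real.log ((s : ℝ) + 4) ^ 2 →
    (A + (cutoff s : ℝ)) * K * K + K * K * (dev s + 1) + 2 * K * t1 + (cutoff s : ℝ) +
      2 * K * (|c| + 2 * K + 2 * (k + 12) * Real.log ((s : ℝ) + 4) + Real.log ((s : ℝ) + 4)) +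
      2 * K ≤ eps s * s - Real.sqrt s := by
  set P : ℝ := (A + 1 + 2 + 2 * |c| + 4 + 2 * t1 + 4 * (k + 13) + 2) * 1001 ^ 2 + 2 with hP
  have hP0 : 0 < P := by positivity
  have ht := (isLittleO_log_rpow_rpow_atTop (4 : ℝ) (show (0:ℝ) < 1 / 8 by norm_num)).def
    (show (0:ℝ) < 1 / (2 * P) by positivity)
  obtain ⟨X0, hX0⟩ := Filter.eventually_atTop.1 ht
  refine ⟨max 4 ⌈X0⌉₊, fun s hs K hK0 hK => ?_⟩
  have hs4 : (4 : ℝ) ≤ s := by exact_mod_cast le_trans (le_max_left _ _) hs
  have hsX : X0 ≤ (s : ℝ) + 4 := by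
    have h : (⌈X0⌉₊ : ℝ) ≤ s := by exact_mod_cast le_trans (le_max_right _ _) hs
    linarith [Nat.le_ceil X0]
  set X : ℝ := (s : ℝ) + 4 with hX
  set L := Real.log X with hL
  have hXpos : 0 < X := by positivity
  have hX1 : 1 ≤ X := by rw [hX]; linarith
  have hL1 : 1 ≤ L := by
    rw [hL, Real.le_log_iff_exp_le hXpos]; linarith [Real.exp_one_lt_d9]
  have hb := hX0 X hsX
  rw [Real.norm_of_nonneg (Real.rpow_nonneg (by linarith) _),
    Real.norm_of_nonneg (Real.rpow_nonneg hXpos.le _), show (4 : ℝ) = ((4 : ℕ) : ℝ) by norm_num,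
    Real.rpow_natCast] at hb
  set V := X ^ ((3 : ℝ) / 4) with hV
  have hV1 : 1 ≤ V := Real.one_le_rpow hX1 (by norm_num)
  have hdev : dev s = V := rfl
  have hsq : Real.sqrt s ≤ V := by
    rw [Real.sqrt_eq_rpow, hV]
    exact (Real.rpow_le_rpow (by linarith) (by rw [hX]; linarith) (by norm_num)).trans
      (Real.rpow_le_rpow_of_exponent_le hX1 (by norm_num))
  have hcut : (cutoff s : ℝ) ≤ V := (Real.nat_sqrt_le_real_sqrt).trans hsq
  have heps : X ^ ((7 : ℝ) / 8) / 2 ≤ eps s * s := by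
    have h1 : X ^ (-(1 : ℝ) / 8) ≤ eps s :=
      Real.rpow_le_rpow_of_nonpos (by positivity) (by rw [hX]; linarith) (by norm_num)
    refine le_trans ?_ (mul_le_mul_of_nonneg_right h1 (by linarith : (0:ℝ) ≤ s))
    calc X ^ ((7 : ℝ) / 8) / 2 = X ^ (-(1 : ℝ) / 8) * (X / 2) := by
          nth_rewrite 3 [← Real.rpow_one X]
          rw [← mul_div_assoc, ← Real.rpow_add hXpos]
          norm_num
      _ ≤ _ := mul_le_mul_of_nonneg_left (by rw [hX]; linarith) (Real.rpow_nonneg hXpos.le _)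
  have h78 : X ^ ((7 : ℝ) / 8) = X ^ ((1 : ℝ) / 8) * V := by
    rw [hV, ← Real.rpow_add hXpos]; norm_num
  -- every term is at most a constant times `L ^ 4 * V`
  have hL2 : 1 ≤ L ^ 2 := one_le_pow₀ hL1
  have hK2 : K * K ≤ 1001 ^ 2 * L ^ 4 := by
    refine (mul_le_mul hK hK hK0 (by positivity)).trans (le_of_eq ?_)
    ring
  have hK4 : K ≤ 1001 ^ 2 * L ^ 4 := by
    refine hK.trans ?_
    have : L ^ 2 ≤ L ^ 4 := pow_le_pow_right₀ hL1 (by norm_num)
    have h0 : 0 ≤ L ^ 4 := by positivity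
    linarith
  have hKL : K * L ≤ 1001 ^ 2 * L ^ 4 := by
    refine (mul_le_mul_of_nonneg_right hK (by linarith : 0 ≤ L)).trans ?_
    have : L ^ 3 ≤ L ^ 4 := pow_le_pow_right₀ hL1 (by norm_num)
    have h0 : 0 ≤ L ^ 4 := by positivity
    have e : 1001 * L ^ 2 * L = 1001 * L ^ 3 := by ring
    linarith
  set W := 1001 ^ 2 * L ^ 4 * V with hW
  have w1 : K * K * V ≤ W := mul_le_mul_of_nonneg_right hK2 (by linarith)
  have w2 : K * K ≤ W := hK2.trans (le_mul_of_one_le_right (by positivity) hV1)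
  have w3 : K ≤ W := hK4.trans (le_mul_of_one_le_right (by positivity) hV1)
  have w4 : K * L ≤ W := hKL.trans (le_mul_of_one_le_right (by positivity) hV1)
  have w5 : V ≤ L ^ 4 * V := le_mul_of_one_le_left (by linarith) (one_le_pow₀ hL1)
  have w6 : (cutoff s : ℝ) * (K * K) ≤ W :=
    (mul_le_mul hcut le_rfl (mul_nonneg hK0 hK0) (by linarith)).trans (by linarith [w1])
  have e1 : A * (K * K) ≤ A * W := mul_le_mul_of_nonneg_left w2 hA
  have e2 : (t1 : ℝ) * K ≤ t1 * W := mul_le_mul_of_nonneg_left w3 (Nat.cast_nonneg _)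
  have e3 : |c| * K ≤ |c| * W := mul_le_mul_of_nonneg_left w3 (abs_nonneg _)
  have e4 : ((k : ℝ) + 13) * (K * L) ≤ ((k : ℝ) + 13) * W :=
    mul_le_mul_of_nonneg_left w4 (by positivity)
  rw [hdev]
  have hfin : P * (L ^ 4 * V) ≤ eps s * s := by
    refine le_trans ?_ heps
    rw [h78]
    have hb' := mul_le_mul_of_nonneg_left (mul_le_mul_of_nonneg_right hb (by linarith : 0 ≤ V))
      hP0.le
    calc P * (L ^ 4 * V) ≤ P * (1 / (2 * P) * X ^ ((1 : ℝ) / 8) * V) := hb'
      _ = X ^ ((1 : ℝ) / 8) * V / 2 := by field_simp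
  have hKL0 : 0 ≤ K * L := mul_nonneg hK0 (by linarith)
  rw [hP] at hfin
  simp only [hW] at w1 w2 w3 w4 w6 e1 e2 e3 e4
  linarith

/-- M7, weight form. -/
theorem pair_weight (hS : SieveStatement) (hC : CellStatement) : PairWeightStatement := by
  classical
  obtain ⟨C, hC0, k, hSv⟩ := hS
  obtain ⟨A, hA0, hA⟩ := pending_inv_le hC
  obtain ⟨t1, ht1⟩ : ∃ t1 : ℕ, ∀ t : ℕ, t1 ≤ t → 2 * ((t : ℝ) + 1) ^ 4 ≤ Real.exp t := by
    have h := (Real.isLittleO_pow_exp_atTop (n := 4)).def (show (0:ℝ) < 1 / 32 by norm_num)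
    obtain ⟨X0, hX0⟩ := Filter.eventually_atTop.1 h
    refine ⟨max 1 ⌈X0⌉₊, fun t ht => ?_⟩
    have h1 : (1 : ℝ) ≤ t := by exact_mod_cast le_trans (le_max_left _ _) ht
    have h2 := hX0 t ((Nat.le_ceil X0).trans (by exact_mod_cast le_trans (le_max_right _ _) ht))
    rw [Real.norm_of_nonneg (by positivity), Real.norm_of_nonneg (Real.exp_pos _).le] at h2
    have h3 : ((t : ℝ) + 1) ^ 4 ≤ (2 * (t : ℝ)) ^ 4 :=
      pow_le_pow_left₀ (by positivity) (by linarith) 4
    have e : (2 * (t : ℝ)) ^ 4 = 16 * (t : ℝ) ^ 4 := by ring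
    linarith
  set c : ℝ := Real.log (24 * C + 1) with hc
  obtain ⟨s1, hs1⟩ := budget A c k t1 hA0
  refine ⟨max s1 1, fun s hs Q hQ => ?_⟩
  have hs1' : s1 ≤ s := le_trans (le_max_left _ _) hs
  have hspos : 1 ≤ s := le_trans (le_max_right _ _) hs
  set K : ℕ := Kmax s with hK
  set X : ℝ := (s : ℝ) + 4 with hX
  have hX1 : 1 ≤ X := by rw [hX]; linarith [(Nat.cast_nonneg s : (0:ℝ) ≤ s)]
  set D : ℝ := max 1 (2 * ((K : ℝ) + K) ^ 2 * (C * 3 * ((s : ℝ) + 5) ^ (k + 12))) with hD
  set key : Finset ℕ × Finset ℕ → (Σ i : ℕ, Σ j : ℕ, (Fin i → ℕ) × (Fin j → ℕ)) := fun a =>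
    ⟨a.1.card, a.2.card, fun x => cell (enum a.1.card a.1 x), fun x => cell (enum a.2.card a.2 x)⟩
    with hkey
  set I : Finset (Σ i : ℕ, Σ j : ℕ, (Fin i → ℕ) × (Fin j → ℕ)) :=
    (Finset.range (K + 1)).sigma fun i => (Finset.range (K + 1)).sigma fun j =>
      (Fintype.piFinset fun _ : Fin i => Finset.range (s + 1)) ×ˢ
        (Fintype.piFinset fun _ : Fin j => Finset.range (s + 1)) with hI
  have hmaps : ∀ a ∈ Q, key a ∈ I := by
    intro a ha
    obtain ⟨-, hq, hc1, hc2, -⟩ := hQ a ha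
    simp only [hI, hkey, Finset.mem_sigma, Finset.mem_range, Finset.mem_product,
      Fintype.mem_piFinset]
    refine ⟨by omega, by omega, fun x => ?_, fun x => ?_⟩
    · have := (hq _ (Finset.mem_union_left _ (enum_mem rfl x))).2.2; omega
    · have := (hq _ (Finset.mem_union_right _ (enum_mem rfl x))).2.2; omega
  set E : ℝ := (1 - eps s) * s - ((s : ℝ) - cutoff s) + (A + cutoff s) * K * K +
    (K : ℝ) * K * (dev s + 1) + 2 * K * t1 with hE
  have hone : ∀ i ∈ I, ∑ a ∈ Q with key a = i, (((∏ q ∈ a.1, (q - 1) : ℕ) : ℝ))⁻¹ ≤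
      Real.exp E * D ^ (2 * K) := by
    rintro ⟨i, j, tA, tB⟩ hi
    simp only [hI, Finset.mem_sigma, Finset.mem_range, Finset.mem_product,
      Fintype.mem_piFinset] at hi
    set Qi := Q.filter fun a => key a = ⟨i, j, tA, tB⟩ with hQi
    rcases Qi.eq_empty_or_nonempty with he | ⟨a0, ha0⟩
    · rw [he, Finset.sum_empty]; positivity
    have hdat : ∀ a ∈ Qi, a ∈ Q ∧ ∃ hi : a.1.card = i, ∃ hj : a.2.card = j,
        (∀ x, cell (enum i a.1 x) = tA x) ∧ ∀ x, cell (enum j a.2 x) = tB x := by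
      intro a ha
      obtain ⟨hm, he⟩ := Finset.mem_filter.1 ha
      simp only [hkey] at he
      cases he
      exact ⟨hm, rfl, rfl, fun x => rfl, fun x => rfl⟩
    set φ : Finset ℕ × Finset ℕ → (Fin i → ℕ) × (Fin j → ℕ) := fun a =>
      (fun x => enum i a.1 x - 1, fun x => enum j a.2 x - 1) with hφ
    have hinj : Set.InjOn φ Qi := by
      intro a ha b hb he
      obtain ⟨hma, hia, hja, -⟩ := hdat a ha
      obtain ⟨hmb, hib, hjb, -⟩ := hdat b hb
      simp only [hφ, Prod.ext_iff] at he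
      have hp1 : ∀ x, 2 ≤ enum i a.1 x ∧ 2 ≤ enum i b.1 x := fun x =>
        ⟨((hQ a hma).2.1 _ (Finset.mem_union_left _ (enum_mem hia x))).1.two_le,
          ((hQ b hmb).2.1 _ (Finset.mem_union_left _ (enum_mem hib x))).1.two_le⟩
      have hp2 : ∀ x, 2 ≤ enum j a.2 x ∧ 2 ≤ enum j b.2 x := fun x =>
        ⟨((hQ a hma).2.1 _ (Finset.mem_union_right _ (enum_mem hja x))).1.two_le,
          ((hQ b hmb).2.1 _ (Finset.mem_union_right _ (enum_mem hjb x))).1.two_le⟩
      refine Prod.ext ?_ ?_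
      · rw [← image_enum hia, ← image_enum hib]
        exact Finset.image_congr fun x _ => by
          have := congrFun he.1 x; have := hp1 x; omega
      · rw [← image_enum hja, ← image_enum hjb]
        exact Finset.image_congr fun x _ => by
          have := congrFun he.2 x; have := hp2 x; omega
    have hsum : ∑ a ∈ Qi, (((∏ q ∈ a.1, (q - 1) : ℕ) : ℝ))⁻¹ =
        ∑ m ∈ Qi.image φ, ((∏ x, m.1 x : ℕ) : ℝ)⁻¹ := by
      rw [Finset.sum_image hinj]
      refine Finset.sum_congr rfl fun a ha => ?_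
      obtain ⟨-, hia, -⟩ := hdat a ha
      simp only [hφ]
      rw [prod_enum hia fun q => q - 1]
    rw [hsum]
    set PA := Finset.univ.filter fun x => t1 ≤ tA x with hPA
    set PB := Finset.univ.filter fun x => t1 ≤ tB x with hPB
    obtain ⟨hma0, hia0, hja0, htA0, htB0⟩ := hdat a0 ha0
    obtain ⟨-, -, -, -, ⟨q0, hq0, hq0s⟩, hg0, -⟩ := hQ a0 hma0
    have htop : ∃ x, tA x = s := by
      rw [← image_enum hia0] at hq0
      obtain ⟨x, -, rfl⟩ := Finset.mem_image.1 hq0
      exact ⟨x, by rw [← htA0 x, hq0s]⟩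
    have hres := hA (α := Fin i) (β := Fin j) C k s hSv hC0 tA tB PA PB t1 (cutoff s) s D (dev s)
      (Nat.le_sqrt.2 (by omega)) (Nat.sqrt_le_self s) (fun x => by have := hi.2.2.1 x; omega) htop
      (Real.rpow_nonneg (by positivity) _)
      (fun x hx => ⟨by have := hi.2.2.1 x; omega, ht1 _ (Finset.mem_filter.1 hx).2⟩)
      (fun x hx => ⟨by have := hi.2.2.2 x; omega, ht1 _ (Finset.mem_filter.1 hx).2⟩)
      (fun x hx => by simp only [hPA, Finset.mem_filter, Finset.mem_univ, true_and] at hx; omega)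
      (fun x hx => by simp only [hPB, Finset.mem_filter, Finset.mem_univ, true_and] at hx; omega)
      (le_max_left _ _) (le_trans (by
        simp only [Fintype.card_fin]
        have h1 : (i : ℝ) ≤ K := by exact_mod_cast Nat.lt_succ_iff.1 hi.1
        have h2 : (j : ℝ) ≤ K := by exact_mod_cast Nat.lt_succ_iff.1 hi.2.1
        gcongr) (le_max_right _ _))
      (Qi.image φ) ?_
    · refine hres.trans (mul_le_mul (Real.exp_le_exp.2 ?_) ?_ (by positivity) (Real.exp_pos _).le)
      · have hiK : (i : ℝ) ≤ K := by exact_mod_cast Nat.lt_succ_iff.1 hi.1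
        have hjK : (j : ℝ) ≤ K := by exact_mod_cast Nat.lt_succ_iff.1 hi.2.1
        have hlog : Real.log (i : ℝ) ≤ K := by
          rcases Nat.eq_zero_or_pos i with h0 | h0
          · subst h0; simp
          · linarith [Real.log_le_sub_one_of_pos (show (0:ℝ) < i by exact_mod_cast h0)]
        have hg : gsum (Finset.univ.val.map tA) (cutoff s) s ≤ (1 - eps s) * s := by
          rw [gsum_filter] at hg0
          have : Finset.univ.val.map tA = a0.1.val.map cell := by
            rw [← profile_enum hia0]; exact Multiset.map_congr rfl fun x _ => (htA0 x).symm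
          rwa [this]
        have h1 : (A + cutoff s) * (i : ℝ) * j ≤ (A + cutoff s) * K * K := by gcongr
        have hdv : 0 ≤ dev s + 1 :=
          add_nonneg (Real.rpow_nonneg (by positivity) _) zero_le_one
        have h2 : (i : ℝ) * Real.log i * (dev s + 1) ≤ (K : ℝ) * K * (dev s + 1) := by
          refine mul_le_mul_of_nonneg_right ?_ hdv
          exact mul_le_mul hiK hlog (Real.log_natCast_nonneg _) (Nat.cast_nonneg _)
        have h3 : ((i : ℝ) + j) * t1 ≤ 2 * K * t1 := by gcongr; linarith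
        simp only [Fintype.card_fin, hE]
        linarith
      · simp only [Fintype.card_fin]
        exact pow_le_pow_right₀ (le_max_left _ _) (by omega)
    · intro m hm
      obtain ⟨a, ha, rfl⟩ := Finset.mem_image.1 hm
      obtain ⟨hma, hia, hja, htA, htB⟩ := hdat a ha
      obtain ⟨hdis, hq, -, -, -, -, hprod⟩ := hQ a hma
      have hqA : ∀ x, (enum i a.1 x).Prime ∧ Normal (enum i a.1 x) := fun x =>
        ⟨(hq _ (Finset.mem_union_left _ (enum_mem hia x))).1,
          (hq _ (Finset.mem_union_left _ (enum_mem hia x))).2.1⟩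
      have hqB : ∀ x, (enum j a.2 x).Prime ∧ Normal (enum j a.2 x) := fun x =>
        ⟨(hq _ (Finset.mem_union_right _ (enum_mem hja x))).1,
          (hq _ (Finset.mem_union_right _ (enum_mem hja x))).2.1⟩
      refine ⟨⟨fun x => ⟨?_, ?_⟩, fun x => ⟨?_, ?_⟩, ?_, fun x _ => ?_, fun x _ => ?_, ?_⟩,
        fun x u w huw hw => ?_⟩
      · have := (hqA x).1.two_le; simp only [hφ]; omega
      · rw [← htA x]; exact cellsLe_pred (hqA x).1
      · have := (hqB x).1.two_le; simp only [hφ]; omega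
      · rw [← htB x]; exact cellsLe_pred (hqB x).1
      · simp only [hφ]
        rw [prod_enum hia fun q => q - 1, prod_enum hja fun q => q - 1, hprod]
      · rw [← htA x]; exact pend_of_normal (hqA x).1 (hqA x).2
      · rw [← htB x]; exact pend_of_normal (hqB x).1 (hqB x).2
      · intro x _ y _ he
        have := (hqA x).1.two_le
        have := (hqB y).1.two_le
        simp only [hφ] at he
        have heq : enum i a.1 x = enum j a.2 y := by omega
        exact Finset.disjoint_left.1 hdis (enum_mem hia x) (heq ▸ enum_mem hja y)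
      · rw [← htA x] at hw
        refine (normal_upper (hqA x).2 huw hw).trans ?_
        have h := dev_mono (show cell (enum i a.1 x) ≤ s by
          rw [htA x]; have := hi.2.2.1 x; omega)
        linarith
  have hcard : (I.card : ℝ) ≤ Real.exp (2 * K + 2 * K * Real.log X) := by
    have h1 : I.card ≤ (K + 1) * ((K + 1) * ((s + 1) ^ K * (s + 1) ^ K)) := by
      simp only [hI, Finset.card_sigma, Finset.card_product, Fintype.card_piFinset,
        Finset.prod_const, Finset.card_range, Finset.card_univ, Fintype.card_fin]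
      refine (Finset.sum_le_card_nsmul _ _ ((K + 1) * ((s + 1) ^ K * (s + 1) ^ K))
        fun i hi => ?_).trans (by simp)
      refine (Finset.sum_le_card_nsmul _ _ ((s + 1) ^ K * (s + 1) ^ K) fun j hj => ?_).trans
        (by simp)
      exact Nat.mul_le_mul
        (Nat.pow_le_pow_right (Nat.succ_pos s) (Nat.lt_succ_iff.1 (Finset.mem_range.1 hi)))
        (Nat.pow_le_pow_right (Nat.succ_pos s) (Nat.lt_succ_iff.1 (Finset.mem_range.1 hj)))
    refine (Nat.cast_le.2 h1).trans ?_
    push_cast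
    have e : Real.exp (2 * K + 2 * K * Real.log X) =
        Real.exp K * Real.exp K * X ^ (2 * (K : ℝ)) := by
      rw [Real.rpow_def_of_pos (by linarith : 0 < X), ← Real.exp_add, ← Real.exp_add]
      ring_nf
    rw [e]
    have hk1 : (K : ℝ) + 1 ≤ Real.exp K := Real.add_one_le_exp _
    have hp : ((s : ℝ) + 1) ^ K * ((s : ℝ) + 1) ^ K ≤ X ^ (2 * (K : ℝ)) := by
      rw [← pow_add, show (2 * (K : ℝ)) = ((K + K : ℕ) : ℝ) by push_cast; ring, Real.rpow_natCast]
      exact pow_le_pow_left₀ (by positivity) (by rw [hX]; linarith) _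
    rw [mul_assoc]
    exact mul_le_mul hk1 (mul_le_mul hk1 hp (by positivity) (Real.exp_pos _).le)
      (by positivity) (Real.exp_pos _).le
  have hDlog : Real.log D ≤ |c| + 2 * K + (k + 12) * Real.log X + (k + 12) := by
    have hLX : 0 ≤ Real.log X := Real.log_nonneg hX1
    rw [Real.log_le_iff_le_exp (lt_of_lt_of_le one_pos (le_max_left _ _))]
    refine max_le (Real.one_le_exp (by positivity)) ?_
    have h1 : (K : ℝ) ^ 2 ≤ Real.exp (2 * K) := by
      rw [two_mul, Real.exp_add, sq]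
      have : (K : ℝ) ≤ Real.exp K := by linarith [Real.add_one_le_exp (K : ℝ)]
      exact mul_le_mul this this (Nat.cast_nonneg _) (Real.exp_pos _).le
    have h2 : ((s : ℝ) + 5) ^ (k + 12) ≤ Real.exp ((k + 12) * Real.log X + (k + 12)) := by
      have e : ((k : ℝ) + 12) * Real.log X + ((k : ℝ) + 12) =
          ((k + 12 : ℕ) : ℝ) * (Real.log X + 1) := by push_cast; ring
      rw [e, Real.exp_nat_mul, Real.exp_add, Real.exp_log (by linarith)]
      refine pow_le_pow_left₀ (by positivity) ?_ _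
      have h := mul_le_mul_of_nonneg_left
        (show (2 : ℝ) ≤ Real.exp 1 by linarith [Real.add_one_le_exp (1 : ℝ)])
        (show (0:ℝ) ≤ X by linarith)
      linarith
    have h3 : 24 * C ≤ Real.exp |c| := by
      refine le_trans ?_ (Real.exp_le_exp.2 (le_abs_self c))
      rw [hc, Real.exp_log (by positivity)]
      linarith
    calc 2 * ((K : ℝ) + K) ^ 2 * (C * 3 * ((s : ℝ) + 5) ^ (k + 12))
        = 24 * C * (K : ℝ) ^ 2 * ((s : ℝ) + 5) ^ (k + 12) := by ring
      _ ≤ Real.exp |c| * Real.exp (2 * K) * Real.exp ((k + 12) * Real.log X + (k + 12)) :=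
          mul_le_mul (mul_le_mul h3 h1 (sq_nonneg _) (Real.exp_pos _).le) h2 (by positivity)
            (by positivity)
      _ = _ := by rw [← Real.exp_add, ← Real.exp_add]; ring_nf
  calc ∑ a ∈ Q, (((∏ q ∈ a.1, (q - 1) : ℕ) : ℝ))⁻¹
      = ∑ i ∈ I, ∑ a ∈ Q with key a = i, (((∏ q ∈ a.1, (q - 1) : ℕ) : ℝ))⁻¹ :=
        (Finset.sum_fiberwise_of_maps_to hmaps _).symm
    _ ≤ ∑ i ∈ I, Real.exp E * D ^ (2 * K) := Finset.sum_le_sum hone
    _ = (I.card : ℝ) * (Real.exp E * D ^ (2 * K)) := by rw [Finset.sum_const, nsmul_eq_mul]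
    _ ≤ Real.exp (2 * K + 2 * K * Real.log X) * (Real.exp E * D ^ (2 * K)) :=
        mul_le_mul_of_nonneg_right hcard (by positivity)
    _ ≤ _ := by
      rw [← Real.exp_log (pow_pos (lt_of_lt_of_le one_pos (le_max_left _ _) : 0 < D) (2 * K)),
        ← Real.exp_add, ← Real.exp_add, Real.log_pow]
      refine Real.exp_le_exp.2 ?_
      have hb := hs1 s hs1' K (Nat.cast_nonneg _) (Kmax_le s)
      have hD' := mul_le_mul_of_nonneg_left hDlog (show (0:ℝ) ≤ 2 * K by positivity)
      push_cast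
      simp only [hE]
      have hL1 : 1 ≤ Real.log X := by
        rw [Real.le_log_iff_exp_le (by linarith)]
        rw [hX]; linarith [Real.exp_one_lt_d9, (Nat.cast_nonneg s : (0:ℝ) ≤ s)]
      have h5 := mul_le_mul_of_nonneg_left hL1
        (show (0:ℝ) ≤ 2 * K * ((k : ℝ) + 12) by positivity)
      linarith

end P031.Pairs
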