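import Vale.Agent.P031.Total.Weights

/-!
The crude bound for reciprocal sums of totients of bounded top scale, and the rarity of the
exceptional ones.
-/

open Finset Filter

noncomputable section

namespace P031.TotalAux

attribute [local instance] Classical.propDecidable

/-- The dyadic range of the scale of `p`. -/
def rng (p : ℕ) : ℕ := Nat.log 2 (cell p)

/-- A normal prime dividing `n` once, in a range at least `j1`. -/
def good (j1 n p : ℕ) : Prop := j1 ≤ rng p ∧ Normal p ∧ n.factorization p = 1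

/-- The good primes of range `j`. -/
def grp (j1 n j : ℕ) : Finset ℕ := n.primeFactors.filter fun p => good j1 n p ∧ rng p = j

/-- No range has more than `K` good primes. -/
def Thin (j1 K n : ℕ) : Prop := ∀ j, (grp j1 n j).card ≤ K

theorem rng_le {p T : ℕ} (h : cell p ≤ T) : rng p ≤ Nat.log 2 T := Nat.log_mono_right h

theorem two_pow_rng_le {p j1 : ℕ} (hj : 1 ≤ j1) (h : j1 ≤ rng p) : 2 ^ rng p ≤ cell p :=
  Nat.pow_log_le_self 2 fun h0 => by simp [rng, h0] at h; omega

theorem cell_lt {p : ℕ} : cell p < 2 ^ (rng p + 1) := Nat.lt_pow_succ_log_self (by norm_num) _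

/-- At most `2^(j+1)` scales lie in range `j`. -/
theorem sum_range_weight (T : ℕ) :
    ∑ t ∈ Finset.range (T + 1), ((1 : ℝ) / 2) ^ Nat.log 2 t ≤ 2 * ((Nat.log 2 T : ℝ) + 1) := by
  rw [← Finset.sum_fiberwise_of_maps_to (t := Finset.range (Nat.log 2 T + 1))
    (g := fun t => Nat.log 2 t) fun t ht => Finset.mem_range.2 <| Nat.lt_succ_iff.2 <|
      Nat.log_mono_right (Nat.lt_succ_iff.1 (Finset.mem_range.1 ht))]
  calc _ ≤ ∑ j ∈ Finset.range (Nat.log 2 T + 1), (2 : ℝ) := by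
        refine Finset.sum_le_sum fun j _ => ?_
        set A := (Finset.range (T + 1)).filter fun t => Nat.log 2 t = j
        rw [Finset.sum_congr rfl fun t (ht : t ∈ A) =>
          show ((1 : ℝ) / 2) ^ Nat.log 2 t = (1 / 2) ^ j by rw [(Finset.mem_filter.1 ht).2],
          Finset.sum_const, nsmul_eq_mul]
        have hcard : A.card ≤ 2 ^ (j + 1) := by
          refine (Finset.card_le_card (t := Finset.range (2 ^ (j + 1))) fun t ht => ?_).trans
            (Finset.card_range _).le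
          rw [Finset.mem_range, ← (Finset.mem_filter.1 ht).2]
          exact Nat.lt_pow_succ_log_self (by norm_num) t
        calc (A.card : ℝ) * (1 / 2) ^ j ≤ (2 : ℝ) ^ (j + 1) * (1 / 2) ^ j :=
              mul_le_mul_of_nonneg_right (by exact_mod_cast hcard) (by positivity)
          _ = 2 := by rw [pow_succ, mul_assoc, mul_comm (2 : ℝ), ← mul_assoc, ← mul_pow]; norm_num
    _ = _ := by rw [Finset.sum_const, Finset.card_range, nsmul_eq_mul]; push_cast; ring

theorem sum_grp_le {j1 K n T : ℕ} (hT : CellsLe n T) (hth : Thin j1 K n) :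
    ∑ p ∈ n.primeFactors.filter (good j1 n), rng p ≤
      (Nat.log 2 T + 1) * (K * (Nat.log 2 T + 1)) := by
  rw [← Finset.sum_fiberwise_of_maps_to (t := Finset.range (Nat.log 2 T + 1)) (g := rng)
    fun p hp => Finset.mem_range.2 <| Nat.lt_succ_iff.2 <|
      rng_le (hT p (Finset.mem_filter.1 hp).1)]
  refine le_trans (Finset.sum_le_card_nsmul _ _ (K * (Nat.log 2 T + 1)) fun j hj => ?_)
    (by rw [Finset.card_range, smul_eq_mul])
  refine le_trans (Finset.sum_le_card_nsmul _ _ (Nat.log 2 T + 1) fun p hp => ?_) ?_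
  · rw [(Finset.mem_filter.1 hp).2]
    exact (Finset.mem_range.1 hj).le
  · rw [smul_eq_mul, Finset.filter_filter]
    exact Nat.mul_le_mul_right _ (hth j)

theorem log_two_le {T : ℕ} : (Nat.log 2 T : ℝ) + 1 ≤ 3 * Real.log ((T : ℝ) + 3) := by
  have h1 : (1 : ℝ) ≤ Real.log ((T : ℝ) + 3) := by
    rw [Real.le_log_iff_exp_le (by positivity)]
    have := Real.exp_one_lt_d9
    have : (0 : ℝ) ≤ T := Nat.cast_nonneg T
    linarith
  rcases Nat.eq_zero_or_pos T with rfl | hT
  · simp at h1 ⊢; linarith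
  · have h2 : ((2 : ℝ) ^ Nat.log 2 T) ≤ (T : ℝ) + 3 := by
      have : ((2 : ℕ) ^ Nat.log 2 T : ℕ) ≤ T := Nat.pow_log_le_self 2 hT.ne'
      have h' : ((2 : ℝ) ^ Nat.log 2 T) ≤ T := by exact_mod_cast this
      linarith
    have h3 := Real.log_le_log (by positivity) h2
    rw [Real.log_pow] at h3
    have := Real.log_two_gt_d9
    have h4 : (0 : ℝ) ≤ (Nat.log 2 T : ℝ) := Nat.cast_nonneg _
    nlinarith

theorem one_le_L (T : ℕ) : (1 : ℝ) ≤ Real.log ((T : ℝ) + 3) := by
  rw [Real.le_log_iff_exp_le (by positivity)]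
  have := Real.exp_one_lt_d9
  have : (0 : ℝ) ≤ T := Nat.cast_nonneg T
  linarith

/-- Totients of thin numbers. -/
theorem thin_bound {C0 : ℝ} {j1 : ℕ} (hS : Setup C0 j1) (K : ℕ) :
    ∃ C : ℝ, 0 ≤ C ∧ ∀ T : ℕ, ∀ N : Finset ℕ,
      (∀ n ∈ N, n ≠ 0 ∧ CellsLe n T ∧ Thin j1 K n) →
      invSum (N.image Nat.totient) ≤ Real.exp (C * Real.log ((T : ℝ) + 3) ^ 2) := by
  have hC0 := hS.pos
  refine ⟨9 * K + 4 * C0 * 2 ^ j1 + 6 * (6 * C0 + 4), by positivity, fun T N hN => ?_⟩
  set J := Nat.log 2 T with hJ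
  set u : ℕ → ℕ → ℝ := fun p e =>
    if Normal p ∧ e = 1 then (if j1 ≤ rng p then (1 / 2) ^ rng p else 1) else 1 with hu
  set w : ℕ → ℕ → ℝ := fun p e => u p e * ((tw p e : ℝ))⁻¹ with hw
  set M : ℕ := (J + 1) * (K * (J + 1)) with hM
  have hu0 : ∀ p e, 0 < u p e := fun p e => by
    simp only [hu]; split_ifs <;> positivity
  have step : ∀ n ∈ N, ((Nat.totient n : ℝ))⁻¹ ≤
      2 ^ M * ∏ p ∈ n.primeFactors, w p (n.factorization p) := by
    intro n hn
    obtain ⟨h0, hcl, hth⟩ := hN n hn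
    have hueq : ∀ p, u p (n.factorization p) = if good j1 n p then (1 / 2) ^ rng p else 1 := fun p => by
      simp only [hu, good]
      by_cases h1 : j1 ≤ rng p
      · simp [h1]
      · simp [h1]
    simp only [hw, Finset.prod_mul_distrib, ← inv_totient_eq h0, hueq]
    rw [← mul_assoc, ← Finset.prod_filter, Finset.prod_pow_eq_pow_sum]
    refine le_mul_of_one_le_left (inv_nonneg.2 (Nat.cast_nonneg _)) ?_
    rw [one_div, inv_pow, ← div_eq_mul_inv, le_div_iff₀ (by positivity), one_mul]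
    exact pow_le_pow_right₀ (by norm_num) (sum_grp_le hcl hth)
  set B : ℕ → ℝ := fun p => if rng p < j1 then 4 / (p : ℝ) else
    if Normal p then 2 * (1 / 2) ^ rng p / (p : ℝ) + 4 / (p : ℝ) ^ 2 else 4 / (p : ℝ) with hB
  have hE := euler_gen (below (T + 1)) w B
    (fun p _ e => mul_nonneg (hu0 p e).le (inv_nonneg.2 (Nat.cast_nonneg _)))
    (fun p hp E => by
      have hp2 := (mem_below.1 hp).1.two_le
      simp only [hw, hu, hB]
      by_cases h1 : j1 ≤ rng p
      · simp only [if_pos h1, if_neg (not_lt.2 h1)]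
        exact prime_weight_le hp2 (by positivity) E
      · simp only [if_neg h1, if_pos (not_le.1 h1)]
        refine (prime_weight_le hp2 zero_le_one E).trans ?_
        split_ifs with hN
        · have hp' : (2 : ℝ) ≤ p := by exact_mod_cast hp2
          rw [div_add_div _ _ (by positivity) (by positivity),
            div_le_div_iff₀ (by positivity) (by positivity)]
          nlinarith [sq_nonneg (p : ℝ), mul_nonneg (mul_nonneg (show (0:ℝ) ≤ p by positivity)
            (show (0:ℝ) ≤ p by positivity)) (sub_nonneg.2 hp')]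
        · exact le_rfl)
    N fun n hn => ⟨(hN n hn).1, primeFactors_subset_below (hN n hn).2.1⟩
  have hsum : ∑ p ∈ below (T + 1), B p ≤
      4 * C0 * 2 ^ j1 + 2 * (6 * C0 + 4) * ((J : ℝ) + 1) := by
    rw [sum_below]
    have hcell : ∀ t, ∑ p ∈ cellPrimes t, B p ≤
        (if t < 2 ^ j1 then 4 * C0 else 0) + (6 * C0 + 4) * (1 / 2) ^ Nat.log 2 t := by
      intro t
      by_cases h : Nat.log 2 t < j1
      · have hlt : t < 2 ^ j1 := Nat.lt_of_lt_of_le (Nat.lt_pow_succ_log_self (by norm_num) t)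
          (Nat.pow_le_pow_right (by norm_num) h)
        rw [if_pos hlt, Finset.sum_congr rfl fun p hp => (by
          have : rng p < j1 := by rw [rng, (mem_cellPrimes.1 hp).2]; exact h
          simp only [hB, if_pos this, div_eq_mul_inv] : B p = 4 * (p : ℝ)⁻¹), ← Finset.mul_sum]
        have : 0 ≤ (6 * C0 + 4) * ((1 : ℝ) / 2) ^ Nat.log 2 t := by positivity
        linarith [mul_le_mul_of_nonneg_left (hS.cell_le t) (by norm_num : (0 : ℝ) ≤ 4)]
      · push Not at h
        have ht0 : t ≠ 0 := by rintro rfl; simp at h; have := hS.one_le; omega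
        have hpw : 2 ^ Nat.log 2 t ≤ t := Nat.pow_log_le_self 2 ht0
        have ht : 2 ^ j1 ≤ t := (Nat.pow_le_pow_right (by norm_num) h).trans hpw
        rw [if_neg (not_lt.2 ht), Finset.sum_congr rfl fun p hp => (by
          have hc : rng p = Nat.log 2 t := by rw [rng, (mem_cellPrimes.1 hp).2]
          simp only [hB, hc, if_neg (not_lt.2 h)] : B p = if Normal p then
            2 * (1 / 2) ^ Nat.log 2 t / (p : ℝ) + 4 / (p : ℝ) ^ 2 else 4 / (p : ℝ))]
        refine (cell_weight_le hS ht (by positivity)).trans ?_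
        have h1 : (1 : ℝ) / t ≤ (1 / 2) ^ Nat.log 2 t := by
          rw [div_pow, one_pow]
          exact one_div_le_one_div_of_le (by positivity) (by exact_mod_cast hpw)
        have h2 := hS.exp_le t ht
        have htR : (0 : ℝ) < t := by exact_mod_cast Nat.pos_of_ne_zero ht0
        have h3 : Real.exp (-(t : ℝ)) ≤ 1 / t := by
          rw [Real.exp_neg, one_div]
          exact inv_anti₀ htR (by linarith [Real.add_one_le_exp (t : ℝ)])
        nlinarith
    refine (Finset.sum_le_sum fun t _ => hcell t).trans ?_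
    rw [Finset.sum_add_distrib, ← Finset.mul_sum, ← Finset.sum_filter, Finset.sum_const,
      nsmul_eq_mul]
    refine add_le_add ?_ ?_
    · rw [mul_comm]
      refine mul_le_mul_of_nonneg_left ?_ (by positivity)
      have : ((Finset.range (T + 1)).filter fun t => t < 2 ^ j1).card ≤ 2 ^ j1 :=
        (Finset.card_le_card (t := Finset.range (2 ^ j1)) fun t ht =>
          Finset.mem_range.2 (Finset.mem_filter.1 ht).2).trans (Finset.card_range _).le
      exact_mod_cast this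
    · rw [mul_assoc 2, mul_left_comm]
      exact mul_le_mul_of_nonneg_left (sum_range_weight T) (by positivity)
  calc invSum (N.image Nat.totient) ≤ ∑ n ∈ N, ((Nat.totient n : ℝ))⁻¹ := invSum_image_le _ _
    _ ≤ ∑ n ∈ N, 2 ^ M * ∏ p ∈ n.primeFactors, w p (n.factorization p) := Finset.sum_le_sum step
    _ = 2 ^ M * ∑ n ∈ N, ∏ p ∈ n.primeFactors, w p (n.factorization p) := (Finset.mul_sum _ _ _).symm
    _ ≤ Real.exp 1 ^ M * Real.exp (4 * C0 * 2 ^ j1 + 2 * (6 * C0 + 4) * ((J : ℝ) + 1)) := by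
        refine mul_le_mul (pow_le_pow_left₀ (by norm_num) ?_ M)
          (hE.trans (Real.exp_le_exp.2 hsum)) ?_ (by positivity)
        · linarith [Real.add_one_le_exp (1 : ℝ)]
        · exact Finset.sum_nonneg fun n _ => Finset.prod_nonneg fun p _ =>
            mul_nonneg (hu0 _ _).le (inv_nonneg.2 (Nat.cast_nonneg _))
    _ ≤ _ := by
        rw [← Real.exp_nat_mul, ← Real.exp_add]
        refine Real.exp_le_exp.2 ?_
        have hJL : (J : ℝ) + 1 ≤ 3 * Real.log ((T : ℝ) + 3) := log_two_le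
        have hL := one_le_L T
        have hJ0 : (0 : ℝ) ≤ J := Nat.cast_nonneg _
        simp only [hM]; push_cast
        set L := Real.log ((T : ℝ) + 3)
        have hLL : L ≤ L ^ 2 := by nlinarith
        have hsq : ((J : ℝ) + 1) ^ 2 ≤ 9 * L ^ 2 := by nlinarith
        have hC2 : 0 ≤ 4 * C0 * 2 ^ j1 := by positivity
        nlinarith [mul_le_mul_of_nonneg_left hsq (Nat.cast_nonneg K : (0 : ℝ) ≤ K),
          mul_le_mul_of_nonneg_left (hJL.trans (by linarith : 3 * L ≤ 3 * L ^ 2))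
            (show (0 : ℝ) ≤ 2 * (6 * C0 + 4) by positivity),
          mul_le_mul_of_nonneg_left (show (1 : ℝ) ≤ L ^ 2 by nlinarith) hC2]

/-- Totients of numbers with many normal primes in one range, the range being the top one. -/
theorem low_bound {C0 : ℝ} {j1 : ℕ} (hS : Setup C0 j1) :
    ∃ K : ℕ, ∀ j : ℕ, j1 ≤ j → ∀ N : Finset ℕ,
      (∀ n ∈ N, n ≠ 0 ∧ CellsLe n (2 ^ (j + 1) - 1) ∧ K < (grp j1 n j).card) →
      invSum (N.image Nat.totient) ≤ Real.exp (-(2 : ℝ) ^ j) := by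
  have hC0 := hS.pos
  refine ⟨⌈72 * C0⌉₊ + 6, fun j hj N hN => ?_⟩
  set K := ⌈72 * C0⌉₊ + 6 with hK
  have hj0 : 1 ≤ j := hS.one_le.trans hj
  obtain ⟨i, rfl⟩ : ∃ i, j = i + 1 := ⟨j - 1, by omega⟩
  set W := 2 ^ (i + 1 + 1) with hW
  set h := 2 ^ i with hh
  have hW1 : 1 ≤ W := Nat.one_le_two_pow
  set F := N.image Nat.totient with hF
  have hF' : ∀ v ∈ F, v ≠ 0 ∧ v.primeFactors ⊆ below W ∧
      (K + 1) * h ≤ ∑ q ∈ below W, v.factorization q := by
    intro v hv
    obtain ⟨n, hn, rfl⟩ := Finset.mem_image.1 hv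
    obtain ⟨hn0, hcl, hK'⟩ := hN n hn
    have hφ : Nat.totient n ≠ 0 := (Nat.totient_pos.2 (Nat.pos_of_ne_zero hn0)).ne'
    refine ⟨hφ, fun q hq => ?_, ?_⟩
    · have hqp := Nat.prime_of_mem_primeFactors hq
      have hd := Nat.dvd_of_mem_primeFactors hq
      rw [totient_eq hn0] at hd
      obtain ⟨p, hp, hqd⟩ := (hqp.prime.dvd_finsetProd_iff _).1 hd
      have hpp := Nat.prime_of_mem_primeFactors hp
      have hle : q ≤ p := by
        rcases hqp.dvd_mul.1 hqd with h1 | h1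
        · exact Nat.le_of_dvd hpp.pos (hqp.dvd_of_dvd_pow h1)
        · have := Nat.le_of_dvd (by have := hpp.two_le; omega) h1; omega
      exact mem_below.2 ⟨hqp, by have := cell_mono hqp.two_le hle; have := hcl p hp; omega⟩
    · have hdvd : (∏ p ∈ grp j1 n (i + 1), (p - 1)) ∣ Nat.totient n := by
        rw [totient_eq hn0]
        refine (Finset.prod_dvd_prod_of_dvd _ (fun p => tw p (n.factorization p))
          fun p _ => Dvd.intro_left _ rfl).trans ?_
        exact Finset.prod_dvd_prod_of_subset _ _ _ (Finset.filter_subset _ _)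
      have hpne : ∀ p ∈ grp j1 n (i + 1), p - 1 ≠ 0 := fun p hp => by
        have := (Nat.prime_of_mem_primeFactors (Finset.mem_filter.1 hp).1).two_le; omega
      have hfac := (Nat.factorization_le_iff_dvd (Finset.prod_ne_zero_iff.2 hpne) hφ).2 hdvd
      rw [Nat.factorization_prod hpne] at hfac
      calc (K + 1) * h ≤ (grp j1 n (i + 1)).card * h := Nat.mul_le_mul_right _ hK'
        _ ≤ ∑ p ∈ grp j1 n (i + 1), ∑ q ∈ below W, (p - 1).factorization q := by
            rw [← smul_eq_mul]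
            refine Finset.card_nsmul_le_sum _ _ _ fun p hp => ?_
            obtain ⟨hp1, ⟨hjr, hNp, -⟩, hr⟩ := Finset.mem_filter.1 hp
            have hpc := two_pow_rng_le hS.one_le hjr
            rw [hr] at hpc
            have hbig : 2 ^ j1 ≤ cell p := (Nat.pow_le_pow_right (by norm_num) hj).trans hpc
            have hseg := (abs_le.1 (hNp.1 0 (cell p + 1) (Nat.succ_pos _) le_rfl)).1
            have hdev := hS.dev_le (cell p) hbig
            have hh2 : (h : ℝ) ≤ omegaSeg (p - 1) 0 (cell p + 1) := by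
              have h2 : (2 : ℝ) * h ≤ cell p := by
                have : 2 * h ≤ cell p := by rw [hh, ← pow_succ']; exact hpc
                exact_mod_cast this
              push_cast at hseg
              linarith
            refine le_trans (by exact_mod_cast hh2) ?_
            unfold omegaSeg
            refine Finset.sum_le_sum_of_subset fun q hq => ?_
            obtain ⟨hq1, -, hq2⟩ := Finset.mem_filter.1 hq
            have := hcl p hp1
            exact mem_below.2 ⟨Nat.prime_of_mem_primeFactors hq1, by omega⟩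
        _ ≤ ∑ q ∈ below W, (Nat.totient n).factorization q := by
            rw [Finset.sum_comm]
            refine Finset.sum_le_sum fun q _ => ?_
            have := hfac q
            rwa [Finsupp.finsetSum_apply] at this
  set y : ℝ := 3 / 2 with hy
  have hy1 : (1 : ℝ) ≤ y := by norm_num [hy]
  have hg : ∀ p ∈ below W, 0 ≤ y / (p : ℝ) ∧ y / (p : ℝ) ≤ 3 / 4 := fun p hp => by
    have hp2 : (2 : ℝ) ≤ p := by exact_mod_cast (mem_below.1 hp).1.two_le
    refine ⟨by positivity, ?_⟩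
    rw [div_le_iff₀ (by linarith), hy]; linarith
  have hE := euler_bound (fun p => y / (p : ℝ)) (below W) (fun p hp => (mem_below.1 hp).1)
    (fun p hp => ⟨(hg p hp).1, by linarith [(hg p hp).2]⟩) F fun v hv => ⟨(hF' v hv).1, (hF' v hv).2.1⟩
  have hmain : y ^ ((K + 1) * h) * invSum F ≤ Real.exp (6 * C0 * W) := by
    unfold invSum
    rw [Finset.mul_sum]
    refine le_trans (Finset.sum_le_sum fun v hv => ?_) (hE.trans ?_)
    · obtain ⟨hv0, hsub, hom⟩ := hF' v hv
      rw [weight_div_eq (fun _ => y) (below W) hv0 hsub, Finset.prod_pow_eq_pow_sum, div_eq_mul_inv]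
      refine mul_le_mul_of_nonneg_right (pow_le_pow_right₀ hy1 (hom.trans ?_))
        (inv_nonneg.2 (Nat.cast_nonneg _))
      refine le_of_eq (Finset.sum_subset hsub fun q _ hq => ?_).symm
      exact Finsupp.notMem_support_iff.1 (by rwa [Nat.support_factorization])
    · refine (prod_inv_one_sub_le_exp _ _ fun p hp => by linarith [(hg p hp).2]).trans
        (Real.exp_le_exp.2 ?_)
      calc ∑ p ∈ below W, y / (p : ℝ) / (1 - y / (p : ℝ)) ≤ ∑ p ∈ below W, 6 * (p : ℝ)⁻¹ := by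
            refine Finset.sum_le_sum fun p hp => ?_
            rw [div_le_iff₀ (by linarith [(hg p hp).2]), div_eq_mul_inv, hy]
            have h1 := (hg p hp).2
            rw [div_eq_mul_inv, hy] at h1
            nlinarith [inv_nonneg.2 (Nat.cast_nonneg p : (0 : ℝ) ≤ p)]
        _ ≤ 6 * C0 * W := by
            rw [← Finset.mul_sum, sum_below, mul_assoc]
            refine mul_le_mul_of_nonneg_left ?_ (by norm_num)
            refine (Finset.sum_le_card_nsmul _ _ _ fun t _ => hS.cell_le t).trans (le_of_eq ?_)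
            rw [Finset.card_range, nsmul_eq_mul, mul_comm]
  have hlow : Real.exp (((K : ℝ) + 1) * h / 3) ≤ y ^ ((K + 1) * h) := by
    rw [← Real.exp_log (show (0 : ℝ) < y by linarith), ← Real.exp_nat_mul]
    refine Real.exp_le_exp.2 ?_
    have h1 := Real.one_sub_inv_le_log_of_pos (show (0 : ℝ) < y by linarith)
    have h2 : (1 : ℝ) - y⁻¹ = 1 / 3 := by norm_num [hy]
    push_cast
    nlinarith [mul_le_mul_of_nonneg_left (h2 ▸ h1) (show (0 : ℝ) ≤ ((K : ℝ) + 1) * h by positivity)]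
  have h3 := (mul_le_mul_of_nonneg_right hlow (invSum_nonneg F)).trans hmain
  rw [← le_div_iff₀' (Real.exp_pos _), ← Real.exp_sub] at h3
  refine h3.trans (Real.exp_le_exp.2 ?_)
  have hK1 : 72 * C0 + 6 ≤ (K : ℝ) := by
    rw [hK]; push_cast; linarith [Nat.le_ceil (72 * C0)]
  have hWh : (W : ℝ) = 4 * h := by rw [hW, hh]; push_cast; ring
  have hh0 : (0 : ℝ) ≤ (h : ℝ) := Nat.cast_nonneg _
  have hjh : (2 : ℝ) ^ (i + 1) = 2 * (h : ℝ) := by rw [hh]; push_cast; ring
  rw [hWh, hjh]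
  nlinarith

/-- Numbers with a crowded range at least `jm`. -/
theorem crowded_bound {C0 : ℝ} {j1 : ℕ} (hS : Setup C0 j1) :
    ∃ K : ℕ, ∃ C : ℝ, 0 ≤ C ∧
      (∀ T : ℕ, ∀ N : Finset ℕ, (∀ n ∈ N, n ≠ 0 ∧ CellsLe n T ∧ Thin j1 K n) →
        invSum (N.image Nat.totient) ≤ Real.exp (C * Real.log ((T : ℝ) + 3) ^ 2)) ∧
      ∀ T jm : ℕ, j1 ≤ jm → ∀ N : Finset ℕ,
        (∀ n ∈ N, n ≠ 0 ∧ CellsLe n T ∧ ∃ j, jm ≤ j ∧ K < (grp j1 n j).card) →
        invSum (N.image Nat.totient) ≤ ((Nat.log 2 T : ℝ) + 1) *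
          (Real.exp (C * Real.log ((T : ℝ) + 3) ^ 2) * Real.exp (-(2 : ℝ) ^ jm)) := by
  obtain ⟨K, hlow⟩ := low_bound hS
  obtain ⟨C, hC, hthin⟩ := thin_bound hS K
  refine ⟨K, C, hC, hthin, fun T jm hjm N hN => ?_⟩
  set J := Nat.log 2 T with hJ
  set Nj : ℕ → Finset ℕ := fun j =>
    N.filter fun n => K < (grp j1 n j).card ∧ ∀ i, j < i → (grp j1 n i).card ≤ K with hNj
  have hcover : N.image Nat.totient ⊆
      (Finset.Icc jm J).biUnion fun j => (Nj j).image Nat.totient := by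
    intro v hv
    obtain ⟨n, hn, rfl⟩ := Finset.mem_image.1 hv
    obtain ⟨-, hcl, j0, hj0, hK0⟩ := hN n hn
    have hJle : ∀ i, K < (grp j1 n i).card → i ≤ J := fun i hi => by
      obtain ⟨p, hp⟩ := Finset.card_pos.1 (Nat.zero_lt_of_lt hi)
      obtain ⟨hp1, -, hp2⟩ := Finset.mem_filter.1 hp
      exact hp2 ▸ rng_le (hcl p hp1)
    set j := Nat.findGreatest (fun i => K < (grp j1 n i).card) J with hj
    have hspec : K < (grp j1 n j).card :=
      Nat.findGreatest_spec (P := fun i => K < (grp j1 n i).card) (hJle j0 hK0) hK0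
    have hge : j0 ≤ j := Nat.le_findGreatest (hJle j0 hK0) hK0
    refine Finset.mem_biUnion.2 ⟨j, Finset.mem_Icc.2 ⟨hj0.trans hge, hJle j hspec⟩,
      Finset.mem_image.2 ⟨n, Finset.mem_filter.2 ⟨hn, hspec, fun i hi => ?_⟩, rfl⟩⟩
    by_contra hne
    push Not at hne
    exact absurd (Nat.le_findGreatest (hJle i hne) hne) (not_le.2 hi)
  refine (invSum_mono hcover).trans ((invSum_biUnion_le _ _).trans ?_)
  have hterm : ∀ j ∈ Finset.Icc jm J, invSum ((Nj j).image Nat.totient) ≤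
      Real.exp (C * Real.log ((T : ℝ) + 3) ^ 2) * Real.exp (-(2 : ℝ) ^ jm) := by
    intro j hj
    have hjge := (Finset.mem_Icc.1 hj).1
    set W := 2 ^ (j + 1) with hW
    set hiF := ((Nj j).image fun n => part n fun p => ¬ cell p < W).image Nat.totient
    set loF := ((Nj j).image fun n => part n fun p => cell p < W).image Nat.totient
    refine (invSum_le_mul (A := hiF) (B := loF) fun v hv => ?_).trans ?_
    · obtain ⟨n, hn, rfl⟩ := Finset.mem_image.1 hv
      exact ⟨_, Finset.mem_image.2 ⟨_, Finset.mem_image.2 ⟨n, hn, rfl⟩, rfl⟩,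
        _, Finset.mem_image.2 ⟨_, Finset.mem_image.2 ⟨n, hn, rfl⟩, rfl⟩,
        by rw [mul_comm]; exact totient_part_mul _ (hN n (Finset.mem_filter.1 hn).1).1⟩
    refine mul_le_mul (hthin T _ fun m hm => ?_) ((hlow j (hjm.trans hjge) _ fun m hm => ?_).trans ?_)
      (invSum_nonneg _) (Real.exp_pos _).le
    · obtain ⟨n, hn, rfl⟩ := Finset.mem_image.1 hm
      obtain ⟨hnN, -, hmax⟩ := Finset.mem_filter.1 hn
      refine ⟨part_ne_zero _ _, cellsLe_part _ (hN n hnN).2.1, fun i => ?_⟩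
      rcases le_or_gt i j with hij | hij
      · refine le_of_eq_of_le (Finset.card_eq_zero.2 ?_) (Nat.zero_le K)
        refine Finset.eq_empty_iff_forall_notMem.2 fun p hp => ?_
        obtain ⟨hp1, -, hp2⟩ := Finset.mem_filter.1 hp
        rw [primeFactors_part] at hp1
        have h1 := cell_lt (p := p)
        rw [hp2] at h1
        exact (Finset.mem_filter.1 hp1).2
          (h1.trans_le (Nat.pow_le_pow_right (by norm_num) (by omega)))
      · refine le_trans (Finset.card_le_card fun p hp => ?_) (hmax i hij)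
        obtain ⟨hp1, ⟨h1, h2, h3⟩, hp2⟩ := Finset.mem_filter.1 hp
        rw [primeFactors_part] at hp1
        obtain ⟨hp1, hpP⟩ := Finset.mem_filter.1 hp1
        rw [factorization_part, Finsupp.filter_apply, if_pos hpP] at h3
        exact Finset.mem_filter.2 ⟨hp1, ⟨h1, h2, h3⟩, hp2⟩
    · obtain ⟨n, hn, rfl⟩ := Finset.mem_image.1 hm
      obtain ⟨hnN, hbig, -⟩ := Finset.mem_filter.1 hn
      refine ⟨part_ne_zero _ _, fun p hp => ?_, hbig.trans_le (Finset.card_le_card fun p hp => ?_)⟩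
      · rw [primeFactors_part] at hp
        have := (Finset.mem_filter.1 hp).2
        omega
      · obtain ⟨hp1, ⟨h1, h2, h3⟩, hp2⟩ := Finset.mem_filter.1 hp
        have hlt : cell p < W := by
          have h4 := cell_lt (p := p)
          rwa [hp2] at h4
        refine Finset.mem_filter.2 ⟨?_, ⟨h1, h2, ?_⟩, hp2⟩
        · rw [primeFactors_part]; exact Finset.mem_filter.2 ⟨hp1, hlt⟩
        · rw [factorization_part, Finsupp.filter_apply, if_pos hlt]; exact h3
    · exact Real.exp_le_exp.2 (neg_le_neg (pow_le_pow_right₀ (by norm_num) hjge))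
  refine (Finset.sum_le_card_nsmul _ _ _ hterm).trans ?_
  rw [nsmul_eq_mul]
  refine mul_le_mul_of_nonneg_right ?_ (by positivity)
  have : (Finset.Icc jm J).card ≤ J + 1 := by rw [Nat.card_Icc]; omega
  exact_mod_cast this

theorem total_of_setup {C0 : ℝ} {j1 : ℕ} (hS : Setup C0 j1) : TotalStatement := by
  obtain ⟨K, C, hC, hthin, hcrowd⟩ := crowded_bound hS
  refine ⟨C + 4, by linarith, fun T F hF => ?_⟩
  obtain ⟨N, hN, hFN⟩ := exists_finset hF
  set N1 := N.filter fun n => Thin j1 K n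
  set N2 := N.filter fun n => ¬ Thin j1 K n
  have hsub : F ⊆ N1.image Nat.totient ∪ N2.image Nat.totient := fun v hv => by
    obtain ⟨n, hn, rfl⟩ := Finset.mem_image.1 (hFN hv)
    rw [Finset.mem_union]
    by_cases h : Thin j1 K n
    · exact Or.inl (Finset.mem_image_of_mem _ (Finset.mem_filter.2 ⟨hn, h⟩))
    · exact Or.inr (Finset.mem_image_of_mem _ (Finset.mem_filter.2 ⟨hn, h⟩))
  refine (invSum_mono hsub).trans ((invSum_union_le _ _).trans ?_)
  have h1 := hthin T N1 fun n hn => by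
    obtain ⟨hnN, h⟩ := Finset.mem_filter.1 hn
    exact ⟨(hN n hnN).1.ne', (hN n hnN).2, h⟩
  have h2 := hcrowd T j1 le_rfl N2 fun n hn => by
    obtain ⟨hnN, h⟩ := Finset.mem_filter.1 hn
    refine ⟨(hN n hnN).1.ne', (hN n hnN).2, ?_⟩
    simp only [Thin, not_forall, not_le] at h
    obtain ⟨j, hj⟩ := h
    obtain ⟨p, hp⟩ := Finset.card_pos.1 (Nat.zero_lt_of_lt hj)
    obtain ⟨-, ⟨h4, -⟩, h5⟩ := Finset.mem_filter.1 hp
    exact ⟨j, h5 ▸ h4, hj⟩
  set L := Real.log ((T : ℝ) + 3)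
  set E := Real.exp (C * L ^ 2)
  have hE : 0 < E := Real.exp_pos _
  have hexp : Real.exp (-(2 : ℝ) ^ j1) ≤ 1 := Real.exp_le_one_iff.2 (by
    have : (0 : ℝ) < 2 ^ j1 := by positivity
    linarith)
  have hJ : (Nat.log 2 T : ℝ) + 1 ≤ 3 * L := log_two_le
  have hL := one_le_L T
  have hsum : invSum (N1.image Nat.totient) + invSum (N2.image Nat.totient) ≤ E * (3 * L + 1) := by
    have h3 : E * Real.exp (-(2 : ℝ) ^ j1) ≤ E := mul_le_of_le_one_right hE.le hexp
    nlinarith [h2.trans (mul_le_mul hJ h3 (by positivity) (by positivity))]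
  refine hsum.trans ?_
  calc E * (3 * L + 1) ≤ E * Real.exp (3 * L) :=
        mul_le_mul_of_nonneg_left (Real.add_one_le_exp _) hE.le
    _ ≤ Real.exp ((C + 4) * L ^ 2) := by
        rw [← Real.exp_add]; exact Real.exp_le_exp.2 (by nlinarith)

end P031.TotalAux

namespace P031.TotalAux

attribute [local instance] Classical.propDecidable

/-- Prime powers that are repeated or abnormal, of scale in `[S, T]`, are rare. -/
theorem bad_powers {C0 : ℝ} {j1 : ℕ} (hS : Setup C0 j1) {S T : ℕ} (hjS : 2 ^ j1 ≤ S)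
    (M : Finset (ℕ × ℕ))
    (hM : ∀ x ∈ M, x.1.Prime ∧ S ≤ cell x.1 ∧ cell x.1 ≤ T ∧ 1 ≤ x.2 ∧ (Normal x.1 → x.2 ≠ 1)) :
    ∑ x ∈ M, ((tw x.1 x.2 : ℝ))⁻¹ ≤
      ((T : ℝ) + 1) * ((4 * C0 + 4) * Real.exp (-(S : ℝ) ^ ((1 : ℝ) / 3))) := by
  have hC0 := hS.pos
  set P := (Finset.Icc S T).biUnion cellPrimes with hP
  set E := M.sup fun x => x.2
  set f : ℕ × ℕ → ℝ := fun x =>
    (if Normal x.1 ∧ x.2 = 1 then (0 : ℝ) else 1) * ((tw x.1 x.2 : ℝ))⁻¹ with hf
  have hsub : M ⊆ P ×ˢ Finset.Icc 1 E := fun x hx => by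
    obtain ⟨h1, h2, h3, h4, -⟩ := hM x hx
    refine Finset.mem_product.2 ⟨Finset.mem_biUnion.2 ⟨cell x.1, Finset.mem_Icc.2 ⟨h2, h3⟩,
      mem_cellPrimes.2 ⟨h1, rfl⟩⟩, Finset.mem_Icc.2 ⟨h4, Finset.le_sup (f := fun y => y.2) hx⟩⟩
  calc ∑ x ∈ M, ((tw x.1 x.2 : ℝ))⁻¹ = ∑ x ∈ M, f x := Finset.sum_congr rfl fun x hx => by
        simp only [hf]
        rw [if_neg fun h => (hM x hx).2.2.2.2 h.1 h.2, one_mul]
    _ ≤ ∑ x ∈ P ×ˢ Finset.Icc 1 E, f x := Finset.sum_le_sum_of_subset_of_nonneg hsub fun x _ _ => by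
        simp only [hf]; split_ifs <;> positivity
    _ ≤ ∑ p ∈ P, (if Normal p then 2 * 0 / (p : ℝ) + 4 / (p : ℝ) ^ 2 else 4 / (p : ℝ)) := by
        rw [Finset.sum_product]
        refine Finset.sum_le_sum fun p hp => ?_
        obtain ⟨t, -, ht⟩ := Finset.mem_biUnion.1 hp
        exact prime_weight_le (mem_cellPrimes.1 ht).1.two_le le_rfl E
    _ ≤ ∑ t ∈ Finset.Icc S T, (4 * C0 + 4) * Real.exp (-(S : ℝ) ^ ((1 : ℝ) / 3)) := by
        rw [hP, Finset.sum_biUnion fun _ _ _ _ h => cellPrimes_disjoint h]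
        refine Finset.sum_le_sum fun t ht => ?_
        have hSt := (Finset.mem_Icc.1 ht).1
        have ht1 : (1 : ℝ) ≤ t := by
          exact_mod_cast (le_trans Nat.one_le_two_pow (hjS.trans hSt))
        refine (cell_weight_le hS (hjS.trans hSt) le_rfl).trans ?_
        have h1 : Real.exp (-(t : ℝ) ^ ((1 : ℝ) / 3)) ≤ Real.exp (-(S : ℝ) ^ ((1 : ℝ) / 3)) :=
          Real.exp_le_exp.2 (neg_le_neg
            (Real.rpow_le_rpow (Nat.cast_nonneg _) (by exact_mod_cast hSt) (by norm_num)))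
        have h2 : Real.exp (-(t : ℝ)) ≤ Real.exp (-(t : ℝ) ^ ((1 : ℝ) / 3)) :=
          Real.exp_le_exp.2 (neg_le_neg ((Real.rpow_le_rpow_of_exponent_le ht1
            (by norm_num : (1 : ℝ) / 3 ≤ 1)).trans (Real.rpow_one _).le))
        nlinarith
    _ ≤ _ := by
        rw [Finset.sum_const, nsmul_eq_mul]
        refine mul_le_mul_of_nonneg_right ?_ (by positivity)
        have : (Finset.Icc S T).card ≤ T + 1 := by rw [Nat.card_Icc]; omega
        exact_mod_cast this

/-- Smooth parts above the permitted size are rare. -/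
theorem smooth_tail {C0 : ℝ} {j1 : ℕ} (hS : Setup C0 j1) {S : ℕ} (hS1 : 1 ≤ S) (N : Finset ℕ)
    (hN : ∀ m ∈ N, m ≠ 0 ∧ m.primeFactors ⊆ below S ∧
      Real.exp (2 * (S : ℝ)) < Real.log m) :
    invSum (N.image Nat.totient) ≤ Real.exp (6 * C0 * S - Real.exp (S : ℝ) / 10) := by
  have hC0 := hS.pos
  set δ : ℝ := Real.exp (-(S : ℝ)) / 10 with hδ
  set w : ℕ → ℕ → ℝ := fun p e => Real.exp ((e : ℝ) * (δ * Real.log p)) * ((tw p e : ℝ))⁻¹ with hw
  have hq : ∀ p ∈ below S, Real.exp (δ * Real.log p) ≤ 9 / 8 := fun p hp => by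
    obtain ⟨hpp, hc⟩ := mem_below.1 hp
    have h1 := log_lt_of_cell_le hpp.two_le (show cell p ≤ S - 1 by omega)
    rw [Nat.cast_sub hS1, Nat.cast_one, sub_add_cancel] at h1
    have h2 : δ * Real.log p ≤ 1 / 10 := by
      have := mul_le_mul_of_nonneg_left h1.le (show 0 ≤ δ by positivity)
      rw [hδ, div_mul_eq_mul_div _ (10 : ℝ) (Real.exp _), ← Real.exp_add, neg_add_cancel,
        Real.exp_zero] at this
      exact this
    have h3 := Real.add_one_le_exp (-(1 / 10) : ℝ)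
    rw [Real.exp_neg] at h3
    have h4 : Real.exp (1 / 10 : ℝ) ≤ 9 / 8 := by
      have hpos := Real.exp_pos (1 / 10 : ℝ)
      rw [le_inv_comm₀ (by norm_num) hpos] at h3
      exact h3.trans (by norm_num)
    exact (Real.exp_le_exp.2 h2).trans h4
  have hE := euler_gen (below S) w (fun p => 6 * (p : ℝ)⁻¹)
    (fun p _ e => by positivity) (fun p hp E => by
      have hp2 := (mem_below.1 hp).1.two_le
      have hp' : (2 : ℝ) ≤ p := by exact_mod_cast hp2
      set r : ℝ := Real.exp (δ * Real.log p) * (p : ℝ)⁻¹ with hr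
      have hr0 : 0 ≤ r := by positivity
      have hr1 : r ≤ 9 / 8 * (p : ℝ)⁻¹ := mul_le_mul_of_nonneg_right (hq p hp) (by positivity)
      have hinv : (p : ℝ)⁻¹ ≤ 1 / 2 := by
        rw [← one_div]; exact one_div_le_one_div_of_le (by norm_num) hp'
      calc ∑ e ∈ Finset.Icc 1 E, w p e ≤ ∑ e ∈ Finset.Icc 1 E, 2 * r ^ e := by
            refine Finset.sum_le_sum fun e he => ?_
            have h1 := inv_tw_le hp2 (Finset.mem_Icc.1 he).1
            simp only [hw]
            rw [Real.exp_nat_mul, hr, mul_pow, mul_left_comm 2]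
            exact mul_le_mul_of_nonneg_left h1 (by positivity)
        _ ≤ 2 * (r / (1 - r)) := by
            rw [← Finset.mul_sum]
            exact mul_le_mul_of_nonneg_left (sum_pow_le hr0 (by linarith) E) (by norm_num)
        _ ≤ _ := by
            rw [mul_div_assoc', div_le_iff₀ (by linarith)]
            nlinarith [inv_nonneg.2 (Nat.cast_nonneg p : (0 : ℝ) ≤ p)])
    N fun m hm => ⟨(hN m hm).1, (hN m hm).2.1⟩
  have hstep : ∀ m ∈ N, ((Nat.totient m : ℝ))⁻¹ ≤
      Real.exp (-(Real.exp (S : ℝ) / 10)) * ∏ p ∈ m.primeFactors, w p (m.factorization p) := by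
    intro m hm
    obtain ⟨h0, -, hbig⟩ := hN m hm
    simp only [hw, Finset.prod_mul_distrib, ← inv_totient_eq h0, ← Real.exp_sum]
    rw [← mul_assoc, ← Real.exp_add]
    refine le_mul_of_one_le_left (inv_nonneg.2 (Nat.cast_nonneg _)) (Real.one_le_exp ?_)
    have hlog : ∑ p ∈ m.primeFactors, (m.factorization p : ℝ) * (δ * Real.log p) =
        δ * Real.log m := by
      rw [Real.log_nat_eq_sum_factorization, Finsupp.sum, Nat.support_factorization, Finset.mul_sum]
      exact Finset.sum_congr rfl fun p _ => by ring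
    have h1 : Real.exp (S : ℝ) / 10 = δ * Real.exp (2 * (S : ℝ)) := by
      rw [hδ, div_mul_eq_mul_div _ (10 : ℝ) (Real.exp _), ← Real.exp_add]; ring_nf
    rw [hlog]
    linarith [mul_le_mul_of_nonneg_left hbig.le (show 0 ≤ δ by positivity)]
  refine (invSum_image_le _ _).trans ((Finset.sum_le_sum hstep).trans ?_)
  rw [← Finset.mul_sum, sub_eq_neg_add, Real.exp_add]
  refine mul_le_mul_of_nonneg_left (hE.trans (Real.exp_le_exp.2 ?_)) (Real.exp_pos _).le
  rw [← Finset.mul_sum, sum_below, mul_assoc]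
  refine mul_le_mul_of_nonneg_left ?_ (by norm_num)
  refine (Finset.sum_le_card_nsmul _ _ _ fun t _ => hS.cell_le t).trans (le_of_eq ?_)
  rw [Finset.card_range, nsmul_eq_mul, mul_comm]

/-- The total bound two scales up, in terms of `log (T + 3)`. -/
theorem exp_shift_le {c C : ℝ} (h0 : 0 ≤ c) (hc : c ≤ C) (T : ℕ) :
    Real.exp (c * Real.log (((T + 2 : ℕ) : ℝ) + 3) ^ 2) ≤
      Real.exp (4 * C * Real.log ((T : ℝ) + 3) ^ 2) := by
  have hT : (0 : ℝ) ≤ T := Nat.cast_nonneg T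
  have h1 : Real.log (((T + 2 : ℕ) : ℝ) + 3) ≤ 2 * Real.log ((T : ℝ) + 3) := by
    rw [show 2 * Real.log ((T : ℝ) + 3) = Real.log (((T : ℝ) + 3) ^ 2) by
      rw [Real.log_pow]; push_cast; rfl]
    push_cast
    exact Real.log_le_log (by linarith) (by nlinarith)
  have h2 := one_le_L (T + 2)
  refine Real.exp_le_exp.2 ?_
  nlinarith [mul_le_mul hc (mul_le_mul h1 h1 (by linarith) (by linarith [one_le_L T]))
    (by nlinarith) (by linarith)]

/-- Repeated or abnormal large primes. -/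
theorem exc_powers {C0 : ℝ} {j1 : ℕ} (hS : Setup C0 j1) {S T : ℕ} (hjS : 2 ^ j1 ≤ S) {E : ℝ}
    (hE : ∀ N' : Finset ℕ, (∀ m ∈ N', 0 < m ∧ CellsLe m T) →
      invSum (N'.image Nat.totient) ≤ E)
    (N : Finset ℕ) (hN : ∀ n ∈ N, 0 < n ∧ CellsLe n T ∧
      ∃ p ∈ high n S, p ^ 2 ∣ n ∨ ¬ Normal p) :
    invSum (N.image Nat.totient) ≤
      E * (((T : ℝ) + 1) * ((4 * C0 + 4) * Real.exp (-(S : ℝ) ^ ((1 : ℝ) / 3)))) := by
  choose! pf hpf using fun n hn => (hN n hn).2.2
  set M := N.image fun n => (pf n, n.factorization (pf n))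
  set R := N.image fun n => part n fun p => ¬ p = pf n
  refine (invSum_le_mul (A := R.image Nat.totient) (B := M.image fun x => tw x.1 x.2)
    fun v hv => ?_).trans ?_
  · obtain ⟨n, hn, rfl⟩ := Finset.mem_image.1 hv
    refine ⟨_, Finset.mem_image_of_mem _ (Finset.mem_image_of_mem _ hn), _,
      Finset.mem_image_of_mem _ (Finset.mem_image_of_mem _ hn), ?_⟩
    rw [← totient_part_mul (fun p => p = pf n) (hN n hn).1.ne', totient_part n fun p => p = pf n,
      Finset.filter_eq', if_pos (Finset.mem_filter.1 (hpf n hn).1).1, Finset.prod_singleton,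
      mul_comm]
  refine mul_le_mul (hE R fun m hm => ?_) ?_ (invSum_nonneg _)
    ((invSum_nonneg _).trans (hE ∅ (by simp)))
  · obtain ⟨n, hn, rfl⟩ := Finset.mem_image.1 hm
    exact ⟨Nat.pos_of_ne_zero (part_ne_zero _ _), cellsLe_part _ (hN n hn).2.1⟩
  refine (Finset.sum_image_le_of_nonneg fun _ _ => inv_nonneg.2 (Nat.cast_nonneg _)).trans
    (bad_powers hS hjS M fun x hx => ?_)
  obtain ⟨n, hn, rfl⟩ := Finset.mem_image.1 hx
  obtain ⟨hp, hbad⟩ := hpf n hn
  obtain ⟨hp1, hp2⟩ := Finset.mem_filter.1 hp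
  refine ⟨Nat.prime_of_mem_primeFactors hp1, hp2, (hN n hn).2.1 _ hp1, one_le_factorization hp1,
    fun hnorm he => ?_⟩
  rcases hbad with h | h
  · have := ((Nat.prime_of_mem_primeFactors hp1).pow_dvd_iff_le_factorization (hN n hn).1.ne').1 h
    omega
  · exact h hnorm

/-- Too many large primes force a crowded range. -/
theorem exc_crowd {j1 K S T n : ℕ} (hjm : j1 ≤ Nat.log 2 S) (hn : n ≠ 0) (hcl : CellsLe n T)
    (hnot : ¬ ∃ p ∈ high n S, p ^ 2 ∣ n ∨ ¬ Normal p)
    (hcard : (Nat.log 2 T + 1) * K < (high n S).card) :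
    ∃ j, Nat.log 2 S ≤ j ∧ K < (grp j1 n j).card := by
  by_contra hne
  push Not at hne
  set J := Nat.log 2 T
  have hsub : high n S ⊆ (Finset.Icc (Nat.log 2 S) J).biUnion fun j => grp j1 n j := by
    intro p hp
    obtain ⟨hp1, hp2⟩ := Finset.mem_filter.1 hp
    have hlogle : Nat.log 2 S ≤ rng p := Nat.log_mono_right hp2
    refine Finset.mem_biUnion.2 ⟨rng p, Finset.mem_Icc.2 ⟨hlogle, rng_le (hcl p hp1)⟩,
      Finset.mem_filter.2 ⟨hp1, ⟨hjm.trans hlogle, ?_, ?_⟩, rfl⟩⟩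
    · by_contra h
      exact hnot ⟨p, hp, Or.inr h⟩
    · have h1 := one_le_factorization hp1
      have h2 : ¬ 2 ≤ n.factorization p := fun h => hnot ⟨p, hp, Or.inl
        (((Nat.prime_of_mem_primeFactors hp1).pow_dvd_iff_le_factorization hn).2 h)⟩
      omega
  have h1 := (Finset.card_le_card hsub).trans (Finset.card_biUnion_le.trans
    (Finset.sum_le_card_nsmul _ _ K fun j hj => hne j (Finset.mem_Icc.1 hj).1))
  rw [smul_eq_mul, Nat.card_Icc] at h1
  exact absurd (h1.trans (Nat.mul_le_mul_right _ (by omega))) (not_le.2 hcard)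

/-- A smooth part above the permitted size. -/
theorem exc_smooth {C0 : ℝ} {j1 : ℕ} (hS : Setup C0 j1) {S T : ℕ} (hS1 : 1 ≤ S)
    (hbig : 20 * (6 * C0 + 1) ≤ (S : ℝ)) {E : ℝ}
    (hE : ∀ N' : Finset ℕ, (∀ m ∈ N', 0 < m ∧ CellsLe m T) →
      invSum (N'.image Nat.totient) ≤ E)
    (N : Finset ℕ) (hN : ∀ n ∈ N, 0 < n ∧ CellsLe n T ∧
      Real.exp (2 * (S : ℝ)) < Real.log (lowPart n S)) :
    invSum (N.image Nat.totient) ≤ E * Real.exp (-(S : ℝ)) := by
  set A := N.image fun n => part n fun p => ¬ cell p < S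
  set B := N.image fun n => lowPart n S
  refine (invSum_le_mul (A := A.image Nat.totient) (B := B.image Nat.totient)
    fun v hv => ?_).trans ?_
  · obtain ⟨n, hn, rfl⟩ := Finset.mem_image.1 hv
    refine ⟨_, Finset.mem_image_of_mem _ (Finset.mem_image_of_mem _ hn), _,
      Finset.mem_image_of_mem _ (Finset.mem_image_of_mem _ hn), ?_⟩
    rw [lowPart_eq_part, mul_comm]
    exact totient_part_mul _ (hN n hn).1.ne'
  refine mul_le_mul (hE A fun m hm => ?_) ((smooth_tail hS hS1 B fun m hm => ?_).trans ?_)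
    (invSum_nonneg _) ((invSum_nonneg _).trans (hE ∅ (by simp)))
  · obtain ⟨n, hn, rfl⟩ := Finset.mem_image.1 hm
    exact ⟨Nat.pos_of_ne_zero (part_ne_zero _ _), cellsLe_part _ (hN n hn).2.1⟩
  · obtain ⟨n, hn, rfl⟩ := Finset.mem_image.1 hm
    refine ⟨lowPart_ne_zero n S, fun p hp => ?_, (hN n hn).2.2⟩
    rw [primeFactors_lowPart (hN n hn).1.ne'] at hp
    exact mem_below.2 ⟨Nat.prime_of_mem_primeFactors (Finset.mem_filter.1 hp).1,
      (Finset.mem_filter.1 hp).2⟩
  · refine Real.exp_le_exp.2 ?_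
    have h2 := Real.quadratic_le_exp_of_nonneg (Nat.cast_nonneg S : (0 : ℝ) ≤ S)
    have hS0 : (1 : ℝ) ≤ S := by exact_mod_cast hS1
    nlinarith

/-- The final comparison of exponents. -/
theorem exc_asymp {C C0 : ℝ} (hC : 0 ≤ C) (hC0 : 0 ≤ C0) {T S : ℕ} (hT : 4 ≤ T)
    (hS : (T : ℝ) < ((S : ℝ) + 1) ^ 2) (hS3 : 3 ≤ S)
    (hbig : 4 * ((4 * C + 6) * 9216 + 4 * C0 + 12) ≤ (T : ℝ) ^ ((1 : ℝ) / 12)) :
    3 * (Real.exp (4 * C * Real.log ((T : ℝ) + 3) ^ 2) *
      Real.exp (6 * Real.log ((T : ℝ) + 3) + 4 * C0 + 4 - (S : ℝ) ^ ((1 : ℝ) / 3) / 2)) ≤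
      Real.exp (-(T : ℝ) ^ ((1 : ℝ) / 12)) := by
  set L := Real.log ((T : ℝ) + 3) with hL
  set u := (S : ℝ) ^ ((1 : ℝ) / 3) with hu
  set v := (T : ℝ) ^ ((1 : ℝ) / 12) with hv
  have hT4 : (4 : ℝ) ≤ T := by exact_mod_cast hT
  have hT0 : (0 : ℝ) ≤ T := by linarith
  have hv0 : 0 < v := by positivity
  have hv1 : 1 ≤ v := Real.one_le_rpow (by linarith) (by norm_num)
  have hL1 : 1 ≤ L := one_le_L T
  have hv2 : v * v / 2 ≤ u := by
    have h6 : v ^ (6 : ℕ) * v ^ (6 : ℕ) = T := by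
      rw [← pow_add, hv, ← Real.rpow_natCast, ← Real.rpow_mul hT0]; norm_num
    have h7 : v ^ (6 : ℕ) < (S : ℝ) + 1 := by nlinarith [pow_nonneg hv0.le 6]
    have hS3' : (3 : ℝ) ≤ S := by exact_mod_cast hS3
    calc v * v / 2 = (((v * v / 2) ^ (3 : ℕ))) ^ ((1 : ℝ) / 3) := by
          rw [← Real.rpow_natCast, ← Real.rpow_mul (by positivity)]; norm_num
      _ ≤ u := by
          refine Real.rpow_le_rpow (by positivity) ?_ (by norm_num)
          have h8 : (v * v / 2) ^ 3 = v ^ (6 : ℕ) / 8 := by ring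
          rw [h8]; linarith
  have hlog : L ^ 2 ≤ 9216 * v := by
    have h1 : L ≤ 2 * Real.log T := by
      rw [show 2 * Real.log (T : ℝ) = Real.log ((T : ℝ) ^ 2) by rw [Real.log_pow]; norm_num]
      exact Real.log_le_log (by linarith) (by nlinarith)
    have h2 := Real.log_le_rpow_div (x := (T : ℝ)) hT0 (by norm_num : (0 : ℝ) < 1 / 24)
    have h3 : ((T : ℝ) ^ ((1 : ℝ) / 24)) * ((T : ℝ) ^ ((1 : ℝ) / 24)) = v := by
      rw [hv, ← Real.rpow_add (by linarith)]; norm_num
    have h4 : L ≤ 48 * (T : ℝ) ^ ((1 : ℝ) / 24) := by linarith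
    calc L ^ 2 ≤ (48 * (T : ℝ) ^ ((1 : ℝ) / 24)) ^ 2 := pow_le_pow_left₀ (by linarith) h4 2
      _ = 2304 * v := by rw [← h3]; ring
      _ ≤ 9216 * v := by linarith
  have h3 : (3 : ℝ) ≤ Real.exp 3 := by linarith [Real.add_one_le_exp (3 : ℝ)]
  refine (mul_le_mul_of_nonneg_right h3 (by positivity)).trans ?_
  rw [← Real.exp_add, ← Real.exp_add]
  refine Real.exp_le_exp.2 ?_
  have h4C : (4 * C + 6) * L ^ 2 ≤ (4 * C + 6) * 9216 * v := by
    rw [mul_assoc]
    exact mul_le_mul_of_nonneg_left hlog (by linarith)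
  have hLsq : 6 * L ≤ 6 * L ^ 2 := by nlinarith
  have h5 := mul_le_mul_of_nonneg_right hbig hv0.le
  nlinarith [mul_le_mul_of_nonneg_left hv1 (show 0 ≤ 4 * C0 + 7 by linarith)]

theorem exceptional_of_setup {C0 : ℝ} {j1 : ℕ} (hS : Setup C0 j1) : ExceptionalStatement := by
  have hC0 := hS.pos
  obtain ⟨CT, hCT0, htot⟩ := total_of_setup hS
  obtain ⟨K, CK, hCK, -, hcrowd⟩ := crowded_bound hS
  set C : ℝ := CT + CK with hC
  have hev1 : ∀ᶠ T : ℕ in atTop,
      4 * ((4 * C + 6) * 9216 + 4 * C0 + 12) ≤ (T : ℝ) ^ ((1 : ℝ) / 12) :=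
    ((tendsto_rpow_atTop (by norm_num)).comp tendsto_natCast_atTop_atTop).eventually_ge_atTop _
  have hev2 : ∀ᶠ T : ℕ in atTop, (K : ℝ) + 1 ≤ Real.log ((T : ℝ) + 3) :=
    (Real.tendsto_log_atTop.comp (tendsto_atTop_add_const_right _ (3 : ℝ)
      tendsto_natCast_atTop_atTop)).eventually_ge_atTop _
  obtain ⟨T0, hT0⟩ := Filter.eventually_atTop.1 (hev1.and hev2)
  set S0 : ℕ := 2 ^ j1 + ⌈20 * (6 * C0 + 1)⌉₊ + 3 with hS0
  refine ⟨max T0 (S0 ^ 2 + 4), fun T hT F hF => ?_⟩
  obtain ⟨hbig, hLK⟩ := hT0 T ((le_max_left _ _).trans hT)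
  have hTS : S0 ^ 2 + 4 ≤ T := (le_max_right _ _).trans hT
  set S := cutoff T with hSdef
  have hSS0 : S0 ≤ S := Nat.le_sqrt'.2 (le_trans (Nat.le_add_right _ 4) hTS)
  have hpow1 : 1 ≤ 2 ^ j1 := Nat.one_le_two_pow
  have hjS : 2 ^ j1 ≤ S := le_trans (by omega) hSS0
  have hS3 : 3 ≤ S := le_trans (by omega) hSS0
  have hceil : 20 * (6 * C0 + 1) ≤ (S : ℝ) := by
    refine (Nat.le_ceil _).trans ?_
    exact_mod_cast (show ⌈20 * (6 * C0 + 1)⌉₊ ≤ S from le_trans (by omega) hSS0)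
  obtain ⟨N, hN, hFN⟩ := exists_finset hF
  set Ni := N.filter fun n => ∃ p ∈ high n S, p ^ 2 ∣ n ∨ ¬ Normal p
  set Nii := N.filter fun n => (¬ ∃ p ∈ high n S, p ^ 2 ∣ n ∨ ¬ Normal p) ∧
    Kmax T < (high n S).card
  set Niii := N.filter fun n => Real.exp (2 * (S : ℝ)) < Real.log (lowPart n S)
  have hsub : F ⊆ Ni.image Nat.totient ∪ Nii.image Nat.totient ∪ Niii.image Nat.totient :=
    fun v hv => by
    obtain ⟨n, hn, rfl⟩ := Finset.mem_image.1 (hFN hv)
    obtain ⟨-, -, he⟩ := hN n hn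
    simp only [Finset.mem_union]
    rcases he with h | h | h
    · exact Or.inl (Or.inl (Finset.mem_image_of_mem _ (Finset.mem_filter.2 ⟨hn, h⟩)))
    · by_cases h' : ∃ p ∈ high n S, p ^ 2 ∣ n ∨ ¬ Normal p
      · exact Or.inl (Or.inl (Finset.mem_image_of_mem _ (Finset.mem_filter.2 ⟨hn, h'⟩)))
      · exact Or.inl (Or.inr (Finset.mem_image_of_mem _ (Finset.mem_filter.2 ⟨hn, h', h⟩)))
    · exact Or.inr (Finset.mem_image_of_mem _ (Finset.mem_filter.2 ⟨hn, h⟩))
  have hasymp := exc_asymp (C := C) (C0 := C0) (S := S) (by linarith) (by linarith)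
    (le_trans (Nat.le_add_left 4 _) hTS) (by exact_mod_cast Nat.lt_succ_sqrt' T) hS3 hbig
  set L := Real.log ((T : ℝ) + 3) with hL
  set E := Real.exp (4 * C * L ^ 2) with hE
  set u := (S : ℝ) ^ ((1 : ℝ) / 3) with hu
  set X := Real.exp (6 * L + 4 * C0 + 4 - u / 2) with hX
  have hL1 : 1 ≤ L := one_le_L T
  have hu0 : 0 ≤ u := by positivity
  have hSR : (1 : ℝ) ≤ S := by exact_mod_cast le_trans (by norm_num : 1 ≤ 3) hS3
  have huS : u ≤ S := (Real.rpow_le_rpow_of_exponent_le hSR (by norm_num :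
    (1 : ℝ) / 3 ≤ 1)).trans (Real.rpow_one _).le
  have htotal : ∀ N' : Finset ℕ, (∀ m ∈ N', 0 < m ∧ CellsLe m (T + 2)) →
      invSum (N'.image Nat.totient) ≤ E := fun N' h =>
    (htot (T + 2) _ fun v hv => by
      obtain ⟨m, hm, rfl⟩ := Finset.mem_image.1 hv
      exact ⟨m, h m hm, rfl⟩).trans (exp_shift_le hCT0.le (by linarith) T)
  have hE0 : 0 < E := Real.exp_pos _
  have hX0 : ∀ z, z ≤ 6 * L + (4 * C0 + 4) → ∀ w, w ≤ -(u / 2) →
      Real.exp z * Real.exp w ≤ X := fun z hz w hw => by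
    rw [← Real.exp_add, hX]
    exact Real.exp_le_exp.2 (by linarith)
  have hi : invSum (Ni.image Nat.totient) ≤ E * X := by
    refine (exc_powers hS hjS htotal Ni fun n hn => ?_).trans ?_
    · obtain ⟨hnN, h⟩ := Finset.mem_filter.1 hn
      exact ⟨(hN n hnN).1, (hN n hnN).2.1, h⟩
    refine mul_le_mul_of_nonneg_left ?_ hE0.le
    have h1 : ((T + 2 : ℕ) : ℝ) + 1 ≤ Real.exp (6 * L) := by
      calc ((T + 2 : ℕ) : ℝ) + 1 = Real.exp L := by
            rw [hL, Real.exp_log (by positivity)]; push_cast; ring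
        _ ≤ _ := Real.exp_le_exp.2 (by linarith)
    refine le_trans ?_ (hX0 (6 * L + (4 * C0 + 4)) le_rfl (-u) (by linarith))
    rw [Real.exp_add, mul_assoc]
    exact mul_le_mul h1 (mul_le_mul_of_nonneg_right
      (by linarith [Real.add_one_le_exp (4 * C0 + 4)]) (Real.exp_pos _).le) (by positivity)
      (Real.exp_pos _).le
  have hii : invSum (Nii.image Nat.totient) ≤ E * X := by
    have hjm : j1 ≤ Nat.log 2 S := Nat.le_log_of_pow_le (by norm_num) hjS
    have hJ := log_two_le (T := T + 2)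
    have hshift : Real.log (((T + 2 : ℕ) : ℝ) + 3) ≤ 2 * L := by
      have hTnn : (0 : ℝ) ≤ T := Nat.cast_nonneg T
      rw [hL, show 2 * Real.log ((T : ℝ) + 3) = Real.log (((T : ℝ) + 3) ^ 2) by
        rw [Real.log_pow]; push_cast; rfl]
      push_cast
      exact Real.log_le_log (by linarith) (by nlinarith)
    refine (hcrowd (T + 2) (Nat.log 2 S) hjm Nii fun n hn => ?_).trans ?_
    · obtain ⟨hnN, hnot, hcard⟩ := Finset.mem_filter.1 hn
      refine ⟨(hN n hnN).1.ne', (hN n hnN).2.1,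
        exc_crowd hjm (hN n hnN).1.ne' (hN n hnN).2.1 hnot (lt_of_le_of_lt ?_ hcard)⟩
      have h3 : (1000 * L ^ 2 : ℝ) ≤ Kmax T := Nat.le_ceil _
      have h4 : ((Nat.log 2 (T + 2) : ℝ) + 1) * K ≤ 6 * L * L :=
        mul_le_mul (by linarith) (by linarith) (Nat.cast_nonneg _) (by linarith)
      have h5 : (((Nat.log 2 (T + 2) + 1) * K : ℕ) : ℝ) ≤ (Kmax T : ℝ) := by
        push_cast
        nlinarith
      exact_mod_cast h5
    have h6 : ((Nat.log 2 (T + 2) : ℝ) + 1) ≤ Real.exp (6 * L) := by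
      linarith [Real.add_one_le_exp (6 * L)]
    calc _ ≤ Real.exp (6 * L) * (E * Real.exp (-(2 : ℝ) ^ Nat.log 2 S)) :=
          mul_le_mul h6 (mul_le_mul_of_nonneg_right
            (exp_shift_le hCK (by linarith [hCT0]) T) (Real.exp_pos _).le)
            (by positivity) (Real.exp_pos _).le
      _ = E * (Real.exp (6 * L) * Real.exp (-(2 : ℝ) ^ Nat.log 2 S)) := by ring
      _ ≤ E * X := by
          refine mul_le_mul_of_nonneg_left (hX0 _ (by linarith) _ ?_) hE0.le
          have h1 : S < 2 ^ (Nat.log 2 S + 1) := Nat.lt_pow_succ_log_self (by norm_num) S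
          have h2 : (S : ℝ) ≤ 2 ^ Nat.log 2 S * 2 := by
            rw [← pow_succ]; exact_mod_cast h1.le
          linarith
  have hiii : invSum (Niii.image Nat.totient) ≤ E * X := by
    refine (exc_smooth hS (le_trans (by norm_num) hS3) hceil htotal Niii fun n hn => ?_).trans ?_
    · obtain ⟨hnN, h⟩ := Finset.mem_filter.1 hn
      exact ⟨(hN n hnN).1, (hN n hnN).2.1, h⟩
    refine mul_le_mul_of_nonneg_left ?_ hE0.le
    rw [hX]
    exact Real.exp_le_exp.2 (by linarith)
  refine (invSum_mono hsub).trans ((invSum_union_le _ _).trans ?_)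
  refine (add_le_add ((invSum_union_le _ _).trans (add_le_add hi hii)) hiii).trans ?_
  linarith

end P031.TotalAux

namespace P031

/-- The crude bound for the totients of given top scale. -/
theorem total (hC : CellStatement) (hA : AbnormalStatement) : TotalStatement := by
  obtain ⟨C0, j1, hS⟩ := TotalAux.exists_setup hC hA
  exact TotalAux.total_of_setup hS

/-- Exceptional cofactors are rare. -/
theorem exceptional (hC : CellStatement) (hA : AbnormalStatement) : ExceptionalStatement := by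
  obtain ⟨C0, j1, hS⟩ := TotalAux.exists_setup hC hA
  exact TotalAux.exceptional_of_setup hS

end P031
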