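import Vale.Agent.P031.Statements
import Vale.Agent.P031.Upper.Boxes
import Vale.Agent.P031.Upper.Prefix

/-!
The boundary values are bounded by a layer of the loose polytopes.
-/

open Finset MeasureTheory Filter

noncomputable section

namespace P031

namespace Upper

/-- The excess of the mass of a cell of shifted primes. -/
def delta (t : ℕ) : ℝ := 3 * Real.exp (-(t : ℝ) / 2)

lemma delta_nonneg (t : ℕ) : 0 ≤ delta t := by unfold delta; positivity

lemma summable_delta : Summable delta := by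
  refine Summable.mul_left 3 ?_
  have h := Real.summable_exp_nat_mul_iff.2 (show -(1 : ℝ) / 2 < 0 by norm_num)
  exact h.congr fun n => by congr 1; ring

lemma shifted_mass_le {t : ℕ} (ht : 1 ≤ t)
    (h : |∑ p ∈ cellPrimes t, (p : ℝ)⁻¹ - 1| ≤ Real.exp (-(t : ℝ) / 2)) :
    ∑ q ∈ cellPrimes t, ((q : ℝ) - 1)⁻¹ ≤ 1 + delta t := by
  have ht' : (1 : ℝ) ≤ t := by exact_mod_cast ht
  set e := Real.exp (-(t : ℝ) / 2) with he
  have he0 : 0 < e := Real.exp_pos _
  have he1 : e ≤ 1 := Real.exp_le_one_iff.2 (by linarith)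
  calc ∑ q ∈ cellPrimes t, ((q : ℝ) - 1)⁻¹ ≤ ∑ q ∈ cellPrimes t, (1 + e) * (q : ℝ)⁻¹ := by
        refine sum_le_sum fun q hq => ?_
        obtain ⟨hqp, hqt⟩ := mem_cellPrimes.1 hq
        have hq2 : (2 : ℝ) ≤ q := by exact_mod_cast hqp.two_le
        have h1 : Real.exp (Real.exp (t : ℝ)) ≤ q := le_of_le_cell hqp.two_le ht hqt.ge
        have h2 : Real.exp ((t : ℝ) + 1) ≤ q :=
          (Real.exp_le_exp.2 (Real.add_one_le_exp _)).trans h1
        have h3 : e * Real.exp ((t : ℝ) / 2) = 1 := by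
          rw [he, ← Real.exp_add]; ring_nf; exact Real.exp_zero
        have h4 : 2 * Real.exp ((t : ℝ) / 2) ≤ Real.exp ((t : ℝ) + 1) := by
          rw [Real.exp_add, mul_comm (Real.exp (t : ℝ))]
          have := Real.add_one_le_exp (1 : ℝ)
          have := Real.exp_le_exp.2 (show (t : ℝ) / 2 ≤ t by linarith)
          gcongr
          linarith
        have h5 : 2 ≤ e * q := by
          calc (2 : ℝ) = e * (2 * Real.exp ((t : ℝ) / 2)) := by rw [mul_left_comm, h3, mul_one]
            _ ≤ e * q := mul_le_mul_of_nonneg_left (h4.trans h2) he0.le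
        rw [← div_eq_mul_inv, le_div_iff₀ (by linarith), inv_mul_le_iff₀ (by linarith)]
        nlinarith
    _ = (1 + e) * ∑ q ∈ cellPrimes t, (q : ℝ)⁻¹ := (mul_sum _ _ _).symm
    _ ≤ (1 + e) * (1 + e) := by
        refine mul_le_mul_of_nonneg_left ?_ (by linarith)
        linarith [(abs_le.1 h).2]
    _ ≤ 1 + delta t := by
        rw [delta, ← he]
        nlinarith

lemma prod_delta_le {P : Finset ℕ} (h : ∀ t, (P.filter fun x => cell x = t).card ≤ 3) :
    ∏ p ∈ P, (1 + delta (cell p)) ≤ Real.exp (3 * ∑' t, delta t) := by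
  refine (prod_le_prod (g := fun p => Real.exp (delta (cell p)))
    (fun p _ => by linarith [delta_nonneg (cell p)]) fun p _ => by
    linarith [Real.add_one_le_exp (delta (cell p))]).trans ?_
  rw [← Real.exp_sum]
  refine Real.exp_le_exp.2 ?_
  rw [← sum_fiberwise_of_maps_to (fun p hp => mem_image_of_mem cell hp)]
  calc ∑ t ∈ P.image cell, ∑ p ∈ P.filter (fun p => cell p = t), delta (cell p)
      ≤ ∑ t ∈ P.image cell, 3 * delta t := sum_le_sum fun t _ => by
        rw [sum_congr rfl fun p hp => by rw [(mem_filter.1 hp).2], sum_const, nsmul_eq_mul]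
        exact mul_le_mul_of_nonneg_right (by exact_mod_cast h t) (delta_nonneg t)
    _ ≤ _ := by
        rw [← mul_sum]
        exact mul_le_mul_of_nonneg_left
          (summable_delta.sum_le_tsum _ fun t _ => delta_nonneg t) (by norm_num)

lemma summable_bad_weight : Summable fun s : ℕ => Real.exp (-(s : ℝ) ^ ((1 : ℝ) / 16)) := by
  refine Summable.of_norm_bounded_eventually_nat
    (g := fun n : ℕ => 1 / (n : ℝ) ^ 2) (Real.summable_one_div_nat_pow.2 one_lt_two) ?_
  filter_upwards [eventually_ge_atTop 1,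
    ((tendsto_rpow_atTop (show (0 : ℝ) < 1 / 32 by norm_num)).comp
      tendsto_natCast_atTop_atTop).eventually_ge_atTop 64] with s hs h64
  have hs' : (1 : ℝ) ≤ s := by exact_mod_cast hs
  simp only [Function.comp_apply] at h64
  have h1 : Real.log s ≤ (s : ℝ) ^ ((1 : ℝ) / 32) / (1 / 32) :=
    Real.log_le_rpow_div (by linarith) (by norm_num)
  have h2 : (s : ℝ) ^ ((1 : ℝ) / 16) = (s : ℝ) ^ ((1 : ℝ) / 32) * (s : ℝ) ^ ((1 : ℝ) / 32) := by
    rw [← Real.rpow_add (by linarith)]; norm_num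
  rw [Real.norm_of_nonneg (Real.exp_pos _).le, ← Real.le_log_iff_exp_le (by positivity),
    Real.log_div one_ne_zero (by positivity), Real.log_one, Real.log_pow, h2]
  push_cast
  nlinarith

lemma invSum_biUnion_le {ι : Type*} (I : Finset ι) (A : ι → Finset ℕ) :
    invSum (I.biUnion A) ≤ ∑ i ∈ I, invSum (A i) := by
  classical
  induction I using Finset.induction with
  | empty => simp [invSum]
  | insert a I ha ih =>
    rw [biUnion_insert, sum_insert ha]
    exact (invSum_union_le _ _).trans (add_le_add le_rfl ih)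

/-- The totients with an argument having a bad scale in a range. -/
lemma invSum_bad_range_le {sB : ℕ}
    (hB : ∀ s : ℕ, sB ≤ s → ∀ F : Finset ℕ, ValuesOf (fun n => 0 < n ∧ Bad s n) F →
      invSum F ≤ Real.exp (-(s : ℝ) ^ ((1 : ℝ) / 16)))
    (I : Finset ℕ) (hI : ∀ s ∈ I, sB ≤ s) (M : Finset ℕ)
    (hM : ∀ v ∈ M, ∃ s ∈ I, ∃ m, (0 < m ∧ Bad s m) ∧ Nat.totient m = v) :
    invSum M ≤ ∑ s ∈ I, Real.exp (-(s : ℝ) ^ ((1 : ℝ) / 16)) := by
  classical
  set A := fun s => M.filter fun v => ∃ m, (0 < m ∧ Bad s m) ∧ Nat.totient m = v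
  refine (invSum_mono (G := I.biUnion A) fun v hv => ?_).trans ((invSum_biUnion_le I A).trans
    (sum_le_sum fun s hs => hB s (hI s hs) _ fun v hv => (mem_filter.1 hv).2))
  obtain ⟨s, hs, h⟩ := hM v hv
  exact mem_biUnion.2 ⟨s, hs, mem_filter.2 ⟨hv, h⟩⟩

/-- The cut of a number: above it nothing is bad, just below it sits a bad scale or the floor. -/
lemma exists_cut {n c0 : ℕ} (hn : n ≠ 0) (hL : ∀ s, c0 ≤ s → Large s) :
    ∃ c, c0 ≤ c ∧ Clean n c ∧ ((c = c0 ∧ CellsLe (lowPart n c) c0) ∨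
      ∃ s, c = s + 1 ∧ c0 ≤ s ∧ Bad s (lowPart n c)) := by
  classical
  set B := (n.primeFactors.image cell).filter fun s => c0 ≤ s ∧ Bad s (lowPart n (s + 1))
  rcases B.eq_empty_or_nonempty with hB | hB
  · refine ⟨c0, le_rfl, ⟨hn, hL, fun p hp hbad => ?_⟩, Or.inl ⟨rfl, fun q hq => ?_⟩⟩
    · have h : cell p ∈ B := mem_filter.2
        ⟨mem_image_of_mem _ (mem_filter.1 hp).1, (mem_filter.1 hp).2, hbad⟩
      simp [hB] at h
    · rw [primeFactors_lowPart hn] at hq
      exact (mem_filter.1 hq).2.le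
  · obtain ⟨h1, h2, h3⟩ := mem_filter.1 (B.max'_mem hB)
    refine ⟨B.max' hB + 1, by omega, ⟨hn, fun s hs => hL s (by omega), fun p hp hbad => ?_⟩,
      Or.inr ⟨_, rfl, h2, h3⟩⟩
    have h := le_max' B (cell p) (mem_filter.2 ⟨mem_image_of_mem _ (mem_filter.1 hp).1,
      by have := (mem_filter.1 hp).2; omega, hbad⟩)
    have := (mem_filter.1 hp).2
    omega

/-- The part above a scale, with the totient split. -/
lemma exists_highPart {n : ℕ} (hn : n ≠ 0) (c : ℕ) : ∃ h, 0 < h ∧ h ∣ n ∧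
    Nat.totient h * Nat.totient (lowPart n c) = Nat.totient n := by
  classical
  set h := ∏ p ∈ high n c, p ^ n.factorization p
  have e : h * lowPart n c = n := by
    have h1 := Nat.prod_factorization_pow_eq_self hn
    rw [Finsupp.prod, Nat.support_factorization] at h1
    conv_rhs => rw [← h1, ← prod_filter_mul_prod_filter_not n.primeFactors fun p => c ≤ cell p]
    simp [h, high, lowPart, not_le]
  have hcop : Nat.Coprime h (lowPart n c) := by
    refine Nat.Coprime.prod_left fun p hp => Nat.Coprime.prod_right fun q hq => ?_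
    obtain ⟨hp1, hp2⟩ := mem_filter.1 hp
    obtain ⟨hq1, hq2⟩ := mem_filter.1 hq
    refine Nat.coprime_pow_primes _ _ (Nat.prime_of_mem_primeFactors hp1)
      (Nat.prime_of_mem_primeFactors hq1) fun hpq => ?_
    subst hpq
    omega
  refine ⟨h, prod_pos fun p hp => pow_pos (Nat.prime_of_mem_primeFactors (mem_filter.1 hp).1).pos _,
    ⟨_, e.symm⟩, ?_⟩
  rw [← Nat.totient_mul hcop, e]

lemma eventually_tail (C : ℝ) : ∀ᶠ T : ℕ in atTop,
    C * Real.log (((T + 2 : ℕ) : ℝ) + 3) ^ 2 + Real.log ((T : ℝ) + 3) + (T : ℝ) ^ ((1 : ℝ) / 64) ≤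
      (T : ℝ) ^ ((1 : ℝ) / 32) := by
  filter_upwards [eventually_ge_atTop 1,
    ((tendsto_rpow_atTop (show (0 : ℝ) < 1 / 64 by norm_num)).comp
      tendsto_natCast_atTop_atTop).eventually_ge_atTop (|C| * 1536 ^ 2 + 1536 + 1)] with T hT hbig
  simp only [Function.comp_apply] at hbig
  have hT' : (1 : ℝ) ≤ T := by exact_mod_cast hT
  set x := (T : ℝ) ^ ((1 : ℝ) / 256)
  have hx : 1 ≤ x := Real.one_le_rpow hT' (by norm_num)
  have hlog : Real.log (((T + 2 : ℕ) : ℝ) + 3) ≤ 1536 * x := by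
    calc Real.log (((T + 2 : ℕ) : ℝ) + 3)
        ≤ (((T + 2 : ℕ) : ℝ) + 3) ^ ((1 : ℝ) / 256) / (1 / 256) :=
          Real.log_le_rpow_div (by positivity) (by norm_num)
      _ ≤ (6 * T) ^ ((1 : ℝ) / 256) / (1 / 256) := by gcongr; push_cast; linarith
      _ ≤ _ := by
          rw [Real.mul_rpow (by norm_num) (by linarith)]
          have : (6 : ℝ) ^ ((1 : ℝ) / 256) ≤ 6 :=
            Real.rpow_le_self_of_one_le (by norm_num) (by norm_num)
          nlinarith
  have h0 : 0 ≤ Real.log (((T + 2 : ℕ) : ℝ) + 3) := Real.log_nonneg (by push_cast; linarith)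
  have hlog' : Real.log ((T : ℝ) + 3) ≤ 1536 * x :=
    (Real.log_le_log (by linarith) (by push_cast; linarith)).trans hlog
  have hsq := mul_le_mul hlog hlog h0 (by positivity)
  set y := (T : ℝ) ^ ((1 : ℝ) / 64)
  have hy1 : x ≤ y := Real.rpow_le_rpow_of_exponent_le hT' (by norm_num)
  have hy2 : x * x ≤ y := by
    rw [← Real.rpow_add (by linarith)]
    exact Real.rpow_le_rpow_of_exponent_le hT' (by norm_num)
  have hy3 : (T : ℝ) ^ ((1 : ℝ) / 32) = y * y := by
    rw [← Real.rpow_add (by linarith)]; norm_num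
  have h1 : C * Real.log (((T + 2 : ℕ) : ℝ) + 3) ^ 2 ≤ |C| * (1536 ^ 2 * y) := by
    refine (mul_le_mul_of_nonneg_right (le_abs_self C) (sq_nonneg _)).trans
      (mul_le_mul_of_nonneg_left ?_ (abs_nonneg C))
    nlinarith
  rw [hy3]
  nlinarith [mul_le_mul_of_nonneg_right hbig (show 0 ≤ y by linarith)]

end Upper

open Upper in
theorem upper (hC : CellStatement) (hT : TotalStatement) (hB : BadStatement) :
    UpperStatement := by
  classical
  obtain ⟨t0, ht0⟩ := hC
  obtain ⟨CT, hCT, hTot⟩ := hT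
  obtain ⟨sB, hsB⟩ := hB
  obtain ⟨N, hN⟩ := eventually_atTop.1 eventually_large
  set S0 := max N (max t0 (max sB 1)) with hS0
  refine ⟨S0, fun s0 hs0 => ?_⟩
  set c0 := ⌈s0⌉₊
  have hc0 : S0 ≤ c0 := by
    exact_mod_cast hs0.trans (Nat.le_ceil s0)
  set W0 := Real.exp (CT * Real.log ((c0 : ℝ) + 3) ^ 2) +
    ∑' s : ℕ, Real.exp (-(s : ℝ) ^ ((1 : ℝ) / 16))
  set C0 := Real.exp (3 * ∑' t, delta t)
  refine ⟨max (C0 * W0) 1, lt_max_of_lt_right one_pos, ?_⟩
  obtain ⟨T0, hT0⟩ := eventually_atTop.1 ((eventually_tail CT).and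
    ((eventually_ge_atTop ((c0 + sB + 2) * (c0 + sB + 2))).and eventually_large))
  refine ⟨T0, fun T hTT F hF => ?_⟩
  obtain ⟨htail, hTbig, hTL⟩ := hT0 T hTT
  set S := cutoff T
  have hcS : c0 + sB + 2 ≤ S := Nat.le_sqrt.2 hTbig
  choose! nv hnv using hF
  have hcut : ∀ v ∈ F, ∃ c, c0 ≤ c ∧ Clean (nv v) c ∧ ((c = c0 ∧ CellsLe (lowPart (nv v) c) c0) ∨
      ∃ s, c = s + 1 ∧ c0 ≤ s ∧ Bad s (lowPart (nv v) c)) := fun v hv =>
    exists_cut (hnv v hv).1.1.ne' fun s hs => hN s (by omega)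
  choose! cut hcut using hcut
  have hsle : ∀ v ∈ F, ∀ s, Bad s (lowPart (nv v) (cut v)) → s ≤ T + 2 := by
    intro v hv s hs
    obtain ⟨p, hp, rfl⟩ := hs.1.2
    rw [primeFactors_lowPart (hnv v hv).1.1.ne'] at hp
    exact (hnv v hv).1.2.1 p (mem_filter.1 hp).1
  set FA := F.filter fun v => S + 1 < cut v
  set FB := F.filter fun v => ¬ S + 1 < cut v
  have hA : invSum FA ≤ Real.exp (-(T : ℝ) ^ ((1 : ℝ) / 64)) := by
    set Hs := FA.image fun v => Nat.totient
      (if h : nv v ≠ 0 then (exists_highPart h (cut v)).choose else 1)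
    set Ms := FA.image fun v => Nat.totient (lowPart (nv v) (cut v))
    have h1 : invSum Hs ≤ Real.exp (CT * Real.log (((T + 2 : ℕ) : ℝ) + 3) ^ 2) := by
      refine hTot (T + 2) _ fun a ha => ?_
      obtain ⟨v, hv, rfl⟩ := mem_image.1 ha
      have hv' := (mem_filter.1 hv).1
      obtain ⟨⟨hn, hle, -⟩, -⟩ := hnv v hv'
      rw [dif_pos hn.ne']
      obtain ⟨h0, hd, -⟩ := (exists_highPart hn.ne' (cut v)).choose_spec
      exact ⟨_, ⟨h0, fun p hp => hle p (Nat.primeFactors_mono hd hn.ne' hp)⟩, rfl⟩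
    have h2 : invSum Ms ≤ ((T : ℝ) + 3) * Real.exp (-(T : ℝ) ^ ((1 : ℝ) / 32)) := by
      refine (invSum_bad_range_le hsB (Ioc S (T + 2)) (fun s hs => ?_) Ms fun a ha => ?_).trans ?_
      · have := (mem_Ioc.1 hs).1
        omega
      · obtain ⟨v, hv, rfl⟩ := mem_image.1 ha
        obtain ⟨hv', hlt⟩ := mem_filter.1 hv
        obtain ⟨-, -, ⟨hc, -⟩ | ⟨s, hs, -, hbad⟩⟩ := hcut v hv'
        · omega
        · exact ⟨s, mem_Ioc.2 ⟨by omega, hsle v hv' s hbad⟩, _,
            ⟨Nat.pos_of_ne_zero (lowPart_ne_zero _ _), hbad⟩, rfl⟩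
      · refine (sum_le_card_nsmul _ _ (Real.exp (-(T : ℝ) ^ ((1 : ℝ) / 32)))
          fun s hs => Real.exp_le_exp.2 (neg_le_neg ?_)).trans ?_
        · show (T : ℝ) ^ ((1 : ℝ) / 32) ≤ _
          rw [show (1 : ℝ) / 32 = (1 / 2) * (1 / 16) by norm_num,
            Real.rpow_mul (Nat.cast_nonneg T), ← Real.sqrt_eq_rpow]
          refine Real.rpow_le_rpow (Real.sqrt_nonneg _) ?_ (by norm_num)
          have h := Real.real_sqrt_le_nat_sqrt_succ (a := T)
          have h' : ((S + 1 : ℕ) : ℝ) ≤ s := Nat.cast_le.2 (mem_Ioc.1 hs).1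
          push_cast at h'
          exact h.trans h'
        · rw [nsmul_eq_mul]
          refine mul_le_mul_of_nonneg_right ?_ (Real.exp_pos _).le
          have : (Ioc S (T + 2)).card ≤ T + 3 := by rw [Nat.card_Ioc]; omega
          exact_mod_cast this
    calc invSum FA ≤ invSum Hs * invSum Ms := invSum_le_mul fun v hv => by
          have hn := (hnv v (mem_filter.1 hv).1).1.1
          refine ⟨_, mem_image_of_mem _ hv, _, mem_image_of_mem _ hv, ?_⟩
          rw [dif_pos hn.ne', ((exists_highPart hn.ne' (cut v)).choose_spec).2.2]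
          exact (hnv v (mem_filter.1 hv).1).2
      _ ≤ _ * (((T : ℝ) + 3) * Real.exp (-(T : ℝ) ^ ((1 : ℝ) / 32))) :=
          mul_le_mul h1 h2 (invSum_nonneg _) (Real.exp_pos _).le
      _ ≤ _ := by
          rw [← Real.exp_log (show (0 : ℝ) < (T : ℝ) + 3 by positivity), ← Real.exp_add,
            ← Real.exp_add, Real.exp_le_exp]
          linarith
  set Ps := FB.image fun v => high (nv v) (cut v)
  set Ws := FB.image fun v => Nat.totient (lowPart (nv v) (cut v))
  set X1 := (1 - 6 * eps T) * (T : ℝ)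
  set X2 := (1 + 6 * eps T) * (T : ℝ)
  have heps : 0 ≤ eps T := by unfold eps; positivity
  have hX : X1 ≤ X2 := by
    have := mul_nonneg heps (Nat.cast_nonneg (α := ℝ) T)
    simp only [X1, X2]
    linarith
  have hW : invSum Ws ≤ W0 := by
    set W1 := Ws.filter fun a => ∃ m, (0 < m ∧ CellsLe m c0) ∧ Nat.totient m = a
    refine (invSum_mono (G := W1 ∪ (Ws \ W1)) fun a ha => ?_).trans
      ((invSum_union_le _ _).trans (add_le_add (hTot c0 W1 fun a ha => (mem_filter.1 ha).2)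
        ((invSum_bad_range_le hsB (Icc c0 (T + 2)) (fun s hs => ?_) (Ws \ W1)
          fun a ha => ?_).trans
          (summable_bad_weight.sum_le_tsum _ fun s _ => (Real.exp_pos _).le))))
    · by_cases h : a ∈ W1
      · exact mem_union_left _ h
      · exact mem_union_right _ (mem_sdiff.2 ⟨ha, h⟩)
    · have := (mem_Icc.1 hs).1
      omega
    · obtain ⟨hW, hW1⟩ := mem_sdiff.1 ha
      obtain ⟨v, hv, rfl⟩ := mem_image.1 hW
      obtain ⟨hv', -⟩ := mem_filter.1 hv
      have hpos : 0 < lowPart (nv v) (cut v) := Nat.pos_of_ne_zero (lowPart_ne_zero _ _)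
      obtain ⟨-, -, ⟨-, hle⟩ | ⟨s, -, hs, hbad⟩⟩ := hcut v hv'
      · exact absurd (mem_filter.2 ⟨hW, _, ⟨hpos, hle⟩, rfl⟩) hW1
      · exact ⟨s, mem_Icc.2 ⟨hs, hsle v hv' s hbad⟩, _, ⟨hpos, hbad⟩, rfl⟩
  have hcard : ∀ P ∈ Ps, P.card ∈ range (Kvol T + 1) := by
    intro P hP
    obtain ⟨v, hv, rfl⟩ := mem_image.1 hP
    obtain ⟨hv', -⟩ := mem_filter.1 hv
    have h := (hcut v hv').2.1.count (T + 2)
    rw [filter_true_of_mem (s := high (nv v) (cut v))
      fun x hx => (hnv v hv').1.2.1 x (mem_filter.1 hx).1] at h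
    have := hTL.shift
    rw [mem_range, Kvol]
    omega
  have hPs : ∑ P ∈ Ps, ∏ p ∈ P, ((p : ℝ) - 1)⁻¹ ≤
      C0 * (MPlus (Kvol T) s0 X2 - MPlus (Kvol T) s0 X1) := by
    rw [← sum_fiberwise_of_maps_to hcard, MPlus, MPlus, ← sum_sub_distrib, mul_sum]
    refine sum_le_sum fun k _ => ?_
    have e : (volume (PolyPlus k s0 X2)).toReal - (volume (PolyPlus k s0 X1)).toReal =
        (volume (PolyPlus k s0 X2 \ PolyPlus k s0 X1)).toReal := by
      rw [measure_sdiff (polyPlus_mono hX) (measurableSet_polyPlus k s0 X1).nullMeasurableSet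
        (volume_polyPlus_ne_top k s0 X1), ENNReal.toReal_sub_of_le
          (measure_mono (polyPlus_mono hX)) (volume_polyPlus_ne_top k s0 X2)]
    rw [e]
    refine weight_le_volume _ _ ((measurableSet_polyPlus k s0 X2).diff
      (measurableSet_polyPlus k s0 X1)) (ne_top_of_le_ne_top (volume_polyPlus_ne_top k s0 X2)
        (measure_mono Set.sdiff_subset)) _ delta C0 (Real.exp_pos _).le ?_
      (fun q hq => inv_nonneg.2 (sub_nonneg.2 (by exact_mod_cast hq.one_le))) ?_
    · intro P hP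
      obtain ⟨hP', hk⟩ := mem_filter.1 hP
      obtain ⟨v, hv, rfl⟩ := mem_image.1 hP'
      obtain ⟨hv', -⟩ := mem_filter.1 hv
      refine ⟨hk, fun p hp => Nat.prime_of_mem_primeFactors (mem_filter.1 hp).1,
        prod_delta_le (hcut v hv').2.1.multiplicity, fun p hp => ?_⟩
      have hge : c0 ≤ cell p := (hcut v hv').1.trans (mem_filter.1 hp).2
      exact shifted_mass_le (by omega) (ht0 _ (by omega))
    · intro P hP z hz h0 hm
      obtain ⟨hP', hk⟩ := mem_filter.1 hP
      obtain ⟨v, hv, rfl⟩ := mem_image.1 hP'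
      obtain ⟨hv', hle⟩ := mem_filter.1 hv
      refine mem_layer (hcut v hv').2.1 hTL ?_ (not_lt.1 hle) (hnv v hv').1 z hz h0 hm
      exact (Nat.le_ceil s0).trans (Nat.cast_le.2 (hcut v hv').1)
  have hB' : invSum FB ≤ C0 * (MPlus (Kvol T) s0 X2 - MPlus (Kvol T) s0 X1) * W0 := by
    set Prods := Ps.image fun P => ∏ p ∈ P, (p - 1)
    calc invSum FB ≤ invSum Prods * invSum Ws := invSum_le_mul fun v hv => by
          obtain ⟨hv', -⟩ := mem_filter.1 hv
          refine ⟨_, mem_image_of_mem _ (mem_image_of_mem _ hv), _, mem_image_of_mem _ hv, ?_⟩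
          rw [← totient_split (hnv v hv').1.1.ne' _ fun p hp => (hcut v hv').2.1.sq hp]
          exact (hnv v hv').2
      _ ≤ _ := by
          have hsum : invSum Prods ≤ ∑ P ∈ Ps, ∏ p ∈ P, ((p : ℝ) - 1)⁻¹ := by
            refine (sum_image_le_of_nonneg fun u _ => inv_nonneg.2 (Nat.cast_nonneg _)).trans
              (le_of_eq (sum_congr rfl fun P hP => ?_))
            obtain ⟨v, -, rfl⟩ := mem_image.1 hP
            rw [Nat.cast_prod, ← prod_inv_distrib]
            refine prod_congr rfl fun p hp => ?_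
            rw [Nat.cast_sub (Nat.prime_of_mem_primeFactors (mem_filter.1 hp).1).one_le]
            simp
          exact mul_le_mul (hsum.trans hPs) hW (invSum_nonneg _)
            ((sum_nonneg fun P hP => prod_nonneg fun p hp => by
              obtain ⟨v, -, rfl⟩ := mem_image.1 hP
              exact inv_nonneg.2 (sub_nonneg.2 (by exact_mod_cast
                (Nat.prime_of_mem_primeFactors (mem_filter.1 hp).1).one_le))).trans hPs)
  have hD : 0 ≤ MPlus (Kvol T) s0 X2 - MPlus (Kvol T) s0 X1 := by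
    refine sub_nonneg.2 (sum_le_sum fun k _ => ?_)
    exact ENNReal.toReal_mono (volume_polyPlus_ne_top k s0 X2) (measure_mono (polyPlus_mono hX))
  have hsplit : invSum FA + invSum FB = invSum F :=
    sum_filter_add_sum_filter_not F (fun v => S + 1 < cut v) fun v => ((v : ℝ))⁻¹
  rw [← hsplit, add_comm]
  refine add_le_add (hB'.trans ?_) (hA.trans (le_mul_of_one_le_left (Real.exp_pos _).le
    (le_max_right _ _)))
  rw [mul_right_comm]
  exact mul_le_mul_of_nonneg_right (le_max_left _ _) hD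

end P031
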