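import Vale.Agent.P031.Statements

/-!
M8: regularity of the polytope volumes.

A homothety compares `PolyPlus` at `X'` with `PolyPlus` at `X`: only coordinates at the floor are
lost, and they form short suffixes.  A diagonal map with determinant bounded below sends
`PolyPlus` into `PolyMinus` at half the floor.
-/

open Finset MeasureTheory
open scoped Topology Pointwise

noncomputable section

namespace P031

/-- `a_n ≥ 0` for `n ≥ 1`. -/
lemma aCoef_nonneg_vol {n : ℕ} (hn : 1 ≤ n) : 0 ≤ aCoef n := by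
  have hn' : (1 : ℝ) ≤ n := by exact_mod_cast hn
  have h1 : Real.log 2 ≤ Real.log ((n : ℝ) + 1) := Real.log_le_log (by norm_num) (by linarith)
  have h2 : 1 - (((n : ℝ) + 1) / n)⁻¹ ≤ Real.log (((n : ℝ) + 1) / n) :=
    Real.one_sub_inv_le_log_of_pos (by positivity)
  rw [Real.log_div (by positivity) (by positivity)] at h2
  have h3 : 1 - (((n : ℝ) + 1) / n)⁻¹ = 1 / ((n : ℝ) + 1) := by field_simp; ring
  rw [h3, div_le_iff₀ (by positivity : (0:ℝ) < (n : ℝ) + 1)] at h2
  have h4 : 1 / 2 ≤ (n : ℝ) * (Real.log ((n : ℝ) + 1) - Real.log n) := by nlinarith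
  unfold aCoef
  nlinarith [Real.log_two_gt_d9]

lemma aCoef_one_add_two : (1.29 : ℝ) ≤ aCoef 1 + aCoef 2 := by
  have h : Real.log ((2:ℝ) ^ 19) ≤ Real.log ((3:ℝ) ^ 12) :=
    Real.log_le_log (by norm_num) (by norm_num)
  rw [Real.log_pow, Real.log_pow] at h
  push_cast at h
  unfold aCoef
  norm_num
  linarith [Real.log_two_gt_d9]

lemma tailSum_eq_sum_ite {k : ℕ} (z : Fin k → ℝ) (i : Fin k) :
    tailSum z i = ∑ j : Fin k, if i < j then aCoef ((j : ℕ) - i) * z j else 0 := by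
  rw [tailSum, Finset.sum_filter]

lemma tailSum_smul {k : ℕ} (a : ℝ) (z : Fin k → ℝ) (i : Fin k) :
    tailSum (a • z) i = a * tailSum z i := by
  simp only [tailSum, Pi.smul_apply, smul_eq_mul, Finset.mul_sum]
  exact Finset.sum_congr rfl fun j _ => by ring

lemma topSum_smul {k : ℕ} (a : ℝ) (z : Fin k → ℝ) : topSum (a • z) = a * topSum z := by
  simp only [topSum, Pi.smul_apply, smul_eq_mul, Finset.mul_sum]
  exact Finset.sum_congr rfl fun j _ => by ring

lemma tailSum_init_le {k : ℕ} (z : Fin (k + 1) → ℝ) (hz : 0 ≤ z (Fin.last k)) (i : Fin k) :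
    tailSum (fun j : Fin k => z j.castSucc) i ≤ tailSum z i.castSucc := by
  rw [tailSum_eq_sum_ite, tailSum_eq_sum_ite, Fin.sum_univ_castSucc]
  simp only [Fin.val_castSucc, Fin.castSucc_lt_castSucc_iff, Fin.castSucc_lt_last, if_true,
    Fin.val_last]
  have : 0 ≤ aCoef (k - (i : ℕ)) * z (Fin.last k) :=
    mul_nonneg (aCoef_nonneg_vol (by omega)) hz
  linarith

lemma topSum_init_le {k : ℕ} (z : Fin (k + 1) → ℝ) (hz : 0 ≤ z (Fin.last k)) :
    topSum (fun j : Fin k => z j.castSucc) ≤ topSum z := by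
  simp only [topSum]
  rw [Fin.sum_univ_castSucc]
  simp only [Fin.val_castSucc, Fin.val_last]
  have : 0 ≤ aCoef (k + 1) * z (Fin.last k) := mul_nonneg (aCoef_nonneg_vol (by omega)) hz
  linarith

lemma volume_polyPlus_ne_top (k : ℕ) (s0 X : ℝ) : volume (PolyPlus k s0 X) ≠ ⊤ := by
  have hsub : PolyPlus k s0 X ⊆ Set.Icc (fun _ => s0) (fun _ => X) := fun z hz => ⟨hz.1, hz.2.1⟩
  refine ne_top_of_le_ne_top ?_ (measure_mono hsub)
  exact (isCompact_Icc.measure_lt_top).ne

lemma volume_polyMinus_ne_top (k : ℕ) (s0 X : ℝ) : volume (PolyMinus k s0 X) ≠ ⊤ := by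
  have hsub : PolyMinus k s0 X ⊆ Set.Icc (fun _ => s0) (fun _ => X) := fun z hz => ⟨hz.1, hz.2.1⟩
  refine ne_top_of_le_ne_top ?_ (measure_mono hsub)
  exact (isCompact_Icc.measure_lt_top).ne

/-- The homothety with ratio `X / X'`. -/
lemma smul_polyPlus_subset {k : ℕ} {s0 X X' lam : ℝ} (hs : 0 < s0) (h0 : 0 < lam) (h1 : lam ≤ 1)
    (hX : lam * X' ≤ X) :
    lam • PolyPlus k s0 X' ⊆ PolyPlus k (lam * s0) X := by
  rintro w ⟨z, ⟨hlo, hup, hanti, htail, htop⟩, rfl⟩
  refine ⟨fun i => ?_, fun i => ?_, fun i j hij => ?_, fun i => ?_, ?_⟩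
  · simpa using mul_le_mul_of_nonneg_left (hlo i) h0.le
  · simpa using (mul_le_mul_of_nonneg_left (hup i) h0.le).trans hX
  · simpa using mul_le_mul_of_nonneg_left (hanti i j hij) h0.le
  · change tailSum (lam • z) i ≤ _
    rw [tailSum_smul]
    simp only [Pi.smul_apply, smul_eq_mul]
    have hz : 0 < z i := lt_of_lt_of_le hs (hlo i)
    have hle : z i ^ (-(1:ℝ) / 8) ≤ (lam * z i) ^ (-(1:ℝ) / 8) :=
      Real.rpow_le_rpow_of_nonpos (mul_pos h0 hz) (mul_le_of_le_one_left hz.le h1) (by norm_num)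
    calc lam * tailSum z i ≤ lam * ((1 + 4 * z i ^ (-(1:ℝ) / 8)) * z i) :=
          mul_le_mul_of_nonneg_left (htail i) h0.le
      _ = (1 + 4 * z i ^ (-(1:ℝ) / 8)) * (lam * z i) := by ring
      _ ≤ _ := mul_le_mul_of_nonneg_right (by linarith) (mul_pos h0 hz).le
  · change topSum (lam • z) ≤ _
    rw [topSum_smul]
    exact (mul_le_mul_of_nonneg_left htop h0.le).trans hX

/-- Lowering the floor costs short last coordinates. -/
lemma volume_polyPlus_succ_le (k : ℕ) {a b X : ℝ} (ha : 0 < a) (hab : a ≤ b) :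
    (volume (PolyPlus (k + 1) a X)).toReal ≤
      (volume (PolyPlus (k + 1) b X)).toReal + (b - a) * (volume (PolyPlus k a X)).toReal := by
  let e := MeasurableEquiv.piFinSuccAbove (fun _ : Fin (k + 1) => ℝ) (Fin.last k)
  have hmp : MeasurePreserving e volume (volume.prod volume) :=
    volume_preserving_piFinSuccAbove (fun _ : Fin (k + 1) => ℝ) (Fin.last k)
  have hsub : PolyPlus (k + 1) a X ⊆
      PolyPlus (k + 1) b X ∪ e ⁻¹' (Set.Icc a b ×ˢ PolyPlus k a X) := by
    rintro z ⟨hlo, hup, hanti, htail, htop⟩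
    rcases le_total b (z (Fin.last k)) with h | h
    · exact Or.inl ⟨fun i => h.trans (hanti i (Fin.last k) (Fin.le_last i)), hup, hanti, htail,
        htop⟩
    · refine Or.inr ?_
      have he : e z = (z (Fin.last k), fun j : Fin k => z j.castSucc) := by
        simp only [e, MeasurableEquiv.piFinSuccAbove_apply]
        refine Prod.ext rfl (funext fun j => ?_)
        simp [Fin.init]
      rw [Set.mem_preimage, he]
      have hz : 0 ≤ z (Fin.last k) := ha.le.trans (hlo _)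
      exact ⟨⟨hlo _, h⟩, fun i => hlo _, fun i => hup _,
        fun i j hij => hanti _ _ (Fin.castSucc_le_castSucc_iff.2 hij),
        fun i => (tailSum_init_le z hz i).trans (htail _),
        (topSum_init_le z hz).trans htop⟩
  have hprod : volume (e ⁻¹' (Set.Icc a b ×ˢ PolyPlus k a X))
      = ENNReal.ofReal (b - a) * volume (PolyPlus k a X) := by
    rw [hmp.measure_preimage_equiv, Measure.prod_prod, Real.volume_Icc]
  have htop2 : ENNReal.ofReal (b - a) * volume (PolyPlus k a X) ≠ ⊤ :=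
    ENNReal.mul_ne_top ENNReal.ofReal_ne_top (volume_polyPlus_ne_top _ _ _)
  refine (ENNReal.toReal_mono (ENNReal.add_ne_top.2 ⟨volume_polyPlus_ne_top _ _ _, htop2⟩)
    ((measure_mono hsub).trans ((measure_union_le _ _).trans (le_of_eq (by rw [hprod]))))).trans ?_
  rw [ENNReal.toReal_add (volume_polyPlus_ne_top _ _ _) htop2, ENNReal.toReal_mul,
    ENNReal.toReal_ofReal (by linarith)]

/-- Summed over the dimensions. -/
lemma sum_lower_floor_le (K : ℕ) {a b X : ℝ} (ha : 0 < a) (hab : a ≤ b) :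
    (1 - (b - a)) * MPlus K a X ≤ MPlus K b X := by
  have h0 : (volume (PolyPlus 0 a X)).toReal ≤ (volume (PolyPlus 0 b X)).toReal := by
    refine ENNReal.toReal_mono (volume_polyPlus_ne_top _ _ _) (measure_mono ?_)
    rintro z ⟨-, hup, hanti, htail, htop⟩
    exact ⟨fun i => i.elim0, hup, hanti, htail, htop⟩
  have hstep : MPlus K a X ≤ MPlus K b X + (b - a) * MPlus K a X := by
    unfold MPlus
    rw [Finset.sum_range_succ' (fun k => (volume (PolyPlus k a X)).toReal),
      Finset.sum_range_succ' (fun k => (volume (PolyPlus k b X)).toReal), mul_add]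
    have hs := Finset.sum_le_sum fun k (_ : k ∈ Finset.range K) =>
      volume_polyPlus_succ_le k (X := X) ha hab
    rw [Finset.sum_add_distrib, ← Finset.mul_sum] at hs
    have hle : ∑ k ∈ Finset.range K, (volume (PolyPlus k a X)).toReal ≤
        ∑ k ∈ Finset.range (K + 1), (volume (PolyPlus k a X)).toReal :=
      Finset.sum_le_sum_of_subset_of_nonneg (Finset.range_mono (Nat.le_succ K))
        fun _ _ _ => ENNReal.toReal_nonneg
    rw [Finset.sum_range_succ' (fun k => (volume (PolyPlus k a X)).toReal)] at hle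
    have := mul_le_mul_of_nonneg_left hle (sub_nonneg.2 hab)
    linarith
  linarith

/-- The homothety, summed over the dimensions. -/
lemma mPlus_scale (K : ℕ) {s0 X X' lam : ℝ} (hs : 0 < s0) (h0 : 0 < lam) (h1 : lam ≤ 1)
    (hX : lam * X' ≤ X) :
    lam ^ K * (1 - (s0 - lam * s0)) * MPlus K s0 X' ≤ (1 - (s0 - lam * s0)) * MPlus K (lam * s0) X
    ∨ 1 < s0 - lam * s0 := by
  rcases lt_or_ge 1 (s0 - lam * s0) with h | h
  · exact Or.inr h
  refine Or.inl ?_
  rw [mul_comm (lam ^ K), mul_assoc]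
  refine mul_le_mul_of_nonneg_left ?_ (by linarith)
  unfold MPlus
  rw [Finset.mul_sum]
  refine Finset.sum_le_sum fun k hk => ?_
  have hk' : k ≤ K := Nat.lt_succ_iff.1 (Finset.mem_range.1 hk)
  calc lam ^ K * (volume (PolyPlus k s0 X')).toReal
      ≤ lam ^ k * (volume (PolyPlus k s0 X')).toReal :=
        mul_le_mul_of_nonneg_right (pow_le_pow_of_le_one h0.le h1 hk') ENNReal.toReal_nonneg
    _ = (volume (lam • PolyPlus k s0 X')).toReal := by
        rw [Measure.addHaar_smul_of_nonneg volume h0.le, Module.finrank_fin_fun, ENNReal.toReal_mul,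
          ENNReal.toReal_ofReal (pow_nonneg h0.le _)]
    _ ≤ _ := ENNReal.toReal_mono (volume_polyPlus_ne_top _ _ _)
        (measure_mono (smul_polyPlus_subset hs h0 h1 hX))

/-- The ratio `1.2 ^ (-1/16)`. -/
def rr : ℝ := (1.2 : ℝ) ^ (-(1:ℝ) / 16)

lemma rr_pos : 0 < rr := Real.rpow_pos_of_pos (by norm_num) _

lemma rr_lt_one : rr < 1 := Real.rpow_lt_one_of_one_lt_of_neg (by norm_num) (by norm_num)

lemma rr_sq : rr ^ 2 = (1.2 : ℝ) ^ (-(1:ℝ) / 8) := by
  rw [rr, ← Real.rpow_natCast, ← Real.rpow_mul (by norm_num)]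
  norm_num

/-- Coordinates of a profile grow geometrically away from the end, in the scale `· ^ (-1/8)`. -/
lemma geom_growth {k : ℕ} {s0 X : ℝ} (hs : 0 < s0) (hsmall : 4 * s0 ^ (-(1:ℝ) / 8) ≤ 0.075)
    {z : Fin k → ℝ} (hz : z ∈ PolyPlus k s0 X) : ∀ n : ℕ, ∀ i : Fin k, (i : ℕ) + n + 1 = k →
      z i ^ (-(1:ℝ) / 8) * rr ≤ s0 ^ (-(1:ℝ) / 8) * rr ^ n := by
  obtain ⟨hlo, -, hanti, htail, -⟩ := hz
  have hpos : ∀ i, 0 < z i := fun i => lt_of_lt_of_le hs (hlo i)
  have hu : ∀ i, z i ^ (-(1:ℝ) / 8) ≤ s0 ^ (-(1:ℝ) / 8) := fun i =>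
    Real.rpow_le_rpow_of_nonpos hs (hlo i) (by norm_num)
  have hs' : 0 ≤ s0 ^ (-(1:ℝ) / 8) := (Real.rpow_pos_of_pos hs _).le
  intro n
  induction n using Nat.twoStepInduction with
  | zero =>
    intro i _
    rw [pow_zero, mul_one]
    exact (mul_le_of_le_one_right (Real.rpow_pos_of_pos (hpos i) _).le rr_lt_one.le).trans (hu i)
  | one =>
    intro i _
    rw [pow_one]
    exact mul_le_mul_of_nonneg_right (hu i) rr_pos.le
  | more n ih _ =>
    intro i hi
    set i1 : Fin k := ⟨(i : ℕ) + 1, by omega⟩ with hi1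
    set i2 : Fin k := ⟨(i : ℕ) + 2, by omega⟩ with hi2
    have htwo : aCoef 1 * z i1 + aCoef 2 * z i2 ≤ tailSum z i := by
      have hne : i1 ≠ i2 := by
        intro h; have := congrArg Fin.val h; simp only [hi1, hi2] at this; omega
      have hsub : ({i1, i2} : Finset (Fin k)) ⊆ univ.filter (fun j => i < j) := by
        intro j hj
        simp only [mem_insert, mem_singleton] at hj
        simp only [mem_filter, mem_univ, true_and, Fin.lt_def]
        rcases hj with rfl | rfl <;> simp [hi1, hi2]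
      refine le_trans (le_of_eq ?_) (Finset.sum_le_sum_of_subset_of_nonneg hsub fun j hj _ =>
        mul_nonneg (aCoef_nonneg_vol ?_) (hpos j).le)
      · rw [Finset.sum_pair hne]
        simp [hi1, hi2]
      · have := Fin.lt_def.1 (Finset.mem_filter.1 hj).2
        omega
    have h12 : z i2 ≤ z i1 := hanti i1 i2 (Fin.le_def.2 (by simp [hi1, hi2]))
    have hgrow : 1.2 * z i2 ≤ z i := by
      have h1 := mul_le_mul_of_nonneg_left h12 (aCoef_nonneg_vol (le_refl 1))
      have h2 := mul_le_mul_of_nonneg_right aCoef_one_add_two (hpos i2).le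
      have h3 := mul_le_mul_of_nonneg_right
        (show 1 + 4 * z i ^ (-(1:ℝ) / 8) ≤ 1.075 by linarith [hu i]) (hpos i).le
      linarith [htail i, htwo]
    have hstep : z i ^ (-(1:ℝ) / 8) ≤ rr ^ 2 * z i2 ^ (-(1:ℝ) / 8) := by
      rw [rr_sq, ← Real.mul_rpow (by norm_num) (hpos i2).le]
      exact Real.rpow_le_rpow_of_nonpos (mul_pos (by norm_num) (hpos i2)) hgrow (by norm_num)
    calc z i ^ (-(1:ℝ) / 8) * rr ≤ rr ^ 2 * z i2 ^ (-(1:ℝ) / 8) * rr :=
          mul_le_mul_of_nonneg_right hstep rr_pos.le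
      _ = rr ^ 2 * (z i2 ^ (-(1:ℝ) / 8) * rr) := by ring
      _ ≤ rr ^ 2 * (s0 ^ (-(1:ℝ) / 8) * rr ^ n) :=
          mul_le_mul_of_nonneg_left (ih i2 (by simp only [hi2]; omega)) (sq_nonneg _)
      _ = _ := by ring

/-- The diagonal factors. -/
def cfac (k : ℕ) (A : ℝ) (i : Fin k) : ℝ := Real.exp (-(A * rr ^ (k - 1 - (i : ℕ))))

/-- The exponent used in `cfac`. -/
def Aexp (s0 : ℝ) : ℝ := 40 * s0 ^ (-(1:ℝ) / 8) / (1 - rr)

lemma diag_maps {k : ℕ} {s0 X : ℝ} (hs : 0 < s0) (hsmall : 4 * s0 ^ (-(1:ℝ) / 8) ≤ 0.075)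
    (hA : Aexp s0 ≤ 1 / 2) {z : Fin k → ℝ} (hz : z ∈ PolyPlus k s0 X) :
    (fun i => cfac k (Aexp s0) i * z i) ∈ PolyMinus k (s0 / 2) X := by
  have hgrow := geom_growth hs hsmall hz
  obtain ⟨hlo, hup, hanti, htail, htop⟩ := hz
  have hr0 := rr_pos
  have hr1 := rr_lt_one
  have hs' : 0 < s0 ^ (-(1:ℝ) / 8) := Real.rpow_pos_of_pos hs _
  have hA0 : 0 ≤ Aexp s0 := div_nonneg (by positivity) (by linarith)
  set A := Aexp s0 with hAdef
  have hpos : ∀ i, 0 < z i := fun i => lt_of_lt_of_le hs (hlo i)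
  have hc1 : ∀ i, cfac k A i ≤ 1 := fun i => Real.exp_le_one_iff.2 (by
    have : 0 ≤ A * rr ^ (k - 1 - (i : ℕ)) := by positivity
    linarith)
  have hc2 : ∀ i, 1 / 2 ≤ cfac k A i := fun i => by
    have h := Real.add_one_le_exp (-(A * rr ^ (k - 1 - (i : ℕ))))
    have : A * rr ^ (k - 1 - (i : ℕ)) ≤ A :=
      mul_le_of_le_one_right hA0 (pow_le_one₀ hr0.le hr1.le)
    unfold cfac; linarith
  have hc0 : ∀ i, 0 < cfac k A i := fun i => Real.exp_pos _
  set w := fun i => cfac k A i * z i with hw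
  have hwz : ∀ i, w i ≤ z i := fun i => mul_le_of_le_one_left (hpos i).le (hc1 i)
  have hwu : ∀ i, w i ^ (-(1:ℝ) / 8) ≤ 2 * z i ^ (-(1:ℝ) / 8) := fun i => by
    have h2 : z i / 2 ≤ w i := by
      have := mul_le_mul_of_nonneg_right (hc2 i) (hpos i).le
      simp only [hw]; linarith
    refine (Real.rpow_le_rpow_of_nonpos (by linarith [hpos i]) h2 (by norm_num)).trans ?_
    rw [Real.div_rpow (hpos i).le (by norm_num), div_le_iff₀ (Real.rpow_pos_of_pos (by norm_num) _)]
    have hhalf : (1:ℝ) / 2 ≤ (2:ℝ) ^ (-(1:ℝ) / 8) := by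
      rw [one_div, ← Real.rpow_neg_one]
      exact Real.rpow_le_rpow_of_exponent_le (by norm_num) (by norm_num)
    have := mul_le_mul_of_nonneg_left hhalf (Real.rpow_pos_of_pos (hpos i) (-(1:ℝ) / 8)).le
    linarith
  have hu075 : ∀ i, z i ^ (-(1:ℝ) / 8) ≤ 0.02 := fun i => by
    have := Real.rpow_le_rpow_of_nonpos hs (hlo i) (show -(1:ℝ) / 8 ≤ 0 by norm_num)
    linarith
  -- the key factor between an index and a later one
  have hkey : ∀ i j : Fin k, i < j →
      cfac k A j * (1 + 30 * z i ^ (-(1:ℝ) / 8)) ≤ cfac k A i := by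
    intro i j hij
    have hij' := Fin.lt_def.1 hij
    have hjk := j.2
    set u := z i ^ (-(1:ℝ) / 8) with hu
    have hu0 : 0 < u := Real.rpow_pos_of_pos (hpos i) _
    obtain ⟨n, hn⟩ : ∃ n, k - 1 - (i : ℕ) = n + 1 := ⟨k - 2 - (i : ℕ), by omega⟩
    have hun : u ≤ s0 ^ (-(1:ℝ) / 8) * rr ^ n := by
      refine le_of_mul_le_mul_right ?_ hr0
      refine (hgrow (n + 1) i (by omega)).trans (le_of_eq ?_)
      ring
    have hpow : rr ^ n ≤ rr ^ (k - 1 - (j : ℕ)) := pow_le_pow_of_le_one hr0.le hr1.le (by omega)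
    have hgap : 30 * u ≤ A * rr ^ (k - 1 - (j : ℕ)) - A * rr ^ (n + 1) := by
      have hA' : A * (1 - rr) = 40 * s0 ^ (-(1:ℝ) / 8) := by
        rw [hAdef, Aexp, div_mul_cancel₀ _ (by linarith)]
      calc 30 * u ≤ 40 * (s0 ^ (-(1:ℝ) / 8) * rr ^ n) := by linarith
        _ = A * (1 - rr) * rr ^ n := by rw [hA']; ring
        _ ≤ _ := by
            have := mul_le_mul_of_nonneg_left hpow hA0
            rw [pow_succ]; linarith
    unfold cfac
    rw [hn]
    calc Real.exp (-(A * rr ^ (k - 1 - (j : ℕ)))) * (1 + 30 * u)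
        ≤ Real.exp (-(A * rr ^ (k - 1 - (j : ℕ)))) * Real.exp (30 * u) :=
          mul_le_mul_of_nonneg_left (by linarith [Real.add_one_le_exp (30 * u)]) (Real.exp_pos _).le
      _ ≤ _ := by rw [← Real.exp_add]; exact Real.exp_le_exp.2 (by linarith)
  refine ⟨fun i => ?_, fun i => (hwz i).trans (hup i), fun i j hij => ?_, fun i => ?_, ?_⟩
  · have h1 := mul_le_mul (hc2 i) (hlo i) hs.le (hc0 i).le
    linarith
  · set u := z i ^ (-(1:ℝ) / 8) with hu
    have hu0 : 0 < u := Real.rpow_pos_of_pos (hpos i) _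
    change w j ≤ _ * w i
    have h3 : 1 - 6 * u ≤ 1 - 3 * w i ^ (-(1:ℝ) / 8) := by linarith [hwu i]
    refine le_trans ?_ (mul_le_mul_of_nonneg_right h3 (mul_pos (hc0 i) (hpos i)).le)
    have h4 : 1 ≤ (1 - 6 * u) * (1 + 30 * u) := by nlinarith [hu075 i]
    have hk := hkey i j hij
    calc w j ≤ cfac k A j * z i := mul_le_mul_of_nonneg_left (hanti i j hij.le) (hc0 j).le
      _ ≤ cfac k A j * ((1 - 6 * u) * (1 + 30 * u)) * z i :=
          mul_le_mul_of_nonneg_right (le_mul_of_one_le_right (hc0 j).le h4) (hpos i).le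
      _ = (1 - 6 * u) * (cfac k A j * (1 + 30 * u) * z i) := by ring
      _ ≤ _ := mul_le_mul_of_nonneg_left (mul_le_mul_of_nonneg_right hk (hpos i).le)
          (by linarith [hu075 i])
  · set u := z i ^ (-(1:ℝ) / 8) with hu
    have hu0 : 0 < u := Real.rpow_pos_of_pos (hpos i) _
    change tailSum w i ≤ _ * w i
    have h3 : 1 - 8 * u ≤ 1 - 4 * w i ^ (-(1:ℝ) / 8) := by linarith [hwu i]
    refine le_trans ?_ (mul_le_mul_of_nonneg_right h3 (mul_pos (hc0 i) (hpos i)).le)
    have h4 : 1 + 4 * u ≤ (1 - 8 * u) * (1 + 30 * u) := by nlinarith [hu075 i]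
    have h1 : tailSum w i * (1 + 30 * u) ≤ cfac k A i * tailSum z i := by
      simp only [tailSum, Finset.mul_sum, Finset.sum_mul]
      refine Finset.sum_le_sum fun j hj => ?_
      have hij := (Finset.mem_filter.1 hj).2
      have hnn : 0 ≤ aCoef ((j : ℕ) - (i : ℕ)) * z j :=
        mul_nonneg (aCoef_nonneg_vol (by have := Fin.lt_def.1 hij; omega)) (hpos j).le
      have := mul_le_mul_of_nonneg_right (hkey i j hij) hnn
      simp only [hw]
      rw [← hu] at this
      linarith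
    refine le_of_mul_le_mul_right ?_ (show (0:ℝ) < 1 + 30 * u by positivity)
    calc tailSum w i * (1 + 30 * u) ≤ cfac k A i * tailSum z i := h1
      _ ≤ cfac k A i * ((1 + 4 * u) * z i) := mul_le_mul_of_nonneg_left (htail i) (hc0 i).le
      _ ≤ cfac k A i * ((1 - 8 * u) * (1 + 30 * u) * z i) :=
          mul_le_mul_of_nonneg_left (mul_le_mul_of_nonneg_right h4 (hpos i).le) (hc0 i).le
      _ = _ := by simp only [hw]; ring
  · refine le_trans ?_ htop
    exact Finset.sum_le_sum fun j _ =>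
      mul_le_mul_of_nonneg_left (hwz j) (aCoef_nonneg_vol (by omega))

/-- `PolyPlus` is at most a constant times `PolyMinus` at half the floor. -/
lemma volume_plus_le_minus (k : ℕ) {s0 X : ℝ} (hs : 0 < s0)
    (hsmall : 4 * s0 ^ (-(1:ℝ) / 8) ≤ 0.075) (hA : Aexp s0 ≤ 1 / 2) :
    (volume (PolyPlus k s0 X)).toReal ≤
      Real.exp (Aexp s0 / (1 - rr)) * (volume (PolyMinus k (s0 / 2) X)).toReal := by
  set A := Aexp s0 with hAdef
  have hr0 := rr_pos
  have hr1 := rr_lt_one
  have hA0 : 0 ≤ A := div_nonneg (by positivity) (by linarith)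
  set f := Matrix.toLin' (Matrix.diagonal (cfac k A)) with hf
  have himg : f '' PolyPlus k s0 X ⊆ PolyMinus k (s0 / 2) X := by
    rintro _ ⟨z, hz, rfl⟩
    have : f z = fun i => cfac k A i * z i := funext fun i => by
      simp [hf, Matrix.mulVec_diagonal]
    rw [this]; exact diag_maps hs hsmall hA hz
  have hdet : LinearMap.det f = ∏ i, cfac k A i := by
    rw [hf, LinearMap.det_toLin', Matrix.det_diagonal]
  have hprod : Real.exp (-(A / (1 - rr))) ≤ ∏ i, cfac k A i := by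
    simp only [cfac, ← Real.exp_sum, Finset.sum_neg_distrib, ← Finset.mul_sum]
    refine Real.exp_le_exp.2 (neg_le_neg ?_)
    rw [Fin.sum_univ_eq_sum_range (fun i => rr ^ (k - 1 - i)), Finset.sum_range_reflect,
      div_eq_mul_inv]
    refine mul_le_mul_of_nonneg_left ?_ hA0
    rw [← one_div, le_div_iff₀ (by linarith), geom_sum_mul_neg]
    linarith [pow_pos hr0 k]
  have h := ENNReal.toReal_mono (volume_polyMinus_ne_top k (s0 / 2) X) (measure_mono himg)
  rw [Measure.addHaar_image_linearMap, ENNReal.toReal_mul,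
    ENNReal.toReal_ofReal (abs_nonneg _), hdet,
    abs_of_pos (show 0 < ∏ i, cfac k A i from Finset.prod_pos fun i _ => Real.exp_pos _)] at h
  have h2 := (mul_le_mul_of_nonneg_right hprod ENNReal.toReal_nonneg).trans h
  rw [Real.exp_neg, inv_mul_le_iff₀ (Real.exp_pos _)] at h2
  exact h2

lemma mPlus_le_mMinus (K : ℕ) {s0 X : ℝ} (hs : 0 < s0)
    (hsmall : 4 * s0 ^ (-(1:ℝ) / 8) ≤ 0.075) (hA : Aexp s0 ≤ 1 / 2) :
    MPlus K s0 X ≤ Real.exp (Aexp s0 / (1 - rr)) * MMinus K (s0 / 2) X := by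
  rw [MPlus, MMinus, Finset.mul_sum]
  exact Finset.sum_le_sum fun k _ => volume_plus_le_minus k hs hsmall hA

/-- M8. -/
theorem volume_regularity : VolumeStatement := by
  have hr0 := rr_pos
  have hr1 := rr_lt_one
  have ht : Filter.Tendsto (fun s : ℝ => s ^ (-(1:ℝ) / 8)) Filter.atTop (𝓝 0) := by
    simpa only [neg_div] using tendsto_rpow_neg_atTop (show (0:ℝ) < 1 / 8 by norm_num)
  obtain ⟨S0, hS0⟩ := Filter.eventually_atTop.1
    (ht.eventually (eventually_lt_nhds (show (0:ℝ) < (1 - rr) / 100 from div_pos (by linarith) (by norm_num))))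
  refine ⟨max S0 1, fun s0 hs0 η hη => ?_⟩
  have hs : 0 < s0 := lt_of_lt_of_le one_pos ((le_max_right _ _).trans hs0)
  have hsm := hS0 s0 ((le_max_left _ _).trans hs0)
  have hsmall : 4 * s0 ^ (-(1:ℝ) / 8) ≤ 0.075 := by
    have : (1 - rr) / 100 ≤ 1 / 100 := by linarith
    linarith
  have hA : Aexp s0 ≤ 1 / 2 := by
    rw [Aexp, div_le_iff₀ (by linarith)]; linarith
  set C := Real.exp (Aexp s0 / (1 - rr)) with hC
  have hCpos : 0 < C := Real.exp_pos _
  set B : ℝ := 20000 * 32 * 1024 + 32 * s0 with hB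
  have hBpos : 0 < B := by positivity
  set Q : ℝ := B * max 4 (4 * C / η) with hQ
  refine ⟨max 1 (Q ^ 16), fun X X' hX hXX' hX' K hK => ?_⟩
  have hX1 : 1 ≤ X := (le_max_left _ _).trans hX
  have hXpos : 0 < X := by linarith
  set v := X ^ (-(1:ℝ) / 16) with hv
  have hv0 : 0 < v := Real.rpow_pos_of_pos hXpos _
  have hv1 : v ≤ 1 := Real.rpow_le_one_of_one_le_of_nonpos hX1 (by norm_num)
  have hQv : Q * v ≤ 1 := by
    have hQ16 : Q ^ 16 ≤ X := (le_max_right _ _).trans hX
    have hQ0 : 0 ≤ Q := by positivity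
    have h := Real.rpow_le_rpow (by positivity) hQ16 (show (0:ℝ) ≤ 1 / 16 by norm_num)
    rw [← Real.rpow_natCast, ← Real.rpow_mul hQ0] at h
    norm_num at h
    calc Q * v ≤ X ^ ((1:ℝ) / 16) * v := mul_le_mul_of_nonneg_right h hv0.le
      _ = 1 := by rw [hv, ← Real.rpow_add hXpos]; norm_num
  set eps := B * v with heps
  have heps0 : 0 < eps := mul_pos hBpos hv0
  have heps4 : 4 * eps ≤ 1 := by
    calc 4 * eps ≤ max 4 (4 * C / η) * eps := mul_le_mul_of_nonneg_right (le_max_left _ _) heps0.le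
      _ = Q * v := by rw [hQ, heps]; ring
      _ ≤ 1 := hQv
  have hepsC : 4 * C * eps ≤ η := by
    have h : 4 * C / η * eps ≤ 1 :=
      (mul_le_mul_of_nonneg_right (le_max_right 4 _) heps0.le).trans (le_of_eq_of_le
        (by rw [hQ, heps]; ring) hQv)
    rw [div_mul_eq_mul_div, div_le_one hη] at h
    exact h
  have hX'pos : 0 < X' := hXpos.trans_le hXX'
  set lam := X / X' with hlam
  have hl0 : 0 < lam := div_pos hXpos hX'pos
  have hl1 : lam ≤ 1 := (div_le_one hX'pos).2 hXX'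
  have hlX : lam * X' ≤ X := le_of_eq (div_mul_cancel₀ _ hX'pos.ne')
  set w := 32 * X ^ (-(1:ℝ) / 8) with hw
  have hw0 : 0 ≤ w := by positivity
  have h1l : 1 - w ≤ lam := by
    rw [hlam, le_div_iff₀ hX'pos]
    rcases le_total 1 w with h | h
    · have h1 := mul_nonpos_of_nonpos_of_nonneg (by linarith : 1 - w ≤ 0) hX'pos.le
      linarith
    · calc (1 - w) * X' ≤ (1 - w) * (X * (1 + w)) :=
            mul_le_mul_of_nonneg_left hX' (by linarith)
        _ = X - X * w ^ 2 := by ring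
        _ ≤ X := by
            have : 0 ≤ X * w ^ 2 := by positivity
            linarith
  have hvv : X ^ (-(1:ℝ) / 8) = v * v := by rw [hv, ← Real.rpow_add hXpos]; norm_num
  have hKw : (K : ℝ) * w ≤ 20000 * 32 * 1024 * v := by
    have hlog := Real.log_le_rpow_div hXpos.le (show (0:ℝ) < 1 / 32 by norm_num)
    have h2 : Real.log X ^ 2 ≤ 1024 * X ^ ((1:ℝ) / 16) := by
      refine (pow_le_pow_left₀ (Real.log_nonneg hX1) hlog 2).trans (le_of_eq ?_)
      rw [div_pow, ← Real.rpow_natCast, ← Real.rpow_mul hXpos.le]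
      norm_num
      ring
    calc (K : ℝ) * w ≤ 20000 * (1024 * X ^ ((1:ℝ) / 16)) * w :=
          mul_le_mul_of_nonneg_right
            (hK.trans (mul_le_mul_of_nonneg_left h2 (by norm_num))) hw0
      _ = 20000 * 32 * 1024 * (X ^ ((1:ℝ) / 16) * X ^ (-(1:ℝ) / 8)) := by rw [hw]; ring
      _ = _ := by rw [hv, ← Real.rpow_add hXpos]; norm_num
  have hdelta : s0 - lam * s0 ≤ 32 * s0 * v := by
    have h1 : (1 - lam) * s0 ≤ w * s0 := mul_le_mul_of_nonneg_right (by linarith) hs.le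
    have h2 : w ≤ 32 * v := by
      rw [hw, hvv]
      exact mul_le_mul_of_nonneg_left (mul_le_of_le_one_left hv0.le hv1) (by norm_num)
    have h3 := mul_le_mul_of_nonneg_right h2 hs.le
    linarith
  have hdeps : s0 - lam * s0 ≤ eps := by
    have : 0 ≤ 20000 * 32 * 1024 * v := by positivity
    rw [heps, hB]; linarith
  have hKeps : (K : ℝ) * (1 - lam) ≤ eps := by
    have h1 : (K : ℝ) * (1 - lam) ≤ K * w :=
      mul_le_mul_of_nonneg_left (by linarith) (Nat.cast_nonneg _)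
    have : 0 ≤ 32 * s0 * v := by positivity
    rw [heps, hB]; linarith
  have hpow : 1 - eps ≤ lam ^ K := by
    have h := one_add_mul_le_pow (show -2 ≤ lam - 1 by linarith) K
    rw [add_sub_cancel] at h
    linarith
  have hMp : 0 ≤ MPlus K s0 X' := Finset.sum_nonneg fun _ _ => ENNReal.toReal_nonneg
  have hM0 : 0 ≤ MPlus K s0 X := Finset.sum_nonneg fun _ _ => ENNReal.toReal_nonneg
  have hscale := (mPlus_scale K hs hl0 hl1 hlX).resolve_right (by linarith)
  have hlow := sum_lower_floor_le K (a := lam * s0) (b := s0) (X := X) (mul_pos hl0 hs)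
    (mul_le_of_le_one_left hs.le hl1)
  have hmain : (1 - eps) * (1 - eps) * MPlus K s0 X' ≤ MPlus K s0 X := by
    refine le_trans ?_ (hscale.trans hlow)
    refine mul_le_mul_of_nonneg_right ?_ hMp
    exact mul_le_mul hpow (by linarith) (by linarith) (pow_nonneg hl0.le _)
  have hdiff : MPlus K s0 X' - MPlus K s0 X ≤ 4 * eps * MPlus K s0 X := by
    have h5 : MPlus K s0 X' ≤ 2 * MPlus K s0 X := by
      have : (1:ℝ) / 2 ≤ (1 - eps) * (1 - eps) := by nlinarith
      have := mul_le_mul_of_nonneg_right this hMp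
      linarith
    have h6 := mul_le_mul_of_nonneg_left h5 (show 0 ≤ 2 * eps by linarith)
    have h7 : 0 ≤ eps * eps * MPlus K s0 X' := by positivity
    linarith
  calc MPlus K s0 X' - MPlus K s0 X ≤ 4 * eps * MPlus K s0 X := hdiff
    _ ≤ 4 * eps * (C * MMinus K (s0 / 2) X) :=
        mul_le_mul_of_nonneg_left (mPlus_le_mMinus K hs hsmall hA) (by linarith)
    _ = 4 * C * eps * MMinus K (s0 / 2) X := by ring
    _ ≤ η * MMinus K (s0 / 2) X :=
        mul_le_mul_of_nonneg_right hepsC (Finset.sum_nonneg fun _ _ => ENNReal.toReal_nonneg)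

end P031
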